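import Crest.Agent.R17.C.Lfun

/-! Row 17, block C (owner helper6): C6, `ZF (7/8)` gives S0023. -/

set_option autoImplicit false

namespace Crest.Agent.R17.C

open scoped ComplexConjugate
open Complex MeasureTheory

open Crest.NumberTheoryR.EisensteinField

variable {μ : O} (ψ : RayClassChar (Ideal.span {μ}))

/-- the character on elements, level `72 μ` -/
noncomputable def elt (n : O) : ℂ := ψ.toFun (Ideal.span {n}) * one (72 * μ) n

theorem lka_sup {a b : O} : Ideal.span {a} ⊔ Ideal.span {b} = ⊤ ↔ IsCoprime a b := by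
  rw [← Ideal.isCoprime_iff_sup_eq, Ideal.isCoprime_span_singleton_iff]

theorem lka_tw : IsTw μ fun n => ψ.toFun (Ideal.span {n}) := by
  have hm : ∀ a b : O, ψ.toFun (Ideal.span {a * b}) =
      ψ.toFun (Ideal.span {a}) * ψ.toFun (Ideal.span {b}) := fun a b => by
    rw [← Ideal.span_singleton_mul_span_singleton, ψ.map_mul]
  have hz : ∀ a : O, ¬ IsCoprime a μ → ψ.toFun (Ideal.span {a}) = 0 := fun a ha =>
    ψ.eq_zero_of_not_coprime _ fun h => ha (lka_sup.1 h)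
  refine ⟨ψ.map_span_of_sub_one_mem 1 (by simp), hm, fun a b hab => ?_, hz⟩
  by_cases ha : IsCoprime a μ
  · obtain ⟨c, hc, h1⟩ := twb_inv ha
    have h2 : μ ∣ b * c - 1 := by
      have : b * c - 1 = a * c - 1 - (a - b) * c := by ring
      rw [this]
      exact dvd_sub h1 (hab.mul_right c)
    refine mul_right_cancel₀ (ψ.ne_zero_of_coprime _ (lka_sup.2 hc)) ?_
    rw [← hm, ← hm, ψ.map_span_of_sub_one_mem _ (Ideal.mem_span_singleton.2 h1),
      ψ.map_span_of_sub_one_mem _ (Ideal.mem_span_singleton.2 h2)]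
  · rw [hz a ha, hz b fun hb => ha (twb_cop (twb_symm hab) hb)]

theorem tw_elt (hμ : μ ≠ 0) : IsTw (72 * μ) (elt ψ) := by
  exact (lka_tw ψ).lift (dvd_mul_left μ 72)

theorem norm_ray_le (hμ : μ ≠ 0) (n : O) : ‖ψ.toFun (Ideal.span {n})‖ ≤ 1 := by
  exact (lka_tw ψ).norm_le hμ n

theorem lka_avoid {p a q : O} (hp : Prime p) (ha : IsCoprime a q) :
    ∃ b, q ∣ a - b ∧ IsCoprime b (p * q) := by
  by_cases h : p ∣ a
  · have h1 : q ∣ a - (a + q) := by simp
    refine ⟨a + q, h1, IsCoprime.mul_right ?_ (twb_cop h1 ha)⟩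
    refine ((hp.irreducible.coprime_iff_not_dvd).2 fun h2 => hp.not_isUnit ?_).symm
    exact ha.isUnit_of_dvd' h ((dvd_add_right h).1 h2)
  · exact ⟨a, by simp, IsCoprime.mul_right ((hp.irreducible.coprime_iff_not_dvd).2 h).symm ha⟩

theorem lka_72 {n : O} (h2 : IsCoprime n 2) (h3 : IsCoprime n 3) : IsCoprime n 72 := by
  have : (72 : O) = 2 ^ 3 * 3 ^ 2 := by norm_num
  rw [this]
  exact h2.pow_right.mul_right h3.pow_right

/-- `(O / 72 μ)ˣ → (O / μ)ˣ` is onto; pass to the primary associate -/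
theorem isPrincipal_of_princ (hμ : μ ≠ 0) (h : Princ (elt ψ)) : IsPrincipalChar ψ := by
  intro I hI
  obtain ⟨a, rfl⟩ : ∃ a : O, I = Ideal.span {a} := (IsPrincipalIdealRing.principal I).principal
  obtain ⟨b, h1, h2⟩ := lka_avoid prime_two (lka_sup.1 hI)
  obtain ⟨c, h3, h4⟩ := lka_avoid prime_lam h2
  have h5 : ¬ lam ∣ c := fun h5 =>
    prime_lam.not_isUnit (h4.of_mul_right_left.isUnit_of_dvd' h5 dvd_rfl)
  obtain ⟨u, n, hu, hn, rfl⟩ := exists_unit_prim h5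
  have h6 : IsCoprime n (72 * μ) :=
    (lka_72 h4.of_mul_right_right.of_mul_right_left.of_mul_left_right hn.coprime_three).mul_right
      h4.of_mul_right_right.of_mul_right_right.of_mul_left_right
  have h7 : elt ψ n = 1 := (h ⟨n, hn⟩).resolve_left ((tw_elt ψ hμ).ne_zero.2 h6)
  rw [elt, one, if_pos h6, mul_one] at h7
  have h8 := (lka_tw ψ).per a b h1
  have h9 := (lka_tw ψ).per b (u * n) ((dvd_mul_left μ 2).trans h3)
  rw [h8, h9, Ideal.span_singleton_mul_left_unit hu, h7]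

theorem l23b_inj : Function.Injective
    fun p : ℕ × Pr => (Ideal.span {lam ^ p.1 * (p.2 : O)} : Ideal O) := by
  rintro ⟨i, n⟩ ⟨i', n'⟩ h
  obtain ⟨u, hu⟩ := Ideal.span_singleton_eq_span_singleton.1 h
  have := decomp_unique (i := i) (i' := i') u.isUnit isUnit_one (Pr_prim n) (Pr_prim n')
    (by rw [one_mul, ← hu]; ring)
  exact Prod.ext this.2.1 (Subtype.ext this.2.2)

theorem l23b_surj {I : Ideal O} (hI : I ≠ ⊥) : I ∈ Set.range
    fun p : ℕ × Pr => (Ideal.span {lam ^ p.1 * (p.2 : O)} : Ideal O) := by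
  obtain ⟨g, rfl⟩ : ∃ g, I = Ideal.span {g} := ⟨_, (Ideal.span_singleton_generator I).symm⟩
  obtain ⟨ζ, i, m, hζ, hm, rfl⟩ := exists_decomp (n := g) (by simpa using hI)
  refine ⟨(i, ⟨m, hm⟩), Ideal.span_singleton_eq_span_singleton.2 ?_⟩
  rw [mul_assoc]
  exact (associated_unit_mul_left _ _ hζ).symm

theorem l23b_pow (a : O) (i : ℕ) :
    ψ.toFun (Ideal.span {a ^ i}) = ψ.toFun (Ideal.span {a}) ^ i := by
  induction i with
  | zero => rw [pow_zero, pow_zero]; exact ψ.map_span_of_sub_one_mem 1 (by simp)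
  | succ i ih => rw [pow_succ, ← Ideal.span_singleton_mul_span_singleton, ψ.map_mul, ih, pow_succ]

theorem l23b_fiber {s : ℂ} (hs : s ≠ 0) (n : ℕ) :
    ∑' I : (Ideal.absNorm : Ideal O → ℕ) ⁻¹' {n},
      ψ.toFun I * (Ideal.absNorm (I : Ideal O) : ℂ) ^ (-s) = LSeries.term (coeff ψ) s n := by
  have e : ∀ I : (Ideal.absNorm : Ideal O → ℕ) ⁻¹' {n},
      ψ.toFun I * (Ideal.absNorm (I : Ideal O) : ℂ) ^ (-s) = ψ.toFun I * (n : ℂ) ^ (-s) :=
    fun I => by rw [show Ideal.absNorm (I : Ideal O) = n from I.2]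
  rw [tsum_congr e, tsum_mul_right]
  by_cases hn : n = 0
  · rw [hn, Nat.cast_zero, zero_cpow (neg_ne_zero.2 hs), mul_zero, LSeries.term_zero]
  rw [LSeries.term_of_ne_zero hn, cpow_neg, div_eq_mul_inv, tsum_subtype _ ψ.toFun, tsum_eq_finsum,
    coeff]
  · congr 1
    refine finsum_congr fun I => ?_
    by_cases hI : Ideal.absNorm I = n
    · rw [if_pos hI, Set.indicator_of_mem (by exact hI)]
    · rw [if_neg hI, Set.indicator_of_notMem (by exact hI)]
  · exact (Ideal.finite_setOfPred_absNorm_eq n).subset Set.support_indicator_subset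

/-- non-zero ideals `↔ λ^i n`, `n` primary (`LSeries` ignores the term `0`; regroup the absolutely
convergent sum over `ℕ × Pr` by the norm) -/
theorem LSeries_coeff_eq (hμ : μ ≠ 0) {s : ℂ} (hs : 1 < s.re) :
    LSeries (coeff ψ) s = (1 - ψ.toFun (Ideal.span {lam}) * (3 : ℂ) ^ (-s))⁻¹ *
      DS (fun n => ψ.toFun (Ideal.span {n})) s := by
  have hs0 : s ≠ 0 := by
    rintro rfl
    norm_num at hs
  have hx : ‖ψ.toFun (Ideal.span {lam}) * (3 : ℂ) ^ (-s)‖ < 1 := by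
    have h3 := Complex.norm_natCast_cpow_of_pos (n := 3) (by norm_num) (-s)
    rw [Nat.cast_ofNat, Nat.cast_ofNat] at h3
    rw [norm_mul, h3]
    refine (mul_le_of_le_one_left (by positivity) (norm_ray_le ψ hμ lam)).trans_lt ?_
    exact Real.rpow_lt_one_of_one_lt_of_neg (by norm_num) (by rw [neg_re]; linarith)
  have h2 := summable_norm_DS (ψ := fun n => ψ.toFun (Ideal.span {n}))
    (fun n => norm_ray_le ψ hμ n) hs
  have h2' : HasSum (fun n : Pr => ψ.toFun (Ideal.span {(n : O)}) * (nm n : ℂ) ^ (-s))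
      (DS (fun n => ψ.toFun (Ideal.span {n})) s) := (Summable.of_norm h2).hasSum
  have h2'' := summable_mul_of_summable_norm
    (f := fun i : ℕ => (ψ.toFun (Ideal.span {lam}) * (3 : ℂ) ^ (-s)) ^ i)
    (g := fun n : Pr => ψ.toFun (Ideal.span {(n : O)}) * (nm n : ℂ) ^ (-s))
    (summable_norm_geometric_of_norm_lt_one hx) h2
  have h3 := HasSum.mul (f := fun i : ℕ => (ψ.toFun (Ideal.span {lam}) * (3 : ℂ) ^ (-s)) ^ i)
    (g := fun n : Pr => ψ.toFun (Ideal.span {(n : O)}) * (nm n : ℂ) ^ (-s))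
    (hasSum_geometric_of_norm_lt_one hx) h2' h2''
  have e : ∀ p : ℕ × Pr, (ψ.toFun (Ideal.span {lam}) * (3 : ℂ) ^ (-s)) ^ p.1 *
      (ψ.toFun (Ideal.span {(p.2 : O)}) * (nm p.2 : ℂ) ^ (-s)) =
      ψ.toFun (Ideal.span {lam ^ p.1 * (p.2 : O)}) *
        (Ideal.absNorm (Ideal.span {lam ^ p.1 * (p.2 : O)} : Ideal O) : ℂ) ^ (-s) := by
    intro p
    have e1 : Ideal.absNorm (Ideal.span {lam ^ p.1 * (p.2 : O)} : Ideal O) = 3 ^ p.1 * nN p.2 := by
      change nN _ = _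
      rw [nN_mul, nN_pow, nN_lam]
    have e2 := Complex.natCast_cpow_natCast_mul 3 p.1 (-s)
    rw [Complex.cpow_nat_mul, Nat.cast_ofNat] at e2
    rw [e1, Nat.cast_mul, Complex.natCast_mul_natCast_cpow, Nat.cast_pow, Nat.cast_ofNat, ← e2,
      ← Ideal.span_singleton_mul_span_singleton, ψ.map_mul, l23b_pow, nm, ofReal_natCast]
    ring
  simp only [e] at h3
  have h4 := (l23b_inj.hasSum_iff
    (f := fun I : Ideal O => ψ.toFun I * (Ideal.absNorm I : ℂ) ^ (-s)) fun I hI => by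
      rw [not_not.1 (mt l23b_surj hI), Ideal.absNorm_bot, Nat.cast_zero,
        zero_cpow (neg_ne_zero.2 hs0), mul_zero]).1 h3
  have h5 := h4.tsum_fiberwise Ideal.absNorm
  simp only [l23b_fiber ψ hs0] at h5
  exact h5.tsum_eq

/-- on `Pr`, `elt ψ n = ψ((n)) · one (-2) n`; `DS_mask_prime` for the primary prime `-2` -/
theorem DS_elt (hμ : μ ≠ 0) {s : ℂ} (hs : 1 < s.re) :
    DS (elt ψ) s = DS (fun n => ψ.toFun (Ideal.span {n})) s *
      (1 - ψ.toFun (Ideal.span {(-2 : O)}) * (4 : ℂ) ^ (-s)) := by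
  have h4 : ((nm (-2) : ℝ) : ℂ) = 4 := by
    rw [nm_neg, nm, nN_two]
    norm_num
  rw [← h4, ← DS_mask_prime (ψ := fun n => ψ.toFun (Ideal.span {n}))
    (fun a b => (lka_tw ψ).mul a b) (fun n => norm_ray_le ψ hμ n) prime_two.neg prim_neg_two hs]
  refine tsum_congr fun n => ?_
  congr 1
  by_cases h : IsCoprime (n : O) μ
  · have : IsCoprime (n : O) (72 * μ) ↔ IsCoprime (n : O) (-2) := by
      rw [IsCoprime.neg_right_iff]
      exact ⟨fun h1 => h1.of_mul_right_left.of_isCoprime_of_dvd_right ⟨36, by norm_num⟩,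
        fun h1 => (lka_72 h1 (Pr_prim n).coprime_three).mul_right h⟩
    unfold elt one
    rw [propext this]
  · have := (lka_tw ψ).zero n h
    simp only [elt, this, zero_mul]

theorem lka_ne {c : ℂ} (hc : ‖c‖ ≤ 1) {k : ℕ} (hk : 2 ≤ k) {s : ℂ} (hs : 0 < s.re) :
    1 - c * (k : ℂ) ^ (-s) ≠ 0 := by
  have h1 : ‖(k : ℂ) ^ (-s)‖ < 1 := by
    rw [norm_natCast_cpow_of_pos (by omega), neg_re]
    exact Real.rpow_lt_one_of_one_lt_of_neg (by exact_mod_cast hk) (by linarith)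
  have h2 : ‖c * (k : ℂ) ^ (-s)‖ < 1 := by
    rw [norm_mul]
    exact (mul_le_of_le_one_left (norm_nonneg _) hc).trans_lt h1
  intro h
  rw [sub_eq_zero] at h
  rw [← h, norm_one] at h2
  exact lt_irrefl _ h2

theorem lka_diff (c : ℂ) {a : ℂ} (ha : a ≠ 0) : Differentiable ℂ fun s : ℂ => 1 - c * a ^ (-s) :=
  fun _ => (((differentiableAt_id.neg).const_cpow (Or.inl ha)).const_mul c).const_sub 1

theorem link23 (h : ZF (7 / 8)) (m : Ideal O3) (hm : m ≠ ⊥) (ψ : RayClassChar m) :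
    ∃ G : ℂ → ℂ, (∀ s : ℂ, 1 < s.re → G s = LSeries (coeff ψ) s) ∧
      ∀ s : ℂ, 7 / 8 < s.re → (¬ IsPrincipalChar ψ ∨ s ≠ 1) → DifferentiableAt ℂ G s ∧ G s ≠ 0 := by
  obtain ⟨μ, rfl⟩ : ∃ a : O, m = Ideal.span {a} := (IsPrincipalIdealRing.principal m).principal
  have hμ : μ ≠ 0 := fun h0 => hm (Ideal.span_singleton_eq_bot.2 h0)
  have hq : Lev (72 * μ) := lev_seventyTwo.mul hμ
  have ht := tw_elt ψ hμ
  have h3 : ∀ s : ℂ, 0 < s.re → 1 - ψ.toFun (Ideal.span {lam}) * (3 : ℂ) ^ (-s) ≠ 0 :=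
    fun s hs => by exact_mod_cast lka_ne (norm_ray_le ψ hμ lam) (k := 3) (by norm_num) hs
  have h4 : ∀ s : ℂ, 0 < s.re → 1 - ψ.toFun (Ideal.span {(-2 : O)}) * (4 : ℂ) ^ (-s) ≠ 0 :=
    fun s hs => by exact_mod_cast lka_ne (norm_ray_le ψ hμ (-2)) (k := 4) (by norm_num) hs
  have hp : ∀ s : ℂ, (¬ IsPrincipalChar ψ ∨ s ≠ 1) → pf (elt ψ) s ≠ 0 := fun s hs => by
    unfold pf
    split_ifs with h1
    · exact sub_ne_zero.2 (hs.resolve_left (not_not.2 (isPrincipal_of_princ ψ hμ h1)))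
    · exact one_ne_zero
  have hpd : Differentiable ℂ (pf (elt ψ)) := by
    unfold pf
    split_ifs <;> fun_prop
  refine ⟨fun s => (1 - ψ.toFun (Ideal.span {lam}) * (3 : ℂ) ^ (-s))⁻¹ *
    (1 - ψ.toFun (Ideal.span {(-2 : O)}) * (4 : ℂ) ^ (-s))⁻¹ * Lx (elt ψ) s / pf (elt ψ) s,
    fun s hs => ?_, fun s hs hs1 => ⟨?_, ?_⟩⟩
  · have a1 := h4 s (by linarith)
    have a2 := hp s (Or.inr fun h1 => by simp [h1] at hs)
    simp only [LSeries_coeff_eq ψ hμ hs, Lx_eq hq ht hs, DS_elt ψ hμ hs]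
    field_simp
  · exact ((((lka_diff _ (by norm_num) s).inv (h3 s (by linarith))).mul
      ((lka_diff _ (by norm_num) s).inv (h4 s (by linarith)))).mul (Lx_diff hq ht s)).div (hpd s)
      (hp s hs1)
  · exact div_ne_zero (mul_ne_zero (mul_ne_zero (inv_ne_zero (h3 s (by linarith)))
      (inv_ne_zero (h4 s (by linarith)))) (h _ _ hq ht s hs)) (hp s hs1)

end Crest.Agent.R17.C
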