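import Crest.Agent.R17.C.Link22
import Crest.Agent.R17.C.Link23

/-! Row 17, block C (owner helper6): the infimum argument. -/

set_option autoImplicit false

namespace Crest.Agent.R17.C

open scoped ComplexConjugate
open Complex MeasureTheory

theorem zf78 (h : StStep) : ZF (7 / 8) := by
  have hne : ({β : ℝ | 7 / 8 ≤ β ∧ ZF β} : Set ℝ).Nonempty := ⟨1, by norm_num, zf_one⟩
  have hbd : BddBelow ({β : ℝ | 7 / 8 ≤ β ∧ ZF β} : Set ℝ) := ⟨7 / 8, fun _ hβ => hβ.1⟩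
  set β₀ := sInf ({β : ℝ | 7 / 8 ≤ β ∧ ZF β} : Set ℝ)
  have h0 : ZF β₀ := fun q ψ hq hψ s hs => by
    obtain ⟨β, hβ, hlt⟩ := exists_lt_of_csInf_lt hne hs
    exact hβ.2 q ψ hq hψ s hlt
  have h1 : 7 / 8 ≤ β₀ := le_csInf hne fun _ hβ => hβ.1
  rcases h1.eq_or_lt with he | hlt
  · exact he ▸ h0
  obtain ⟨β', hβ', hz⟩ := h β₀ hlt (csInf_le hbd ⟨by norm_num, zf_one⟩) h0
  have h2 : β₀ ≤ max β' (7 / 8) := csInf_le hbd
    ⟨le_max_right _ _, fun q ψ hq hψ s hs => hz q ψ hq hψ s ((le_max_left _ _).trans_lt hs)⟩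
  exact absurd h2 (not_le.2 (max_lt hβ' hlt))

end Crest.Agent.R17.C
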