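import Crest.Agent.R17.C.Smooth

/-! Row 17, block C (owner helper6): C4, reflection of plain sums in `L²` form. -/

set_option autoImplicit false

namespace Crest.Agent.R17.C

open scoped ComplexConjugate
open Complex MeasureTheory

theorem rfo_conj_DS (c : O → ℂ) (z : ℂ) :
    conj (DS c (conj z)) = DD (fun n : Pr => conj (c n)) (fun n => nm n) z := by
  rw [DS, DD, Complex.conj_tsum]
  congr 1
  funext n
  have h : ((nm (n : O) : ℝ) : ℂ).arg ≠ Real.pi := by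
    rw [arg_ofReal_of_nonneg (nm_nonneg _)]
    exact Real.pi_pos.ne
  rw [map_mul, ← map_neg, cpow_conj _ _ h, conj_conj, conj_ofReal]

theorem rfo_vInt {a Y : ℝ} (ha : 0 < a) (hY : 0 < Y) (t : ℝ) :
    VInt 2 fun z => LNt a (1 - z + I * t) * ((Y : ℂ) ^ (1 - z) * RK z) := by
  have hd : DifferentiableOn ℂ (fun z : ℂ => (Y : ℂ) ^ (1 - z) * RK z) (strip 2 2) := by
    refine DifferentiableOn.mul (Differentiable.differentiableOn ?_)
      (polyOn_RK.1.mono fun s hs => lt_of_lt_of_le two_pos hs.1)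
    exact (differentiable_id.const_sub 1).const_cpow (Or.inl (ofReal_ne_zero.2 hY.ne'))
  have hb : ExpOn 2 2 fun z : ℂ => (Y : ℂ) ^ (1 - z) * RK z := by
    obtain ⟨C, A, -, -, h⟩ := polyOn_RK.2 2 2 two_pos
    refine ExpOn.mul (ExpOn.of_bdd (B := Y ^ (-1 : ℝ)) fun s hs => ?_) (ExpOn.of_poly h)
    rw [norm_cpow_eq_rpow_re_of_pos hY, sub_re, one_re, le_antisymm hs.2 hs.1]
    norm_num
  refine (VI_shift_LNt ha (-(1 + I * t)) le_rfl hd hb).1.congr fun s _ => ?_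
  rw [← LNt_neg]
  congr 2
  ring

/-- one generalised Dirichlet series times one Dirichlet series on the line `Re z = 2`: expand `B`
(`VI_tsum`), `Adm.VI_eq_rk` with `L = (Y f_j)⁻¹` and the coefficients `conj c`, `PS_conj`,
substitute `η = ξ + log (Y f_j)`. -/
theorem reflect_one {a b : ℝ} (hb : 0 < b) (hab : b < a) {l M : ℝ} {B : ℂ → ℂ} (hB : GD l M B)
    {c : O → ℂ} (hc : ∀ n : Pr, ‖c n‖ ≤ 1) {Y : ℝ} (hY : 0 < Y) (t W : ℝ)
    (hW : ∀ x : ℝ, Y * l ≤ x → ∫ ξ : ℝ, ‖rk a b RK t (ξ + Real.log x)‖ *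
      Real.exp ((ξ + Real.log x) / 2) * (‖PS c b (Real.exp ξ) t‖ * Real.exp (-ξ / 2)) ≤ W) :
    VInt 2 (fun z => LNt a (1 - z + I * t) * (Y : ℂ) ^ (1 - z) *
      (RK z * (B z * conj (DS c (conj z))))) ∧
    ‖VI 2 fun z => LNt a (1 - z + I * t) * (Y : ℂ) ^ (1 - z) *
      (RK z * (B z * conj (DS c (conj z))))‖ ≤ M * W * Real.sqrt Y := by
  obtain ⟨hl, J, hJ, cB, f, hf, hsum, hM, hBeq⟩ := hB
  have ha : 0 < a := hb.trans hab
  have hf0 : ∀ j, 0 < f j := fun j => hl.trans_le (hf j)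
  have hW0 : 0 ≤ W := le_trans (integral_nonneg fun ξ => by positivity) (hW _ le_rfl)
  have hadm : Adm cB f 2 := by
    refine ⟨fun j _ => hf0 j, Summable.of_nonneg_of_le
      (fun j => mul_nonneg (norm_nonneg _) (Real.rpow_nonneg (hf0 j).le _)) (fun j => ?_)
      (hsum.mul_right (l ^ (-(3 / 2) : ℝ)))⟩
    rw [mul_assoc, show (-2 : ℝ) = -(1 / 2) + -(3 / 2) by norm_num, Real.rpow_add (hf0 j)]
    refine mul_le_mul_of_nonneg_left (mul_le_mul_of_nonneg_left ?_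
      (Real.rpow_nonneg (hf0 j).le _)) (norm_nonneg _)
    exact Real.rpow_le_rpow_of_nonpos hl (hf j) (by norm_num)
  have hadm' : Adm (fun n : Pr => conj (c n)) (fun n => nm n) 2 :=
    adm_Pr (M := 1) one_lt_two fun n => by rw [RCLike.norm_conj]; exact hc n
  have hK := (hadm'.VI_mul_DD (rfo_vInt ha hY t)).1
  obtain ⟨h1, h2⟩ := hadm.VI_mul_DD hK
  have hcongr : ∀ z : ℂ, z.re = 2 →
      LNt a (1 - z + I * t) * ((Y : ℂ) ^ (1 - z) * RK z) *
        DD (fun n : Pr => conj (c n)) (fun n => nm n) z * DD cB f z =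
      LNt a (1 - z + I * t) * (Y : ℂ) ^ (1 - z) * (RK z * (B z * conj (DS c (conj z)))) := by
    intro z hz
    rw [rfo_conj_DS, hBeq z (by rw [hz]; norm_num), DD.eq_1 cB]
    ring
  refine ⟨h1.congr hcongr, ?_⟩
  rw [← VI_congr hcongr, ← h2.tsum_eq]
  have hterm : ∀ j, ‖cB j * VI 2 fun s => LNt a (1 - s + I * t) * ((Y : ℂ) ^ (1 - s) * RK s) *
      DD (fun n : Pr => conj (c n)) (fun n => nm n) s * (f j : ℂ) ^ (-s)‖ ≤
      ‖cB j‖ * f j ^ (-(1 / 2) : ℝ) * (W * Real.sqrt Y) := by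
    intro j
    rw [norm_mul, mul_assoc]
    refine mul_le_mul_of_nonneg_left ?_ (norm_nonneg _)
    have hx : 0 < Y * f j := mul_pos hY (hf0 j)
    have hI := (hadm'.VI_eq_rk polyOn_RK one_pos two_pos hb hab (inv_pos.2 hx) t).2
    have e1 : ∀ s : ℂ, s.re = 2 → LNt a (1 - s + I * t) * ((Y : ℂ) ^ (1 - s) * RK s) *
        DD (fun n : Pr => conj (c n)) (fun n => nm n) s * (f j : ℂ) ^ (-s) =
        Y * (LNt a (1 - s + I * t) * RK s * (((Y * f j)⁻¹ : ℝ) : ℂ) ^ s *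
          DD (fun n : Pr => conj (c n)) (fun n => nm n) s) := by
      intro s _
      have e : (Y : ℂ) ^ (1 - s) * (f j : ℂ) ^ (-s) = Y * (((Y * f j)⁻¹ : ℝ) : ℂ) ^ s := by
        have eY : (Y : ℂ) = exp (Real.log Y : ℂ) := by
          rw [← ofReal_exp, Real.exp_log hY]
        rw [rfa_cpow hY, rfa_cpow (hf0 j), rfa_cpow (inv_pos.2 hx), Real.log_inv,
          Real.log_mul hY.ne' (hf0 j).ne']
        conv_rhs => rw [eY]
        rw [← Complex.exp_add, ← Complex.exp_add]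
        congr 1
        push_cast
        ring
      linear_combination (LNt a (1 - s + I * t) * RK s *
        DD (fun n : Pr => conj (c n)) (fun n => nm n) s) * e
    rw [VI_congr e1, VI_const_mul, hI, norm_mul, Complex.norm_real, Real.norm_of_nonneg hY.le]
    have e2 : ∀ ξ : ℝ, ‖rk a b RK t (ξ + Real.log (Y * f j)) *
        SS (fun n : Pr => conj (c n)) (fun n => nm n) b
          ((Y * f j)⁻¹ * Real.exp (ξ + Real.log (Y * f j))) (-t)‖ =
        (Y * f j) ^ (-(1 / 2) : ℝ) * (‖rk a b RK t (ξ + Real.log (Y * f j))‖ *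
          Real.exp ((ξ + Real.log (Y * f j)) / 2) *
          (‖PS c b (Real.exp ξ) t‖ * Real.exp (-ξ / 2))) := by
      intro ξ
      have e3 : (Y * f j)⁻¹ * Real.exp (ξ + Real.log (Y * f j)) = Real.exp ξ := by
        rw [Real.exp_add, Real.exp_log hx, mul_comm (Real.exp ξ), inv_mul_cancel_left₀ hx.ne']
      have e4 : (Y * f j) ^ (-(1 / 2) : ℝ) * (Real.exp ((ξ + Real.log (Y * f j)) / 2) *
          Real.exp (-ξ / 2)) = 1 := by
        rw [Real.rpow_def_of_pos hx, ← Real.exp_add, ← Real.exp_add, Real.exp_eq_one_iff]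
        ring
      rw [e3, ← conj_SS, ← PS_eq_SS, norm_mul, RCLike.norm_conj]
      linear_combination (-(‖rk a b RK t (ξ + Real.log (Y * f j))‖ *
        ‖PS c b (Real.exp ξ) t‖)) * e4
    have h3 : ‖∫ η : ℝ, rk a b RK t η * SS (fun n : Pr => conj (c n)) (fun n => nm n) b
        ((Y * f j)⁻¹ * Real.exp η) (-t)‖ ≤ (Y * f j) ^ (-(1 / 2) : ℝ) * W := by
      refine (norm_integral_le_integral_norm _).trans ?_
      rw [← integral_add_right_eq_self _ (Real.log (Y * f j))]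
      simp only [e2]
      rw [integral_const_mul]
      exact mul_le_mul_of_nonneg_left (hW _ (mul_le_mul_of_nonneg_left (hf j) hY.le))
        (Real.rpow_nonneg hx.le _)
    refine (mul_le_mul_of_nonneg_left h3 hY.le).trans (le_of_eq ?_)
    have e5 : Y * Y ^ (-(1 / 2) : ℝ) = Real.sqrt Y := by
      rw [Real.sqrt_eq_rpow, ← Real.rpow_one_add' hY.le (by norm_num)]
      norm_num
    rw [Real.mul_rpow hY.le (hf0 j).le, ← e5]
    ring
  refine (tsum_of_norm_bounded (hsum.hasSum.mul_right (W * Real.sqrt Y)) hterm).trans ?_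
  rw [mul_assoc]
  exact mul_le_mul_of_nonneg_right hM (mul_nonneg hW0 (Real.sqrt_nonneg _))

theorem isp_int : Integrable fun x : ℝ => Real.exp (-(|x| / 2)) := by
  rw [← integrableOn_univ, ← Set.Iic_union_Ioi (a := (0 : ℝ)), integrableOn_union]
  constructor
  · refine (integrableOn_exp_mul_Iic (a := 1 / 2) (by norm_num) 0).congr_fun (fun x hx => ?_)
      measurableSet_Iic
    simp only [abs_of_nonpos (Set.mem_Iic.1 hx)]
    congr 1
    ring
  · refine (integrableOn_exp_mul_Ioi (a := -(1 / 2)) (by norm_num) 0).congr_fun (fun x hx => ?_)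
      measurableSet_Ioi
    simp only [abs_of_pos (Set.mem_Ioi.1 hx)]
    congr 1
    ring

/-- the three bounds for the kernel, with one constant -/
theorem isp_ker {a b : ℝ} (A : ℝ) (hb : 0 < b) (hab : b < a) (hA : 0 ≤ A) : ∃ C B : ℝ, 0 < C ∧ 0 ≤ B ∧
    ∀ t η : ℝ, ‖rk a b RK t η‖ * Real.exp (η / 2) ≤ C * (1 + |t|) ^ B * Real.exp (-(|η| / 4)) ∧
      ‖rk a b RK t η‖ * Real.exp (η / 2) ≤ C * (1 + |t|) ^ B * Real.exp (-((A + 3 / 2) * η)) := by
  obtain ⟨C₁, A₁, hC₁, hA₁, h₁⟩ := norm_rk_le' (σ := 1 / 4) polyOn_RK one_pos (by norm_num) hb hab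
  obtain ⟨C₂, A₂, hC₂, hA₂, h₂⟩ := norm_rk_le' (σ := A + 2) polyOn_RK one_pos (by linarith) hb hab
  refine ⟨C₁ + C₂, A₁ + A₂, by positivity, by positivity, fun t η => ?_⟩
  have hT : 1 ≤ 1 + |t| := by linarith [abs_nonneg t]
  have e1 : C₁ * (1 + |t|) ^ A₁ ≤ (C₁ + C₂) * (1 + |t|) ^ (A₁ + A₂) :=
    mul_le_mul (by linarith) (Real.rpow_le_rpow_of_exponent_le hT (by linarith)) (by positivity)
      (by positivity)
  have e2 : C₂ * (1 + |t|) ^ A₂ ≤ (C₁ + C₂) * (1 + |t|) ^ (A₁ + A₂) :=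
    mul_le_mul (by linarith) (Real.rpow_le_rpow_of_exponent_le hT (by linarith)) (by positivity)
      (by positivity)
  have k1 : ‖rk a b RK t η‖ * Real.exp (η / 2) ≤
      (C₁ + C₂) * (1 + |t|) ^ (A₁ + A₂) * Real.exp (η / 4) := by
    calc _ ≤ C₁ * (1 + |t|) ^ A₁ * Real.exp (-(1 / 4) * η) * Real.exp (η / 2) := by
          gcongr; exact h₁ t η
      _ = C₁ * (1 + |t|) ^ A₁ * Real.exp (η / 4) := by
          rw [mul_assoc, ← Real.exp_add]; congr 2; ring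
      _ ≤ _ := by gcongr
  have k2 : ‖rk a b RK t η‖ * Real.exp (η / 2) ≤
      (C₁ + C₂) * (1 + |t|) ^ (A₁ + A₂) * Real.exp (-((A + 3 / 2) * η)) := by
    calc _ ≤ C₂ * (1 + |t|) ^ A₂ * Real.exp (-(A + 2) * η) * Real.exp (η / 2) := by
          gcongr; exact h₂ t η
      _ = C₂ * (1 + |t|) ^ A₂ * Real.exp (-((A + 3 / 2) * η)) := by
          rw [mul_assoc, ← Real.exp_add]; congr 2; ring
      _ ≤ _ := by gcongr
  refine ⟨?_, k2⟩
  rcases le_total η 0 with h | h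
  · rw [abs_of_nonpos h]
    refine k1.trans (le_of_eq ?_)
    congr 2
    ring
  · rw [abs_of_nonneg h]
    refine k2.trans (mul_le_mul_of_nonneg_left (Real.exp_le_exp.2 ?_) (by positivity))
    nlinarith

theorem isp_amgm {k g l κ e : ℝ} (hl : 0 < l) (hk0 : 0 ≤ k) (hk : k ≤ κ * e) :
    k * g ≤ l / 2 * κ ^ 2 * e ^ 2 + g ^ 2 / (2 * l) := by
  have h1 : k ^ 2 ≤ (κ * e) ^ 2 := pow_le_pow_left₀ hk0 hk 2
  have h2 : k * g ≤ l / 2 * k ^ 2 + g ^ 2 / (2 * l) := by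
    have : l / 2 * k ^ 2 + g ^ 2 / (2 * l) - k * g = (l * k - g) ^ 2 / (2 * l) := by
      field_simp
      ring
    have h3 : 0 ≤ (l * k - g) ^ 2 / (2 * l) := by positivity
    linarith
  nlinarith

/-- split the `ξ`-integral: Cauchy-Schwarz on `[-θ, L + θ]` (the kernel `‖rk η‖ exp(η/2)` is in `L²`
by `norm_rk_le'` with `σ = 1/4` and `σ = 1`), trivial bounds (`norm_sum_le`, `norm_rk_le'` with large
`σ`) outside -/
theorem integral_split (a b A : ℝ) (hb : 0 < b) (hab : b < a) (hA : 0 ≤ A) : ∃ C : ℝ, 0 < C ∧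
    ∀ (c : O → ℂ) (t x L θ : ℝ), (∀ n : Pr, ‖c n‖ ≤ 1) → 0 < x → -L ≤ Real.log x → 0 ≤ θ →
      ∫ ξ : ℝ, ‖rk a b RK t (ξ + Real.log x)‖ * Real.exp ((ξ + Real.log x) / 2) *
          (‖PS c b (Real.exp ξ) t‖ * Real.exp (-ξ / 2)) ≤
        C * (1 + |t|) ^ C * (Real.sqrt (∫ ξ in Set.Icc (-θ) (L + θ),
          ‖PS c b (Real.exp ξ) t‖ ^ 2 * Real.exp (-ξ)) +
          (1 + Real.exp (L / 2)) * Real.exp (-(A * θ))) := by
  obtain ⟨C₁, B, hC₁, hB, hk⟩ := isp_ker A hb hab hA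
  obtain ⟨C₂, hC₂, h₂⟩ := norm_sum_le b 1 hb le_rfl
  obtain ⟨C₃, hC₃, h₃⟩ := norm_sum_le b (A + 3 / 2) hb (by linarith)
  set J := ∫ x : ℝ, Real.exp (-(|x| / 2)) with hJ
  have hJ0 : 0 ≤ J := integral_nonneg fun _ => (Real.exp_pos _).le
  set K₀ := C₁ ^ 2 * J + 1 + C₁ * (C₂ + C₃) * J with hK₀
  refine ⟨K₀ + 2 * B, by positivity, fun c t x L θ hc hx hL hθ => ?_⟩
  set ℓ := Real.log x
  set T := (1 + |t|) ^ B with hT
  have hT1 : 1 ≤ T := Real.one_le_rpow (by linarith [abs_nonneg t]) hB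
  set G : ℝ → ℝ := fun ξ => ‖PS c b (Real.exp ξ) t‖ ^ 2 * Real.exp (-ξ) with hG
  have hGc : Continuous G := by
    have := (continuous_PS hc hb).comp (continuous_id.prodMk (continuous_const (y := t)))
    exact (this.norm.pow 2).mul (by fun_prop)
  set Q := ∫ ξ in Set.Icc (-θ) (L + θ), G ξ with hQ
  have hQ0 : 0 ≤ Q := integral_nonneg fun ξ => by positivity
  set δ := (1 + Real.exp (L / 2)) * Real.exp (-(A * θ)) with hδ
  have hδ0 : 0 < δ := by positivity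
  set l := Real.sqrt Q + δ with hl
  have hl0 : 0 < l := by positivity
  set α := l / 2 * (C₁ * T) ^ 2
  set β := C₁ * T * C₃ * Real.exp (-(A * θ))
  set γ := C₁ * T * C₂ * (Real.exp (L / 2) * Real.exp (-(A * θ)))
  have hα : 0 ≤ α := by positivity
  have hβ : 0 ≤ β := by positivity
  have hγ : 0 ≤ γ := by positivity
  have i1 : Integrable fun ξ : ℝ => α * Real.exp (-(|ξ + ℓ| / 2)) :=
    (isp_int.comp_add_right ℓ).const_mul α
  have i2 : Integrable fun ξ : ℝ => (Set.Icc (-θ) (L + θ)).indicator G ξ / (2 * l) :=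
    ((integrable_indicator_iff measurableSet_Icc).2 hGc.integrableOn_Icc).div_const _
  have i3 : Integrable fun ξ : ℝ => β * Real.exp (-(|ξ| / 2)) := isp_int.const_mul β
  have i4 : Integrable fun ξ : ℝ => γ * Real.exp (-(|ξ + -L| / 2)) :=
    (isp_int.comp_add_right (-L)).const_mul γ
  have hpt : ∀ ξ : ℝ, ‖rk a b RK t (ξ + ℓ)‖ * Real.exp ((ξ + ℓ) / 2) *
      (‖PS c b (Real.exp ξ) t‖ * Real.exp (-ξ / 2)) ≤
      α * Real.exp (-(|ξ + ℓ| / 2)) + (Set.Icc (-θ) (L + θ)).indicator G ξ / (2 * l) +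
        β * Real.exp (-(|ξ| / 2)) + γ * Real.exp (-(|ξ + -L| / 2)) := by
    intro ξ
    obtain ⟨k1, k2⟩ := hk t (ξ + ℓ)
    rw [← hT] at k1 k2
    have p1 : 0 ≤ α * Real.exp (-(|ξ + ℓ| / 2)) := by positivity
    have p2 : 0 ≤ (Set.Icc (-θ) (L + θ)).indicator G ξ / (2 * l) :=
      div_nonneg (Set.indicator_nonneg (fun y _ => by positivity) _) (by positivity)
    have p3 : 0 ≤ β * Real.exp (-(|ξ| / 2)) := by positivity
    have p4 : 0 ≤ γ * Real.exp (-(|ξ + -L| / 2)) := by positivity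
    rcases lt_or_ge ξ (-θ) with h1 | h1
    · have g1 : ‖PS c b (Real.exp ξ) t‖ * Real.exp (-ξ / 2) ≤
          C₃ * (Real.exp (-(A * θ)) * Real.exp (-(|ξ| / 2))) := by
        calc _ ≤ C₃ * Real.exp ξ ^ (A + 3 / 2) * Real.exp (-ξ / 2) := by
              gcongr; exact h₃ c _ t hc (Real.exp_pos ξ)
          _ ≤ _ := by
              rw [← Real.exp_mul, mul_assoc, ← Real.exp_add, ← Real.exp_add,
                abs_of_nonpos (by linarith)]
              refine mul_le_mul_of_nonneg_left (Real.exp_le_exp.2 ?_) hC₃.le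
              have : 0 ≤ A * (-θ - ξ) := mul_nonneg hA (by linarith)
              nlinarith
      have k3 : ‖rk a b RK t (ξ + ℓ)‖ * Real.exp ((ξ + ℓ) / 2) ≤ C₁ * T := by
        refine k1.trans (mul_le_of_le_one_right (by positivity) ?_)
        exact Real.exp_le_one_iff.2 (by linarith [abs_nonneg (ξ + ℓ)])
      have := mul_le_mul k3 g1 (by positivity) (by positivity)
      have e : C₁ * T * (C₃ * (Real.exp (-(A * θ)) * Real.exp (-(|ξ| / 2)))) =
          β * Real.exp (-(|ξ| / 2)) := by simp only [β]; ring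
      linarith
    rcases le_or_gt ξ (L + θ) with h2 | h2
    · have := isp_amgm (g := ‖PS c b (Real.exp ξ) t‖ * Real.exp (-ξ / 2)) hl0 (by positivity) k1
      have e1 : Real.exp (-(|ξ + ℓ| / 4)) ^ 2 = Real.exp (-(|ξ + ℓ| / 2)) := by
        rw [← Real.exp_nat_mul]; congr 1; push_cast; ring
      have e2 : (‖PS c b (Real.exp ξ) t‖ * Real.exp (-ξ / 2)) ^ 2 =
          (Set.Icc (-θ) (L + θ)).indicator G ξ := by
        rw [Set.indicator_of_mem (Set.mem_Icc.2 ⟨h1, h2⟩), mul_pow, ← Real.exp_nat_mul]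
        simp only [hG]
        congr 2; push_cast; ring
      rw [e1, e2] at this
      exact this.trans ((le_add_of_nonneg_right p3).trans (le_add_of_nonneg_right p4))
    · have g1 : ‖PS c b (Real.exp ξ) t‖ * Real.exp (-ξ / 2) ≤ C₂ * Real.exp (ξ / 2) := by
        calc _ ≤ C₂ * Real.exp ξ ^ (1 : ℝ) * Real.exp (-ξ / 2) := by
              gcongr; exact h₂ c _ t hc (Real.exp_pos ξ)
          _ = _ := by
              rw [Real.rpow_one, mul_assoc, ← Real.exp_add]; congr 2; ring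
      have := mul_le_mul k2 g1 (by positivity) (by positivity)
      have e : C₁ * T * Real.exp (-((A + 3 / 2) * (ξ + ℓ))) * (C₂ * Real.exp (ξ / 2)) ≤
          γ * Real.exp (-(|ξ + -L| / 2)) := by
        have e1 : Real.exp (-((A + 3 / 2) * (ξ + ℓ))) * Real.exp (ξ / 2) ≤
            Real.exp (L / 2) * Real.exp (-(A * θ)) * Real.exp (-(|ξ + -L| / 2)) := by
          rw [← Real.exp_add, ← Real.exp_add, ← Real.exp_add, abs_of_nonneg (by linarith),
            Real.exp_le_exp]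
          have u1 : 0 ≤ (A + 3 / 2) * (ℓ + L) := mul_nonneg (by linarith) (by linarith)
          have u2 : 0 ≤ A * (ξ - L - θ) := mul_nonneg hA (by linarith)
          nlinarith
        calc _ = C₁ * T * C₂ * (Real.exp (-((A + 3 / 2) * (ξ + ℓ))) * Real.exp (ξ / 2)) := by ring
          _ ≤ C₁ * T * C₂ * (Real.exp (L / 2) * Real.exp (-(A * θ)) *
              Real.exp (-(|ξ + -L| / 2))) := by gcongr
          _ = _ := by simp only [γ]; ring
      linarith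
  have hI := integral_mono_of_nonneg (Filter.Eventually.of_forall fun ξ => by positivity)
    (((i1.add i2).add i3).add i4) (Filter.Eventually.of_forall hpt)
  have hE : ∫ ξ : ℝ, (α * Real.exp (-(|ξ + ℓ| / 2)) + (Set.Icc (-θ) (L + θ)).indicator G ξ / (2 * l) +
      β * Real.exp (-(|ξ| / 2)) + γ * Real.exp (-(|ξ + -L| / 2))) =
      α * J + Q / (2 * l) + β * J + γ * J := by
    have i12 : Integrable fun ξ : ℝ => α * Real.exp (-(|ξ + ℓ| / 2)) +
      (Set.Icc (-θ) (L + θ)).indicator G ξ / (2 * l) := i1.add i2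
    have i123 : Integrable fun ξ : ℝ => α * Real.exp (-(|ξ + ℓ| / 2)) +
      (Set.Icc (-θ) (L + θ)).indicator G ξ / (2 * l) + β * Real.exp (-(|ξ| / 2)) := i12.add i3
    rw [integral_add i123 i4, integral_add i12 i3, integral_add i1 i2,
      integral_const_mul, integral_const_mul, integral_const_mul, integral_div,
      integral_indicator measurableSet_Icc,
      integral_add_right_eq_self (fun x : ℝ => Real.exp (-(|x| / 2))) ℓ,
      integral_add_right_eq_self (fun x : ℝ => Real.exp (-(|x| / 2))) (-L)]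
  refine (hI.trans (le_of_eq hE)).trans ?_
  have hT2 : T ^ 2 ≤ (1 + |t|) ^ (K₀ + 2 * B) := by
    rw [hT, ← Real.rpow_natCast, ← Real.rpow_mul (by positivity)]
    refine Real.rpow_le_rpow_of_exponent_le (by linarith [abs_nonneg t]) ?_
    have : 0 ≤ K₀ := by positivity
    push_cast
    linarith
  have q1 : Q / (2 * l) ≤ T ^ 2 * l := by
    have s1 : Real.sqrt Q ≤ l := by linarith
    have s2 : Q ≤ l ^ 2 := by
      rw [← Real.sq_sqrt hQ0]
      exact pow_le_pow_left₀ (Real.sqrt_nonneg _) s1 2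
    have s3 : 1 ≤ T ^ 2 := one_le_pow₀ hT1
    rw [div_le_iff₀ (by positivity)]
    nlinarith [sq_nonneg l]
  have q2 : α * J ≤ C₁ ^ 2 * J * (T ^ 2 * l) := by
    have : 0 ≤ C₁ ^ 2 * J * (T ^ 2 * l) := by positivity
    have e : α * J = C₁ ^ 2 * J * (T ^ 2 * l) / 2 := by simp only [α]; ring
    linarith
  have q3 : β * J + γ * J ≤ C₁ * (C₂ + C₃) * J * (T ^ 2 * l) := by
    have s1 : δ ≤ l := by linarith [Real.sqrt_nonneg Q]
    have s2 : T ≤ T ^ 2 := by nlinarith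
    have s3 : Real.exp (-(A * θ)) ≤ l := by
      refine le_trans ?_ s1
      exact le_mul_of_one_le_left (by positivity) (by linarith [Real.exp_pos (L / 2)])
    have s4 : Real.exp (L / 2) * Real.exp (-(A * θ)) ≤ l := by
      refine le_trans ?_ s1
      exact mul_le_mul_of_nonneg_right (by linarith) (by positivity)
    have s5 : β ≤ C₁ * T ^ 2 * C₃ * l := by simp only [β]; gcongr
    have s6 : γ ≤ C₁ * T ^ 2 * C₂ * l := by simp only [γ]; gcongr
    calc _ ≤ C₁ * T ^ 2 * C₃ * l * J + C₁ * T ^ 2 * C₂ * l * J := by gcongr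
      _ = _ := by ring
  calc _ ≤ K₀ * (T ^ 2 * l) := by rw [hK₀]; linarith
    _ ≤ (K₀ + 2 * B) * ((1 + |t|) ^ (K₀ + 2 * B) * l) := by gcongr; linarith
    _ = _ := by ring

theorem rflc_absorb {x K p C T P : ℝ} (hT : 1 ≤ T) (hP : 0 ≤ P) (hK : K ≤ C) (hC : 0 ≤ C)
    (hp : p ≤ C) (h : x ≤ K * T ^ p * P) : x ≤ C * T ^ C * P := by
  refine h.trans (mul_le_mul_of_nonneg_right ?_ hP)
  exact mul_le_mul hK (Real.rpow_le_rpow_of_exponent_le hT hp) (by positivity) hC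

theorem rflc_mono {c : O → ℂ} (hc : ∀ n : Pr, ‖c n‖ ≤ 1) {b : ℝ} (hb : 0 < b) (t : ℝ)
    {x₁ x₂ y₁ y₂ : ℝ} (h1 : y₁ ≤ x₁) (h2 : x₂ ≤ y₂) :
    ∫ ξ in Set.Icc x₁ x₂, ‖PS c b (Real.exp ξ) t‖ ^ 2 * Real.exp (-ξ) ≤
      ∫ ξ in Set.Icc y₁ y₂, ‖PS c b (Real.exp ξ) t‖ ^ 2 * Real.exp (-ξ) := by
  have h0 : Continuous fun ξ : ℝ => PS c b (Real.exp ξ) t :=
    Continuous.comp (g := fun x : ℝ × ℝ => PS c b (Real.exp x.1) x.2) (f := fun ξ : ℝ => (ξ, t))
      (continuous_PS hc hb) (by fun_prop)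
  have h3 : Continuous fun ξ : ℝ => ‖PS c b (Real.exp ξ) t‖ ^ 2 * Real.exp (-ξ) :=
    (h0.norm.pow 2).mul (by fun_prop)
  exact setIntegral_mono_set h3.integrableOn_Icc
    (Filter.Eventually.of_forall fun ξ => by positivity)
    (Set.Icc_subset_Icc h1 h2).eventuallyLE

theorem rflc_expand {q u : O} {ψ : O → ℂ} (hq : Lev q) (hψ : IsTw q ψ) (hu : u ≠ 0)
    (he : ¬ Exc q u) {a b Y l M : ℝ} (hb : 0 < b) (hab : b < a) (hY : 0 < Y) (t : ℝ)
    {B : (O → ℂ) → ℂ → ℂ} (hB : ∀ χ, GD l M (B χ))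
    (hF : ∀ z : ℂ, 1 / 2 < z.re →
      Lx (rc ψ u) (1 - z) = RK z * ∑ χ ∈ Tw q, B χ z * conj (Lx (rc χ u) (conj z)))
    (W : (O → ℂ) → ℝ)
    (hW : ∀ χ ∈ Tw q, ∀ x : ℝ, Y * l ≤ x → ∫ ξ : ℝ, ‖rk a b RK t (ξ + Real.log x)‖ *
      Real.exp ((ξ + Real.log x) / 2) * (‖PS (rc χ u) b (Real.exp ξ) t‖ * Real.exp (-ξ / 2)) ≤ W χ) :
    ‖PS (rc ψ u) a Y t‖ ≤ (∑ χ ∈ Tw q, M * W χ) * Real.sqrt Y := by
  have ha : 0 < a := hb.trans hab
  have hs := Lx_rc_spec hq hψ hu he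
  have h1 : PS (rc ψ u) a Y t = VI 2 fun s =>
      LNt a (1 - s + I * t) * (Y : ℂ) ^ (1 - s) * Lx (rc ψ u) (1 - s) := by
    rw [PS_eq_SS]
    exact (adm_Pr (M := 1) one_lt_two fun n => norm_rc_le hq hψ hu n).SS_eq_reflect (by norm_num)
      ha hY t hs.1.differentiableOn (expOn_Lx (hq.mul hu) (hψ.rc hq) _ _)
      fun s h => by rw [hs.2 s (by rw [h]; norm_num), DS_eq_DD]
  have h2 := fun χ (hχ : χ ∈ Tw q) => reflect_one hb hab (hB χ)
    (c := rc χ u) (fun n => norm_rc_le hq ((mem_Tw hq.1).1 hχ) hu n) hY t (W χ) (hW χ hχ)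
  rw [h1, VI_congr (G := fun z => ∑ χ ∈ Tw q, LNt a (1 - z + I * t) * (Y : ℂ) ^ (1 - z) *
    (RK z * (B χ z * conj (DS (rc χ u) (conj z))))) fun z hz => ?_, VI_sum _ fun χ hχ => (h2 χ hχ).1,
    Finset.sum_mul]
  · exact (norm_sum_le_of_le _ fun χ hχ => (h2 χ hχ).2)
  · rw [hF z (by rw [hz]; norm_num), Finset.mul_sum, Finset.mul_sum]
    refine Finset.sum_congr rfl fun χ hχ => ?_
    rw [(Lx_rc_spec hq ((mem_Tw hq.1).1 hχ) hu he).2 (conj z) (by rw [conj_re, hz]; norm_num)]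

theorem rflc_err {ε A z c L : ℝ} (hε : 0 < ε) (hz : 0 ≤ z) (hc : 0 ≤ c) (hL : L ≤ 2 * z + c) :
    Real.exp (z * ε) * ((1 + Real.exp (L / 2)) *
        Real.exp (-((|A| + ε + 2) / ε * (ε * z - c)))) ^ 2 ≤
      4 * Real.exp (2 * c + 2 * ((|A| + ε + 2) / ε) * c) * Real.exp (z * -A) := by
  have h1 : 1 + Real.exp (L / 2) ≤ 2 * Real.exp (z + c) := by
    have := Real.one_le_exp (add_nonneg hz hc)
    have := Real.exp_le_exp.2 (show L / 2 ≤ z + c by linarith)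
    linarith
  have h2 : (|A| + ε + 2) / ε * (ε * z) = (|A| + ε + 2) * z := by field_simp
  calc _ ≤ Real.exp (z * ε) * ((2 * Real.exp (z + c)) *
        Real.exp (-((|A| + ε + 2) / ε * (ε * z - c)))) ^ 2 := by gcongr
    _ = 4 * Real.exp (z * ε + 2 * (z + c) + 2 * -((|A| + ε + 2) / ε * (ε * z - c))) := by
        rw [Real.exp_add (_ + _), Real.exp_add (z * ε), two_mul (z + c), two_mul (-_),
          Real.exp_add (z + c), Real.exp_add (-_)]
        ring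
    _ ≤ _ := by
        rw [mul_assoc, ← Real.exp_add]
        refine mul_le_mul_of_nonneg_left (Real.exp_le_exp.2 ?_) (by norm_num)
        rw [mul_sub, h2]
        nlinarith [mul_nonneg hz (abs_nonneg A), mul_nonneg hz hε.le,
          mul_le_mul_of_nonneg_left (le_abs_self A) hz]

/-- REFLECTION.  The range of `ξ` does not depend on the row, the twist `t` is preserved.
`Adm.SS_eq_reflect` at `σ = 2`, `fe_row` with `r = u`, `reflect_one`, `integral_split`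
with `L = log (U/Y)` + constant (absorb the constant: for `Z ≥ Z₀` use `θ = ε log Z / 2`; for `Z ≤ Z₀`
everything is bounded by `PS_pv`). -/
theorem PS_reflect (q : O) (a b ε A : ℝ) (hq : Lev q) (hb : 0 < b) (hab : b < a) (hε : 0 < ε) :
    ∃ C : ℝ, 0 < C ∧
      ∀ (ψ : O → ℂ) (u : O) (Z U Y t : ℝ), IsTw q ψ → u ≠ 0 → ¬ Exc q u → nm u ≤ U → U ≤ Z →
        Z⁻¹ ≤ Y → ‖PS (rc ψ u) a Y t‖ ^ 2 / Y ≤ C * (1 + |t|) ^ C *
          (Z ^ ε * ∑ χ ∈ Tw q,
            (∫ ξ in Set.Icc (-(ε * Real.log Z)) (Real.log (U / Y) + ε * Real.log Z),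
              ‖PS (rc χ u) b (Real.exp ξ) t‖ ^ 2 * Real.exp (-ξ)) + Z ^ (-A)) := by
  have ha : 0 < a := hb.trans hab
  obtain ⟨C₁, hC₁, h₁⟩ := fe_row hq (ε / 2) (by positivity)
  obtain ⟨A', hA'⟩ : ∃ A', A' = (|A| + ε + 2) / ε := ⟨_, rfl⟩
  obtain ⟨C₂, hC₂, h₂⟩ := integral_split a b A' hb hab (by rw [hA']; positivity)
  obtain ⟨C₃, hC₃, h₃⟩ := PS_pv q a (1 / 2) hq ha (by norm_num)
  obtain ⟨c, hc⟩ : ∃ c, c = Real.log C₁ := ⟨_, rfl⟩
  have hc0 : 0 ≤ c := hc ▸ Real.log_nonneg hC₁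
  obtain ⟨N, hN⟩ : ∃ N : ℝ, N = (Tw q).card := ⟨_, rfl⟩
  have hN0 : 0 ≤ N := hN ▸ Nat.cast_nonneg _
  obtain ⟨K, hK⟩ : ∃ K, K = 4 * Real.exp (2 * c + 2 * A' * c) := ⟨_, rfl⟩
  have hK0 : 0 ≤ K := by rw [hK]; positivity
  obtain ⟨K₁, hK₁⟩ : ∃ K₁, K₁ = 2 * N * C₁ ^ 2 * C₂ ^ 2 * (1 + N * K) := ⟨_, rfl⟩
  have hK₁0 : 0 ≤ K₁ := by rw [hK₁]; positivity
  obtain ⟨K₂, hK₂⟩ : ∃ K₂, K₂ = C₃ ^ 2 * Real.exp ((3 + |A|) * (c / ε)) := ⟨_, rfl⟩
  have hK₂0 : 0 ≤ K₂ := by rw [hK₂]; positivity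
  refine ⟨K₁ + K₂ + 2 * C₂ + 2 * C₃, by positivity, fun ψ u Z U Y t hψ hu he hU hZ hY => ?_⟩
  have hu1 := one_le_nm hu
  have hU0 : 0 < U := by linarith
  have hZ0 : 0 < Z := by linarith
  have hY0 : 0 < Y := (inv_pos.2 hZ0).trans_le hY
  have hT : 1 ≤ 1 + |t| := by linarith [abs_nonneg t]
  have hz : 0 ≤ Real.log Z := Real.log_nonneg (by linarith)
  have hYz : -Real.log Z ≤ Real.log Y := by
    rw [← Real.log_inv]; exact Real.log_le_log (inv_pos.2 hZ0) hY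
  obtain ⟨J, hJ⟩ : ∃ J : (O → ℂ) → ℝ, J = fun χ =>
    ∫ ξ in Set.Icc (-(ε * Real.log Z)) (Real.log (U / Y) + ε * Real.log Z),
      ‖PS (rc χ u) b (Real.exp ξ) t‖ ^ 2 * Real.exp (-ξ) := ⟨_, rfl⟩
  have hJ0 : ∀ χ, 0 ≤ J χ := fun χ => by
    rw [hJ]; exact integral_nonneg fun ξ => by positivity
  have hS0 : 0 ≤ ∑ χ ∈ Tw q, J χ := Finset.sum_nonneg fun χ _ => hJ0 χ
  have e0 : ∀ χ, (∫ ξ in Set.Icc (-(ε * Real.log Z)) (Real.log (U / Y) + ε * Real.log Z),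
      ‖PS (rc χ u) b (Real.exp ξ) t‖ ^ 2 * Real.exp (-ξ)) = J χ := fun χ => by rw [hJ]
  simp only [e0]
  rcases le_total c (ε * Real.log Z) with hcz | hcz
  · refine rflc_absorb (K := K₁) (p := 2 * C₂) hT (by positivity) (by linarith) (by positivity)
      (by linarith) ?_
    obtain ⟨B, hB, hF⟩ := h₁ ψ u u hψ hu he (Rad.self hu)
    obtain ⟨E, hE⟩ : ∃ E, E = (1 + Real.exp ((Real.log (U / Y) + c) / 2)) *
      Real.exp (-(A' * (ε * Real.log Z - c))) := ⟨_, rfl⟩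
    have hE0 : 0 ≤ E := by rw [hE]; positivity
    have hE1 : Z ^ ε * E ^ 2 ≤ K * Z ^ (-A) := by
      rw [Real.rpow_def_of_pos hZ0, Real.rpow_def_of_pos hZ0, hE, hK, hA']
      refine rflc_err hε hz hc0 ?_
      rw [Real.log_div hU0.ne' hY0.ne']
      linarith [Real.log_le_log hU0 hZ]
    have key := rflc_expand hq hψ hu he hb hab hY0 t hB hF
      (fun χ => C₂ * (1 + |t|) ^ C₂ * (Real.sqrt (J χ) + E)) fun χ hχ x hx => by
        have hχ' := (mem_Tw hq.1).1 hχ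
        have hx0 : 0 < Y * (C₁ * nm u)⁻¹ := by positivity
        refine (h₂ (rc χ u) t x (Real.log (U / Y) + c) (ε * Real.log Z - c)
          (fun n => norm_rc_le hq hχ' hu n) (hx0.trans_le hx) ?_ (by linarith)).trans ?_
        · refine le_trans ?_ (Real.log_le_log hx0 hx)
          rw [Real.log_mul hY0.ne' (by positivity), Real.log_inv,
            Real.log_mul (by positivity) (by positivity), Real.log_div hU0.ne' hY0.ne', ← hc]
          linarith [Real.log_le_log (by linarith) hU]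
        · rw [← hE, ← e0]
          exact mul_le_mul_of_nonneg_left (add_le_add_left (Real.sqrt_le_sqrt (rflc_mono
            (fun n => norm_rc_le hq hχ' hu n) hb t (by linarith) (by linarith))) _) (by positivity)
    have hM : (C₁ * nm u ^ (ε / 2)) ^ 2 ≤ C₁ ^ 2 * Z ^ ε := by
      rw [mul_pow, ← Real.rpow_natCast (nm u ^ _), ← Real.rpow_mul (by linarith)]
      gcongr
      rw [show ε / 2 * ((2 : ℕ) : ℝ) = ε by push_cast; ring]
      exact Real.rpow_le_rpow (by linarith) (hU.trans hZ) hε.le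
    have hT2 : ((1 + |t|) ^ C₂) ^ 2 = (1 + |t|) ^ (2 * C₂) := by
      rw [← Real.rpow_natCast, ← Real.rpow_mul (by linarith), mul_comm]; norm_num
    rw [div_le_iff₀ hY0]
    refine (pow_le_pow_left₀ (norm_nonneg _) key 2).trans ?_
    rw [mul_pow, Real.sq_sqrt hY0.le]
    refine mul_le_mul_of_nonneg_right (sq_sum_le_card_mul_sum_sq.trans ?_) hY0.le
    have h5 : ∀ χ ∈ Tw q, (C₁ * nm u ^ (ε / 2) * (C₂ * (1 + |t|) ^ C₂ * (Real.sqrt (J χ) + E))) ^ 2 ≤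
        2 * C₁ ^ 2 * C₂ ^ 2 * (1 + |t|) ^ (2 * C₂) * (Z ^ ε * J χ + K * Z ^ (-A)) := fun χ _ => by
      have h6 : (Real.sqrt (J χ) + E) ^ 2 ≤ 2 * (J χ + E ^ 2) := by
        nlinarith [Real.sq_sqrt (hJ0 χ), sq_nonneg (Real.sqrt (J χ) - E)]
      rw [mul_pow _ (C₂ * _ * _), mul_pow (C₂ * _), mul_pow C₂, hT2]
      calc _ ≤ C₁ ^ 2 * Z ^ ε * (C₂ ^ 2 * (1 + |t|) ^ (2 * C₂) * (2 * (J χ + E ^ 2))) := by gcongr
        _ = 2 * C₁ ^ 2 * C₂ ^ 2 * (1 + |t|) ^ (2 * C₂) * (Z ^ ε * J χ + Z ^ ε * E ^ 2) := by ring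
        _ ≤ _ := by gcongr
    refine (mul_le_mul_of_nonneg_left (Finset.sum_le_sum h5) (Nat.cast_nonneg _)).trans ?_
    rw [← Finset.mul_sum, Finset.sum_add_distrib, ← Finset.mul_sum, Finset.sum_const, nsmul_eq_mul,
      ← hN, hK₁]
    have h7 : Z ^ ε * ∑ χ ∈ Tw q, J χ + N * (K * Z ^ (-A)) ≤
        (1 + N * K) * (Z ^ ε * ∑ χ ∈ Tw q, J χ + Z ^ (-A)) := by
      have a1 : 0 ≤ Z ^ ε * ∑ χ ∈ Tw q, J χ := by positivity
      have a2 : 0 ≤ Z ^ (-A) := by positivity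
      nlinarith [mul_nonneg (mul_nonneg hN0 hK0) a1]
    calc _ ≤ N * (2 * C₁ ^ 2 * C₂ ^ 2 * (1 + |t|) ^ (2 * C₂) *
          ((1 + N * K) * (Z ^ ε * ∑ χ ∈ Tw q, J χ + Z ^ (-A)))) := by gcongr
      _ = _ := by ring
  · refine rflc_absorb (K := K₂) (p := 2 * C₃) hT (by positivity) (by linarith) (by positivity)
      (by linarith) ?_
    have key := h₃ ψ u u Y t hψ hu he (Rad.self hu) hY0
    rw [show (1 / 2 + 1 / 2 : ℝ) = 1 by norm_num, Real.rpow_one] at key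
    have hT2 : ((1 + |t|) ^ C₃) ^ 2 = (1 + |t|) ^ (2 * C₃) := by
      rw [← Real.rpow_natCast, ← Real.rpow_mul (by linarith), mul_comm]; norm_num
    have hzc : Real.log Z ≤ c / ε := by rw [le_div_iff₀ hε]; linarith
    have h5 : Z ^ 2 * Z ≤ Real.exp ((3 + |A|) * (c / ε)) * Z ^ (-A) := by
      have : Z ^ 2 * Z = Real.exp (3 * Real.log Z) := by
        rw [show (3 : ℝ) = ((3 : ℕ) : ℝ) by norm_num, Real.exp_nat_mul, Real.exp_log hZ0]; ring
      rw [this, Real.rpow_def_of_pos hZ0, ← Real.exp_add]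
      refine Real.exp_le_exp.2 ?_
      nlinarith [mul_le_mul_of_nonneg_left (le_abs_self A) hz,
        mul_le_mul_of_nonneg_left hzc (abs_nonneg A)]
    have h6 : Y⁻¹ ≤ Z := inv_le_of_inv_le₀ hZ0 hY
    have h7 : nm u ≤ Z := hU.trans hZ
    calc _ ≤ (C₃ * (1 + |t|) ^ C₃ * Z) ^ 2 * Z := by
          rw [div_eq_mul_inv]
          gcongr
          exact key.trans (by gcongr)
      _ = C₃ ^ 2 * (1 + |t|) ^ (2 * C₃) * (Z ^ 2 * Z) := by rw [← hT2]; ring
      _ ≤ C₃ ^ 2 * (1 + |t|) ^ (2 * C₃) * (Real.exp ((3 + |A|) * (c / ε)) * Z ^ (-A)) := by gcongr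
      _ = K₂ * (1 + |t|) ^ (2 * C₃) * (0 + Z ^ (-A)) := by rw [hK₂]; ring
      _ ≤ _ := by gcongr; positivity

end Crest.Agent.R17.C
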