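import Crest.Agent.R17.C.Point
import Crest.Agent.R17.C.Reflect
import Crest.Agent.R17.C.Final

/-! Row 17, block C: everything. -/
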