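import Crest.Agent.R17.C.Defs

/-! Row 17, block C (owner helper6): small analytic wrappers around block B. -/

set_option autoImplicit false

namespace Crest.Agent.R17.C

open scoped ComplexConjugate
open Complex MeasureTheory

/-- `polyOn_RK` -/
theorem norm_RK_le (σ₁ σ₂ : ℝ) (h : 0 < σ₁) : ∃ C : ℝ, 0 < C ∧ ∀ s : ℂ, σ₁ ≤ s.re → s.re ≤ σ₂ →
    ‖RK s‖ ≤ C * (2 + |s.im|) ^ C := by
  obtain ⟨C, A, hC, hA, H⟩ := polyOn_RK.2 σ₁ σ₂ h
  refine ⟨C + A + 1, by positivity, fun s h1 h2 => (H s ⟨h1, h2⟩).trans ?_⟩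
  have := abs_nonneg s.im
  exact mul_le_mul (by linarith) ((Real.rpow_le_rpow (by positivity) (by linarith) hA).trans
    (Real.rpow_le_rpow_of_exponent_le (by linarith) (by linarith))) (by positivity) (by positivity)

/-- `norm_LNt`, `norm_VI_le_gauss` with `t₀ = -t` -/
theorem norm_VI_LNt (a σ₁ σ₂ A : ℝ) (ha : 0 < a) (hA : 0 ≤ A) : ∃ C : ℝ, 0 < C ∧
    ∀ (σ t M : ℝ) (G : ℂ → ℂ), σ₁ ≤ σ → σ ≤ σ₂ → 0 ≤ M →
      (∀ s : ℂ, s.re = σ → ‖G s‖ ≤ M * (2 + |s.im|) ^ A) →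
      ‖VI σ fun s => LNt a (s + I * t) * G s‖ ≤ C * M * (1 + |t|) ^ A := by
  obtain ⟨C, hC, H⟩ := norm_VI_le_gauss (c := a ^ 2 / 2) (by positivity) hA
  obtain ⟨B, hB⟩ : ∃ B, B = √(2 * Real.pi) * a * Real.exp (a ^ 2 * (σ₁ ^ 2 + σ₂ ^ 2) / 2) * 2 ^ A :=
    ⟨_, rfl⟩
  have hB0 : 0 < B := by rw [hB]; positivity
  refine ⟨C * B, by positivity, fun σ t M G h1 h2 hM hG => ?_⟩
  refine (H σ (-t) (B * M) _ fun y => ?_).trans_eq (by rw [abs_neg]; ring)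
  have e1 : ((σ : ℂ) + y * I + I * t).re = σ := by simp
  have e2 : ((σ : ℂ) + y * I + I * t).im = y - -t := by simp
  have e3 : ((σ : ℂ) + y * I).im = y := by simp
  have h3 := hG (σ + y * I) (by simp)
  have h4 : (2 + |y|) ^ A ≤ 2 ^ A * (1 + |y|) ^ A := by
    rw [← Real.mul_rpow zero_le_two (by positivity)]
    exact Real.rpow_le_rpow (by positivity) (by linarith [abs_nonneg y]) hA
  have h5 : σ ^ 2 ≤ σ₁ ^ 2 + σ₂ ^ 2 := by
    rcases le_total 0 σ with h | h <;> nlinarith [sq_nonneg σ₁, sq_nonneg σ₂]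
  rw [e3] at h3
  rw [norm_mul, norm_LNt ha.le, e1, e2, hB]
  calc _ ≤ √(2 * Real.pi) * a * Real.exp (a ^ 2 * (σ₁ ^ 2 + σ₂ ^ 2) / 2) *
        Real.exp (-(a ^ 2 / 2) * (y - -t) ^ 2) * (M * (2 ^ A * (1 + |y|) ^ A)) := by
        gcongr
        exact h3.trans (mul_le_mul_of_nonneg_left h4 hM)
    _ = _ := by ring

/-- heights `|Im s + t| ≤ log Z` cost `Z ^ ε` (`one_add_log_rpow_le`) -/
theorem height_le (A ε : ℝ) (hA : 0 ≤ A) (hε : 0 < ε) : ∃ C : ℝ, 0 < C ∧ ∀ Z t y : ℝ, 1 ≤ Z →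
    |y + t| ≤ Real.log Z → (2 + |y|) ^ A ≤ C * Z ^ ε * (1 + |t|) ^ A := by
  obtain ⟨C, hC, H⟩ := one_add_log_rpow_le A hε
  refine ⟨2 ^ A * C, by positivity, fun Z t y hZ h => ?_⟩
  have h0 := Real.log_nonneg hZ
  have h1 : |y| ≤ Real.log Z + |t| := by
    have := abs_sub (y + t) t
    rw [add_sub_cancel_right] at this
    linarith
  have h2 : 2 + |y| ≤ 2 * (1 + Real.log Z) * (1 + |t|) := by nlinarith [abs_nonneg t]
  refine (Real.rpow_le_rpow (by positivity) h2 hA).trans ?_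
  rw [Real.mul_rpow (by positivity) (by positivity), Real.mul_rpow (by positivity) (by positivity),
    mul_assoc _ C]
  gcongr
  exact H Z hZ

end Crest.Agent.R17.C
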