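import Crest.Agent.R17.C.Euler
import Crest.Agent.R17.C.Gam

/-! Row 17, block C (owner helper6): C1, continuation and functional equation of `ZD Ψ` for periodic `Ψ`. -/

set_option autoImplicit false

namespace Crest.Agent.R17.C

open scoped ComplexConjugate
open Complex MeasureTheory

/-- `θ_Ψ(t) = ∑ Ψ(n) exp(-2π N(n) t / √3)` -/
noncomputable def th (Ψ : O → ℂ) (t : ℝ) : ℂ :=
  ∑' n : O, Ψ n * (Real.exp (-(2 * Real.pi * nm n * t / Real.sqrt 3)) : ℝ)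

variable {Q : O} {Ψ : O → ℂ}

theorem tha_gw (t : ℝ) (n : O) :
    Real.exp (-(2 * Real.pi * nm n * t / Real.sqrt 3)) = gw t⁻¹ n := by
  rw [gw, div_mul_eq_div_div, div_inv_eq_mul]
  congr 2
  ring

theorem tha_eq (Ψ : O → ℂ) (t : ℝ) : th Ψ t = ∑' n : O, Ψ n * gw t⁻¹ n := by
  simp only [th, tha_gw]

theorem tha_norm_le {M : ℝ} (h : ∀ n, ‖Ψ n‖ ≤ M) (n : O) {x y : ℝ} (hx : 0 ≤ x) (hxy : x ≤ y) :
    ‖Ψ n * (x : ℂ)‖ ≤ M * y := by
  rw [norm_mul, Complex.norm_real, Real.norm_of_nonneg hx]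
  exact mul_le_mul (h n) hxy hx ((norm_nonneg _).trans (h n))

open Classical in
theorem tha_hasSum {M : ℝ} (h : ∀ n, ‖Ψ n‖ ≤ M) {t : ℝ} (ht : 0 < t) :
    HasSum (fun n : O => if n = 0 then 0 else Ψ n * (gw t⁻¹ n : ℝ)) (th Ψ t - Ψ 0) := by
  have hs : Summable fun n : O => Ψ n * (gw t⁻¹ n : ℝ) :=
    Summable.of_norm_bounded ((summable_gw (inv_pos.2 ht)).mul_left M) fun n =>
      tha_norm_le h n (gw_pos _ _).le le_rfl
  have := hasSum_ite_sub_hasSum hs.hasSum 0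
  rwa [← tha_eq, gw_zero, ofReal_one, mul_one] at this

/-- `poisson` (block A) with `K = 1 / t` -/
theorem th_FE (hQ : Q ≠ 0) (h : Per Q Ψ) {t : ℝ} (ht : 0 < t) :
    th Ψ t = ((t * nm Q)⁻¹ : ℝ) * th (FT Q Ψ) (t * nm Q)⁻¹ := by
  rw [tha_eq, tha_eq, poisson hQ h (inv_pos.2 ht), inv_inv, div_inv_eq_mul, mul_comm (nm Q) t,
    mul_inv, div_eq_mul_inv]

theorem continuousOn_th {M : ℝ} (h : ∀ n, ‖Ψ n‖ ≤ M) : ContinuousOn (th Ψ) (Set.Ioi 0) := by
  intro t ht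
  have ht : 0 < t := ht
  have h2 : 0 < t / 2 := half_pos ht
  have hc : ContinuousOn (th Ψ) (Set.Ici (t / 2)) := by
    refine continuousOn_tsum (u := fun n => M * gw (t / 2)⁻¹ n) (fun n => ?_)
      ((summable_gw (inv_pos.2 h2)).mul_left M) fun n x hx => ?_
    · fun_prop
    · rw [tha_gw]
      have hx : t / 2 ≤ x := hx
      exact tha_norm_le h n (gw_pos _ _).le
        (gw_mono (inv_pos.2 (h2.trans_le hx)) (inv_anti₀ h2 hx) n)
  exact (hc.continuousAt (Ici_mem_nhds (half_lt_self ht))).continuousWithinAt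

/-- exponential decay: `N(n) ≥ 1` for `n ≠ 0` -/
theorem th_decay {M : ℝ} (h : ∀ n, ‖Ψ n‖ ≤ M) {c : ℝ} (hc : 0 < c) (r : ℝ) :
    (fun t => th Ψ (c * t) - Ψ 0) =O[Filter.atTop] fun t : ℝ => t ^ r := by
  classical
  set κ : ℝ := 2 * Real.pi / Real.sqrt 3 * c with hκ
  have hκ0 : 0 < κ := by positivity
  have hs := (summable_gw (inv_pos.2 hc)).mul_left M
  refine Asymptotics.IsBigO.trans ?_ (isLittleO_exp_neg_mul_rpow_atTop hκ0 r).isBigO
  refine Asymptotics.IsBigO.of_bound ((∑' n : O, M * gw c⁻¹ n) * Real.exp κ) ?_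
  filter_upwards [Filter.eventually_ge_atTop 1] with t ht
  have hct : 0 < c * t := by positivity
  rw [Real.norm_of_nonneg (Real.exp_pos _).le, mul_assoc, ← (tha_hasSum h hct).tsum_eq]
  refine tsum_of_norm_bounded (hs.hasSum.mul_right _) fun n => ?_
  split_ifs with hn
  · have := (norm_nonneg _).trans (h 0)
    have := gw_pos c⁻¹ n
    rw [norm_zero]
    positivity
  · rw [mul_assoc]
    refine tha_norm_le h n (gw_pos _ _).le ?_
    rw [← tha_gw, ← tha_gw, ← Real.exp_add, ← Real.exp_add, Real.exp_le_exp]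
    have e1 : 2 * Real.pi * nm n * (c * t) / Real.sqrt 3 = κ * (nm n * t) := by rw [hκ]; ring
    have e2 : 2 * Real.pi * nm n * c / Real.sqrt 3 = κ * nm n := by rw [hκ]; ring
    rw [e1, e2]
    have := mul_nonneg hκ0.le (mul_nonneg (sub_nonneg.2 (one_le_nm hn)) (sub_nonneg.2 ht))
    nlinarith

/-- termwise Mellin transform (`hasSum_mellin` in `Mathlib/NumberTheory/LSeries/MellinEqDirichlet`) -/
theorem mellin_th {M : ℝ} (h : ∀ n, ‖Ψ n‖ ≤ M) {c : ℝ} (hc : 0 < c) {s : ℂ} (hs : 1 < s.re) :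
    mellin (fun t => th Ψ (c * t) - Ψ 0) s =
      ((2 * Real.pi / Real.sqrt 3 * c : ℝ) : ℂ) ^ (-s) * Gamma s * ZD Ψ s := by
  classical
  have : Countable O := crd.surjective.countable
  set κ : ℝ := 2 * Real.pi / Real.sqrt 3 * c with hκ
  have hκ0 : 0 < κ := by positivity
  have hs0 : s ≠ 0 := fun e => by rw [e] at hs; norm_num at hs
  have hM := (norm_nonneg _).trans (h 0)
  have key := hasSum_mellin (a := fun n : O => if n = 0 then 0 else Ψ n)
    (p := fun n => κ * nm n) (F := fun t => th Ψ (c * t) - Ψ 0) (s := s)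
    (fun n => by
      by_cases hn : n = 0
      · exact Or.inl (if_pos hn)
      · exact Or.inr (mul_pos hκ0 (nm_pos hn)))
    (by linarith)
    (fun t ht => by
      have ht : 0 < t := ht
      convert tha_hasSum h (mul_pos hc ht) using 2 with n
      split_ifs with hn
      · rw [zero_mul]
      · rw [← tha_gw]
        congr 3
        rw [hκ]
        ring)
    (by
      refine Summable.of_nonneg_of_le
        (fun n => div_nonneg (norm_nonneg _)
          (Real.rpow_nonneg (mul_nonneg hκ0.le (nm_nonneg n)) _)) (fun n => ?_)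
        ((summable_nm_rpow hs).mul_left (M * κ ^ (-s.re)))
      rw [Real.mul_rpow hκ0.le (nm_nonneg n), mul_assoc, Real.rpow_neg hκ0.le,
        Real.rpow_neg (nm_nonneg n), ← mul_inv, div_eq_mul_inv]
      refine mul_le_mul_of_nonneg_right ?_ (inv_nonneg.2 (mul_nonneg
        (Real.rpow_nonneg hκ0.le _) (Real.rpow_nonneg (nm_nonneg n) _)))
      split_ifs
      · simpa using hM
      · exact h n)
  rw [← key.tsum_eq, ZD, ← tsum_mul_left]
  congr 1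
  funext n
  split_ifs with hn
  · rw [hn, nm_zero, ofReal_zero, zero_cpow (neg_ne_zero.2 hs0)]
    simp
  · rw [ofReal_mul, mul_cpow_ofReal_nonneg hκ0.le (nm_nonneg n), cpow_neg, cpow_neg,
      div_eq_mul_inv, mul_inv]
    ring

/-- `Λ₀ = mellin f_modif` is bounded on vertical strips:
`‖mellin f s‖ ≤ ∫ (t^(σ₁-1) + t^(σ₂-1)) ‖f t‖` -/
theorem bdd_Λ₀ (P : WeakFEPair ℂ) (σ₁ σ₂ : ℝ) :
    ∃ B : ℝ, ∀ s : ℂ, σ₁ ≤ s.re → s.re ≤ σ₂ → ‖P.Λ₀ s‖ ≤ B := by
  have hint : ∀ σ : ℝ, IntegrableOn (fun t : ℝ => ‖(t : ℂ) ^ ((σ : ℂ) - 1) • P.f_modif t‖)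
      (Set.Ioi 0) := fun σ => (P.isStrongFEPair_toStrongFEPair.hasMellin σ).1.norm
  refine ⟨∫ t in Set.Ioi (0 : ℝ), (‖(t : ℂ) ^ ((σ₁ : ℂ) - 1) • P.f_modif t‖ +
    ‖(t : ℂ) ^ ((σ₂ : ℂ) - 1) • P.f_modif t‖), fun s h₁ h₂ => ?_⟩
  refine norm_integral_le_of_norm_le ((hint σ₁).add (hint σ₂)) ?_
  filter_upwards [ae_restrict_mem measurableSet_Ioi] with t ht
  have ht : 0 < t := ht
  simp only [norm_smul, norm_cpow_eq_rpow_re_of_pos ht, sub_re, ofReal_re, one_re]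
  rw [← add_mul]
  refine mul_le_mul_of_nonneg_right ?_ (norm_nonneg _)
  have p1 := Real.rpow_pos_of_pos ht (σ₁ - 1)
  have p2 := Real.rpow_pos_of_pos ht (σ₂ - 1)
  rcases le_total t 1 with h1 | h1
  · have := Real.rpow_le_rpow_of_exponent_ge ht h1 (show σ₁ - 1 ≤ s.re - 1 by linarith)
    linarith
  · have := Real.rpow_le_rpow_of_exponent_le h1 (show s.re - 1 ≤ σ₂ - 1 by linarith)
    linarith

theorem ec_add {σ₁ σ₂ : ℝ} {F G : ℂ → ℂ} (hF : ExpOn σ₁ σ₂ F) (hG : ExpOn σ₁ σ₂ G) :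
    ExpOn σ₁ σ₂ fun s => F s + G s := by
  obtain ⟨C, A, h⟩ := hF
  obtain ⟨C', A', h'⟩ := hG
  refine ⟨|C| + |C'|, |A| + |A'|, fun s hs => (norm_add_le _ _).trans ?_⟩
  have e1 : Real.exp (A * |s.im|) ≤ Real.exp ((|A| + |A'|) * |s.im|) :=
    Real.exp_le_exp.2 (mul_le_mul_of_nonneg_right
      ((le_abs_self A).trans (le_add_of_nonneg_right (abs_nonneg _))) (abs_nonneg _))
  have e2 : Real.exp (A' * |s.im|) ≤ Real.exp ((|A| + |A'|) * |s.im|) :=
    Real.exp_le_exp.2 (mul_le_mul_of_nonneg_right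
      ((le_abs_self A').trans (le_add_of_nonneg_left (abs_nonneg _))) (abs_nonneg _))
  have h1 := (h s hs).trans (mul_le_mul (le_abs_self C) e1 (Real.exp_pos _).le (abs_nonneg _))
  have h2 := (h' s hs).trans (mul_le_mul (le_abs_self C') e2 (Real.exp_pos _).le (abs_nonneg _))
  linarith

theorem ec_const (σ₁ σ₂ : ℝ) (c : ℂ) : ExpOn σ₁ σ₂ fun _ => c :=
  ExpOn.of_bdd (B := ‖c‖) fun _ _ => le_rfl

theorem ec_sub_one (σ₁ σ₂ : ℝ) : ExpOn σ₁ σ₂ fun s => s - 1 := by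
  refine ExpOn.of_poly (B := |σ₁| + |σ₂| + 2) (A := 1) fun s hs => ?_
  have h1 : ‖s - 1‖ ≤ |s.re| + 1 + |s.im| := by
    refine (norm_le_abs_re_add_abs_im _).trans ?_
    simp only [sub_re, one_re, sub_im, one_im, sub_zero]
    have := abs_sub s.re 1
    simp only [abs_one] at this
    linarith
  have h2 : |s.re| ≤ |σ₁| + |σ₂| := by
    rw [abs_le]
    constructor
    · linarith [hs.1, neg_abs_le σ₁, abs_nonneg σ₂]
    · linarith [hs.2, le_abs_self σ₂, abs_nonneg σ₁]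
  rw [Real.rpow_one]
  nlinarith [abs_nonneg s.im, abs_nonneg σ₁, abs_nonneg σ₂]

theorem ec_shift {σ₁ σ₂ : ℝ} {F : ℂ → ℂ} (hF : ExpOn (σ₁ + 1) (σ₂ + 1) F) :
    ExpOn σ₁ σ₂ fun s => F (s + 1) := by
  obtain ⟨C, A, h⟩ := hF
  refine ⟨C, A, fun s hs => ?_⟩
  have := h (s + 1) ⟨by simpa using hs.1, by simpa using hs.2⟩
  simpa using this

theorem ec_gK_add_one {s : ℂ} (hs : s ≠ 0) :
    (gK (s + 1))⁻¹ = ((2 * Real.pi / Real.sqrt 3 : ℝ) : ℂ) * ((gK s)⁻¹ * (1 / s)) := by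
  have hk : ((2 * Real.pi / Real.sqrt 3 : ℝ) : ℂ) ≠ 0 := by
    have : (0 : ℝ) < 2 * Real.pi / Real.sqrt 3 := by positivity
    exact_mod_cast this.ne'
  rw [gK, gK, Gamma_add_one s hs, neg_add, cpow_add _ _ hk, cpow_neg_one]
  simp only [mul_inv, inv_inv]
  ring

/-- the pair of theta functions -/
noncomputable def ec_pair (hQ : Q ≠ 0) (h : Per Q Ψ) : WeakFEPair ℂ where
  f t := th Ψ ((Real.sqrt (nm Q))⁻¹ * t)
  g t := ((Real.sqrt (nm Q))⁻¹ : ℝ) * th (FT Q Ψ) ((Real.sqrt (nm Q))⁻¹ * t)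
  k := 1
  ε := 1
  f₀ := Ψ 0
  g₀ := ((Real.sqrt (nm Q))⁻¹ : ℝ) * FT Q Ψ 0
  hf_int := by
    obtain ⟨M, hM⟩ := h.bdd hQ
    have hc : 0 < (Real.sqrt (nm Q))⁻¹ := inv_pos.2 (Real.sqrt_pos.2 (nm_pos hQ))
    refine ContinuousOn.locallyIntegrableOn ?_ measurableSet_Ioi
    exact (continuousOn_th hM).comp (by fun_prop) fun t ht => mul_pos hc ht
  hg_int := by
    obtain ⟨M, hM⟩ := (per_FT Q Ψ).bdd hQ
    have hc : 0 < (Real.sqrt (nm Q))⁻¹ := inv_pos.2 (Real.sqrt_pos.2 (nm_pos hQ))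
    refine ContinuousOn.locallyIntegrableOn (continuousOn_const.mul ?_) measurableSet_Ioi
    exact (continuousOn_th hM).comp (by fun_prop) fun t ht => mul_pos hc ht
  hk := one_pos
  hε := one_ne_zero
  h_feq x hx := by
    have hx : 0 < x := hx
    have hR : 0 < Real.sqrt (nm Q) := Real.sqrt_pos.2 (nm_pos hQ)
    have hN : nm Q = Real.sqrt (nm Q) * Real.sqrt (nm Q) := (Real.mul_self_sqrt (nm_nonneg Q)).symm
    have e : ((Real.sqrt (nm Q))⁻¹ * (1 / x) * nm Q)⁻¹ = (Real.sqrt (nm Q))⁻¹ * x := by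
      set R := Real.sqrt (nm Q)
      rw [hN]
      field_simp
    rw [th_FE hQ h (t := (Real.sqrt (nm Q))⁻¹ * (1 / x)) (by positivity), e]
    simp only [Real.rpow_one, one_mul, smul_eq_mul]
    push_cast
    ring
  hf_top r := by
    obtain ⟨M, hM⟩ := h.bdd hQ
    exact th_decay hM (inv_pos.2 (Real.sqrt_pos.2 (nm_pos hQ))) r
  hg_top r := by
    obtain ⟨M, hM⟩ := (per_FT Q Ψ).bdd hQ
    have := (th_decay hM (inv_pos.2 (Real.sqrt_pos.2 (nm_pos hQ))) r).const_mul_left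
      (((Real.sqrt (nm Q))⁻¹ : ℝ) : ℂ)
    simpa only [mul_sub] using this

theorem ec_cpow {R : ℝ} (hR : 0 < R) (s : ℂ) :
    ((2 * Real.pi / Real.sqrt 3 * R⁻¹ : ℝ) : ℂ) ^ (-s) * Gamma s = (R : ℂ) ^ s * gK s := by
  rw [gK, ofReal_mul, mul_cpow_ofReal_nonneg (by positivity) (inv_pos.2 hR).le, ofReal_inv,
    inv_cpow _ _ (by rw [arg_ofReal_of_nonneg hR.le]; exact Real.pi_pos.ne), cpow_neg (R : ℂ), inv_inv]
  ring

/-- C1.  `WeakFEPair` with `f t = θ_Ψ(t/√NQ)`, `g t = θ_{FT Ψ}(t/√NQ)/√NQ`, `k = 1`, `ε = 1`,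
`f₀ = Ψ 0`, `g₀ = FT Q Ψ 0/√NQ`; with `c = 2π/(√3 √NQ)`,
`E s = c^s ((s-1) Λ₀ s / Γ s - (s-1) f₀ / Γ(s+1) + g₀ / Γ s)`. -/
theorem exists_cont (hQ : Q ≠ 0) (h : Per Q Ψ) : ∃ E : ℂ → ℂ, Differentiable ℂ E ∧
    (∀ s : ℂ, 1 < s.re → E s = (s - 1) * ZD Ψ s) ∧
    E 1 = (2 * Real.pi / Real.sqrt 3 : ℝ) * rsum Q Ψ / nm Q ∧
    (∀ s : ℂ, 1 < s.re → E (1 - s) = -s * (nm Q : ℂ) ^ (s - 1) * RK s * ZD (FT Q Ψ) s) ∧
    ∀ σ₁ σ₂ : ℝ, ExpOn σ₁ σ₂ E := by
  set P := ec_pair hQ h with hP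
  set R := Real.sqrt (nm Q) with hRdef
  set κ : ℂ := ((2 * Real.pi / Real.sqrt 3 : ℝ) : ℂ) with hκ
  have hR : 0 < R := Real.sqrt_pos.2 (nm_pos hQ)
  have hRc : (R : ℂ) ≠ 0 := by exact_mod_cast hR.ne'
  have hN : (nm Q : ℂ) = R * R := by exact_mod_cast (Real.mul_self_sqrt (nm_nonneg Q)).symm
  have hk : κ ≠ 0 := by
    have : (0 : ℝ) < 2 * Real.pi / Real.sqrt 3 := by positivity
    rw [hκ]
    exact_mod_cast this.ne'
  set E : ℂ → ℂ := fun s => (R : ℂ) ^ (-s) * ((s - 1) * (gK s)⁻¹ * P.Λ₀ s +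
    (s - 1) * (gK (s + 1))⁻¹ * (-(P.f₀ / κ)) + (gK s)⁻¹ * P.g₀) with hE
  have key : ∀ s : ℂ, s ≠ 0 → s ≠ 1 → E s = (R : ℂ) ^ (-s) * (s - 1) * (gK s)⁻¹ * P.Λ s := by
    intro s h0 h1
    have h1' : (1 : ℂ) - s ≠ 0 := sub_ne_zero.2 h1.symm
    have e1 : P.ε = 1 := rfl
    have e2 : P.k = 1 := rfl
    simp only [hE, WeakFEPair.Λ, ec_gK_add_one h0, e1, e2, smul_eq_mul, ← hκ, ofReal_one]
    field_simp
    ring
  have hL : ∀ s : ℂ, 1 < s.re → P.Λ s = (R : ℂ) ^ s * gK s * ZD Ψ s := by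
    intro s hs
    obtain ⟨M, hM⟩ := h.bdd hQ
    rw [← (P.hasMellin (s := s) hs).2, ← ec_cpow hR]
    exact mellin_th hM (inv_pos.2 hR) hs
  have hL' : ∀ s : ℂ, 1 < s.re →
      P.symm.Λ s = (R : ℂ)⁻¹ * ((R : ℂ) ^ s * gK s * ZD (FT Q Ψ) s) := by
    intro s hs
    obtain ⟨M, hM⟩ := (per_FT Q Ψ).bdd hQ
    rw [← (P.symm.hasMellin (s := s) hs).2, ← ec_cpow hR, ← mellin_th hM (inv_pos.2 hR) hs,
      ← smul_eq_mul, ← mellin_const_smul]
    congr 1
    funext t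
    simp only [WeakFEPair.symm_f, WeakFEPair.symm_f₀, hP, ec_pair, smul_eq_mul, ofReal_inv, ← hRdef]
    ring
  refine ⟨E, ?_, ?_, ?_, ?_, ?_⟩
  · have d1 : Differentiable ℂ fun s : ℂ => (R : ℂ) ^ (-s) :=
      differentiable_id.neg.const_cpow (Or.inl hRc)
    have d2 := differentiable_inv_gK
    have d3 : Differentiable ℂ fun s : ℂ => (gK (s + 1))⁻¹ :=
      differentiable_inv_gK.comp (differentiable_id.add_const 1)
    have d4 := P.differentiable_Λ₀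
    have d5 : Differentiable ℂ fun s : ℂ => s - 1 := differentiable_id.sub_const 1
    exact d1.mul ((((d5.mul d2).mul d4).add ((d5.mul d3).mul_const _)).add (d2.mul_const _))
  · intro s hs
    have h0 : s ≠ 0 := fun e => by rw [e] at hs; norm_num at hs
    have h1 : s ≠ 1 := fun e => by rw [e] at hs; norm_num at hs
    have hg : gK s ≠ 0 := gK_ne_zero (by linarith)
    have hp : (R : ℂ) ^ s ≠ 0 := cpow_ne_zero_iff.2 (Or.inl hRc)
    rw [key s h0 h1, hL s hs, cpow_neg]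
    field_simp
  · have e : P.g₀ = (R : ℂ)⁻¹ * rsum Q Ψ := by
      simp only [hP, ec_pair, FT_zero, ofReal_inv, ← hRdef]
    simp only [hE, sub_self, zero_mul, zero_add, e, gK, cpow_neg_one, Gamma_one, mul_one, inv_inv, hN,
      ← hκ]
    field_simp
  · intro s hs
    have h0 : s ≠ 0 := fun e => by rw [e] at hs; norm_num at hs
    have h1 : s ≠ 1 := fun e => by rw [e] at hs; norm_num at hs
    have hf := P.functional_equation s
    have e1 : P.ε = 1 := rfl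
    have e2 : P.k = 1 := rfl
    rw [e1, e2, one_smul, ofReal_one, hL' s hs] at hf
    rw [key (1 - s) (sub_ne_zero.2 h1.symm) (fun e => h0 (by linear_combination -e)), hf, hN,
      ← ofReal_mul, ofReal_mul, mul_cpow_ofReal_nonneg hR.le hR.le, RK, neg_sub, cpow_sub _ _ hRc,
      cpow_one]
    field_simp
    ring
  · intro σ₁ σ₂
    have x1 : ExpOn σ₁ σ₂ fun s => (R : ℂ) ^ (-s) := by
      have := expOn_cpow hR σ₁ σ₂ (-1) 0
      simpa using this
    obtain ⟨B, hB⟩ := bdd_Λ₀ P σ₁ σ₂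
    have x2 : ExpOn σ₁ σ₂ P.Λ₀ := ExpOn.of_bdd fun s hs => hB s hs.1 hs.2
    have x3 := expOn_inv_gK σ₁ σ₂
    have x4 := ec_shift (expOn_inv_gK (σ₁ + 1) (σ₂ + 1))
    have x5 := ec_sub_one σ₁ σ₂
    exact x1.mul (ec_add (ec_add ((x5.mul x3).mul x2) ((x5.mul x4).mul (ec_const _ _ _)))
      (x3.mul (ec_const _ _ _)))

theorem thc_absorb {K α β C x y y' : ℝ} (hx : 1 ≤ x) (hy : 0 ≤ y) (hy' : 1 ≤ y') (hyy : y ≤ y')
    (hC : 0 ≤ C) (hβ0 : 0 ≤ β) (hK : K ≤ C) (hα : α ≤ C) (hβ : β ≤ C) :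
    K * x ^ α * y ^ β ≤ C * x ^ C * y' ^ C :=
  mul_le_mul (mul_le_mul hK (Real.rpow_le_rpow_of_exponent_le hx hα) (by positivity) hC)
    ((Real.rpow_le_rpow hy hyy hβ0).trans (Real.rpow_le_rpow_of_exponent_le hy' hβ))
    (by positivity) (by positivity)

theorem thc_two {C t : ℝ} (hC : 0 ≤ C) (ht : 0 ≤ t) : (2 + t) ^ C ≤ 2 ^ C * (1 + t) ^ C := by
  rw [← Real.mul_rpow (by norm_num) (by positivity)]
  exact Real.rpow_le_rpow (by positivity) (by linarith) hC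

theorem thc_ZD {M : ℝ} (h : ∀ n, ‖Ψ n‖ ≤ M) {s : ℂ} (hs : 2 ≤ s.re) :
    ‖ZD Ψ s‖ ≤ M * ∑' n : O, nm n ^ (-(2 : ℝ)) := by
  refine tsum_of_norm_bounded ((summable_nm_rpow (σ := 2) (by norm_num)).hasSum.mul_left M)
    fun n => ?_
  rw [norm_mul]
  refine mul_le_mul (h n) ?_ (norm_nonneg _) ((norm_nonneg _).trans (h 0))
  rw [norm_cpow_eq_rpow_re_of_nonneg (nm_nonneg n) (by rw [neg_re]; linarith), neg_re]
  by_cases hn : n = 0
  · rw [nm_eq_zero.2 hn, Real.zero_rpow (by linarith), Real.zero_rpow (by norm_num)]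
  · exact Real.rpow_le_rpow_of_exponent_le (one_le_nm hn) (by linarith)

theorem thc_norm {s : ℂ} {r : ℝ} (hr : 1 ≤ r) (hs : s.re = r) : ‖s‖ ≤ r * (1 + |s.im|) := by
  have := norm_le_abs_re_add_abs_im s
  rw [hs, abs_of_pos (by linarith)] at this
  nlinarith [abs_nonneg s.im]

/-- uniform polynomial growth.  `Re s ≥ 2`: trivial; `Re s ≤ -1`: functional equation, `norm_FT_le`,
`norm_RK_le`; in between `strip_poly_bound` (block B).  `E` is the function of `exists_cont` (identity theorem). -/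
theorem cont_growth (σ₁ σ₂ : ℝ) : ∃ C : ℝ, 0 < C ∧ ∀ (Q : O) (Ψ : O → ℂ) (E : ℂ → ℂ) (s : ℂ),
    Q ≠ 0 → Per Q Ψ → (∀ n, ‖Ψ n‖ ≤ 1) → Differentiable ℂ E →
    (∀ s : ℂ, 1 < s.re → E s = (s - 1) * ZD Ψ s) → σ₁ ≤ s.re → s.re ≤ σ₂ →
    ‖E s‖ ≤ C * nm Q ^ C * (2 + |s.im|) ^ C := by
  set a := min σ₁ (-1) with ha
  set b := max σ₂ 2 with hb
  have ha1 : a ≤ -1 := min_le_right _ _
  have hb2 : 2 ≤ b := le_max_right _ _
  obtain ⟨R, hR, hRK⟩ := norm_RK_le (1 - a) (1 - a) (by linarith)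
  obtain ⟨P, hP, hPL⟩ := strip_poly_bound (A := R + 1) (by positivity) (b - a)
  set Z : ℝ := ∑' n : O, nm n ^ (-(2 : ℝ)) with hZ
  have hZ0 : 0 ≤ Z := tsum_nonneg fun n => Real.rpow_nonneg (nm_nonneg n) _
  have h1a : 0 < 1 - a := by linarith
  have hb1 : 0 < b - 1 := by linarith
  set M : ℝ := (b - 1) * Z + (1 - a) * (R * 2 ^ R) * Z with hM
  have hM0 : 0 ≤ M := by positivity
  refine ⟨P * M + (1 - a) + (R + 1), by positivity, fun Q Ψ E s hQ hΨ h1 hE hEs hs₁ hs₂ => ?_⟩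
  obtain ⟨E', d, e1, -, e2, e3⟩ := exists_cont hQ hΨ
  obtain rfl : E = E' := by
    refine AnalyticOnNhd.eq_of_eventuallyEq (z₀ := (2 : ℂ)) (fun z _ => hE.analyticAt z)
      (fun z _ => d.analyticAt z) ?_
    filter_upwards [(isOpen_lt continuous_const continuous_re).mem_nhds
      (show (1 : ℝ) < (2 : ℂ).re by norm_num)] with z hz
    rw [hEs z hz, e1 z hz]
  have hN := one_le_nm hQ
  have hNp : 1 ≤ nm Q ^ (1 - a) := Real.one_le_rpow hN h1a.le
  have key := hPL a b (M * nm Q ^ (1 - a)) E (by linarith) (by linarith) hE.differentiableOn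
    (e3 a b) (fun w hw => ?_) s ⟨(min_le_left _ _).trans hs₁, hs₂.trans (le_max_left _ _)⟩
  · rw [← mul_assoc] at key
    have hPM : 0 ≤ P * M := by positivity
    exact key.trans (thc_absorb hN (by positivity) (by linarith [abs_nonneg s.im]) (by linarith)
      (by positivity) (by positivity) (by linarith) (by linarith) (by linarith))
  have ht : 1 ≤ 1 + |w.im| := by linarith [abs_nonneg w.im]
  have hp : (1 + |w.im|) ^ (R + 1) = (1 + |w.im|) ^ R * (1 + |w.im|) :=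
    Real.rpow_add_one (by positivity) R
  rcases hw with hw | hw
  · have hre : (1 - w).re = 1 - a := by rw [sub_re, one_re, hw]
    have him : |(1 - w).im| = |w.im| := by simp
    have k := e2 (1 - w) (by linarith)
    rw [sub_sub_cancel] at k
    have k1 := thc_norm (by linarith) hre
    have k2 := (hRK _ hre.ge hre.le).trans (mul_le_mul_of_nonneg_left
      (thc_two hR.le (abs_nonneg _)) hR.le)
    have k3 := thc_ZD (norm_FT_le hQ h1) (s := 1 - w) (by linarith)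
    rw [him] at k1 k2
    have k4 : nm Q ^ (1 - a) = nm Q ^ (1 - a - 1) * nm Q := by
      rw [← Real.rpow_add_one (by positivity), sub_add_cancel]
    rw [k, norm_mul, norm_mul, norm_mul, norm_neg, norm_cpow_eq_rpow_re_of_pos (by positivity),
      sub_re, hre, one_re]
    calc _ ≤ (1 - a) * (1 + |w.im|) * nm Q ^ (1 - a - 1) * (R * (2 ^ R * (1 + |w.im|) ^ R)) *
          (nm Q * 1 * Z) := by gcongr
      _ = (1 - a) * (R * 2 ^ R) * Z * nm Q ^ (1 - a) * (1 + |w.im|) ^ (R + 1) := by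
          rw [hp, k4]
          ring
      _ ≤ _ := by
          gcongr
          rw [hM]
          exact le_add_of_nonneg_left (by positivity)
  · have hre : (w - 1).re = b - 1 := by rw [sub_re, one_re, hw]
    have him : |(w - 1).im| = |w.im| := by simp
    have k1 := thc_norm (by linarith) hre
    have k3 := thc_ZD h1 (s := w) (by linarith)
    rw [him] at k1
    have k4 : 1 + |w.im| ≤ (1 + |w.im|) ^ (R + 1) := by
      rw [hp]
      exact le_mul_of_one_le_left (by positivity) (Real.one_le_rpow ht hR.le)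
    rw [hEs w (by linarith), norm_mul]
    calc _ ≤ (b - 1) * (1 + |w.im|) * (1 * Z) := by gcongr
      _ = (b - 1) * Z * 1 * (1 + |w.im|) := by ring
      _ ≤ _ := by
          gcongr
          rw [hM]
          exact le_add_of_nonneg_right (by positivity)

end Crest.Agent.R17.C
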