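import Crest.Agent.R17.C.Defs

/-! Row 17, block C: the sieved sums behind the Euler product (auxiliary file for `Euler.lean`). -/

set_option autoImplicit false

namespace Crest.Agent.R17.C

open Complex Filter Topology

open Classical in
theorem eub_sieve (f : O → ℂ) (hm : ∀ a b : Pr, f (a * b) = f a * f b)
    (hs : Summable fun n : Pr => ‖f n‖) (S : Finset PPr) :
    ∑' n : Pr, (if ∀ p ∈ S, ¬ (p : O) ∣ n then f n else 0) = (∏ p ∈ S, (1 - f p)) * ∑' n : Pr, f n := by
  induction S using Finset.induction_on with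
  | empty => simp
  | insert p S hp ih =>
    have h1 := tsum_Pr_dvd p.2.2 fun n => if ∀ r ∈ S, ¬ (r : O) ∣ n then f n else 0
    have h2 : ∀ m : Pr, (if ∀ r ∈ S, ¬ (r : O) ∣ p * m then f (p * m) else 0) =
        f p * if ∀ r ∈ S, ¬ (r : O) ∣ m then f m else 0 := fun m => by
      rw [hm ⟨p, p.2.2⟩ m, mul_ite, mul_zero]
      refine if_congr (forall₂_congr fun r hr => not_congr ?_) rfl rfl
      refine ⟨fun h => ?_, fun h => h.mul_left _⟩
      exact (r.2.2.coprime_of_ne p.2.2 r.2.1 p.2.1 fun e => hp (Subtype.ext e ▸ hr)).dvd_of_dvd_mul_left h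
    simp only [h2] at h1
    rw [tsum_mul_left, ih] at h1
    have h3 : ∀ n : Pr, (if ∀ r ∈ insert p S, ¬ (r : O) ∣ n then f n else 0) =
        (if ∀ r ∈ S, ¬ (r : O) ∣ n then f n else 0) -
          if (p : O) ∣ n then (if ∀ r ∈ S, ¬ (r : O) ∣ n then f n else 0) else 0 := fun n => by
      simp only [Finset.forall_mem_insert]
      by_cases a : (p : O) ∣ n <;> simp [a]
    simp only [h3]
    rw [Summable.tsum_sub, h1, ih, Finset.prod_insert hp]
    · ring
    · exact Summable.of_norm_bounded hs fun n => by split_ifs <;> simp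
    · exact Summable.of_norm_bounded hs fun n => by split_ifs <;> simp

theorem eub_tendsto (f : O → ℂ) (h1 : f 1 = 1) (hm : ∀ a b : Pr, f (a * b) = f a * f b)
    (hs : Summable fun n : Pr => ‖f n‖) :
    Tendsto (fun S : Finset PPr => (∏ p ∈ S, (1 - f p)) * ∑' n : Pr, f n) atTop (𝓝 1) := by
  classical
  simp only [← eub_sieve f hm hs]
  have h := tendsto_tsum_of_dominated_convergence (𝓕 := atTop)
    (f := fun (S : Finset PPr) (n : Pr) => if ∀ p ∈ S, ¬ (p : O) ∣ n then f n else 0)
    (g := fun n : Pr => if n = 1 then 1 else 0) hs (fun n => ?_)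
    (Eventually.of_forall fun S n => by split_ifs <;> simp)
  · rw [tsum_ite_eq] at h
    convert h
  · by_cases hn : n = 1
    · subst hn
      rw [if_pos rfl]
      refine tendsto_const_nhds.congr fun S => ?_
      rw [if_pos fun p _ => p.2.1.not_dvd_one]
      exact h1.symm
    · rw [if_neg hn]
      obtain ⟨p, a1, a2, a3⟩ := (Pr_prim n).exists_prime_dvd fun h => hn (Subtype.ext h)
      refine tendsto_const_nhds.congr' ?_
      filter_upwards [eventually_ge_atTop ({⟨p, a1, a2⟩} : Finset PPr)] with S hS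
      rw [if_neg fun h => h _ (hS (Finset.mem_singleton_self _)) a3]

theorem eub_hasProd (f : O → ℂ) (h1 : f 1 = 1) (hm : ∀ a b : Pr, f (a * b) = f a * f b)
    (hs : Summable fun n : Pr => ‖f n‖) :
    HasProd (fun p : PPr => (1 - f p)⁻¹) (∑' n : Pr, f n) := by
  have h := eub_tendsto f h1 hm hs
  have h0 : ∑' n : Pr, f n ≠ 0 := fun h0 => by
    simp only [h0, mul_zero] at h
    exact zero_ne_one (tendsto_nhds_unique tendsto_const_nhds h)
  have h2 := (h.inv₀ one_ne_zero).mul_const (∑' n : Pr, f n)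
  simp only [mul_inv, inv_mul_cancel_right₀ h0, inv_one, one_mul, ← Finset.prod_inv_distrib] at h2
  exact h2

theorem eub_ne (f : O → ℂ) (h1 : f 1 = 1) (hm : ∀ a b : Pr, f (a * b) = f a * f b)
    (hs : Summable fun n : Pr => ‖f n‖) (p : PPr) : 1 - f p ≠ 0 := fun h0 => by
  refine zero_ne_one (tendsto_nhds_unique (tendsto_const_nhds.congr' ?_) (eub_tendsto f h1 hm hs))
  filter_upwards [eventually_ge_atTop ({p} : Finset PPr)] with S hS
  rw [Finset.prod_eq_zero (hS (Finset.mem_singleton_self _)) h0, zero_mul]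

theorem eub_exp_log (f : O → ℂ) (h1 : f 1 = 1) (hm : ∀ a b : Pr, f (a * b) = f a * f b)
    (hs : Summable fun n : Pr => ‖f n‖) :
    exp (∑' p : PPr, -log (1 - f p)) = ∑' n : Pr, f n := by
  have h2 : Summable fun p : PPr => f p :=
    hs.of_norm.comp_injective (i := fun p : PPr => (⟨p, p.2.2⟩ : Pr))
      fun a b h => Subtype.ext (congrArg (fun x : Pr => (x : O)) h)
  have H := h2.clog_one_sub.neg.hasSum.cexp.tprod_eq
  simp only [Function.comp_apply, exp_neg, exp_log (eub_ne f h1 hm hs _)] at H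
  exact H.symm.trans (eub_hasProd f h1 hm hs).tprod_eq

end Crest.Agent.R17.C
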