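import Crest.Agent.R17.C.Defs
import Crest.Agent.R17.C.EulerAuxB

/-! Row 17, block C (owner helper6): Dirichlet series on `Re s > 1`, Euler products, formal properties of `Lx`. -/

set_option autoImplicit false

namespace Crest.Agent.R17.C

open scoped ComplexConjugate
open Complex MeasureTheory

variable {q : O} {ψ ψ' : O → ℂ} {s : ℂ}

/-- raising the level (`IsTw.lift`, `IsTw.ne_zero`) -/
theorem tw_raise (h : IsTw q ψ) (D : O) : IsTw (q * D) fun n => ψ n * one D n := by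
  have h1 := h.lift (dvd_mul_right q D)
  convert h1 using 2 with n
  by_cases hn : IsCoprime n q
  · have : IsCoprime n (q * D) ↔ IsCoprime n D :=
      ⟨fun h' => h'.of_mul_right_right, fun h' => hn.mul_right h'⟩
    unfold one
    rw [propext this]
  · rw [h.zero n hn, zero_mul, zero_mul]

theorem eua_norm_le (hb : ∀ n : Pr, ‖ψ n‖ ≤ 1) {σ : ℝ} (hσ : σ ≤ s.re) (n : Pr) :
    ‖ψ n * (nm n : ℂ) ^ (-s)‖ ≤ nm n ^ (-σ) := by
  have h1 : 1 ≤ nm (n : O) := one_le_nm (Pr_prim n).ne_zero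
  rw [norm_mul, Complex.norm_cpow_eq_rpow_re_of_pos (lt_of_lt_of_le one_pos h1), neg_re]
  calc _ ≤ 1 * nm (n : O) ^ (-s.re) :=
        mul_le_mul_of_nonneg_right (hb n) (Real.rpow_nonneg (nm_nonneg _) _)
    _ ≤ _ := by
        rw [one_mul]
        exact Real.rpow_le_rpow_of_exponent_le h1 (neg_le_neg hσ)

theorem eua_summable {σ : ℝ} (hσ : 1 < σ) : Summable fun n : Pr => nm n ^ (-σ) :=
  (summable_nm_rpow hσ).subtype _

/-- `adm_Pr`, `Adm.summable_DD`, `DS_eq_DD` (block B) -/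
theorem summable_norm_DS (hb : ∀ n : Pr, ‖ψ n‖ ≤ 1) (hs : 1 < s.re) :
    Summable fun n : Pr => ‖ψ n * (nm n : ℂ) ^ (-s)‖ := by
  exact Summable.of_nonneg_of_le (fun _ => norm_nonneg _) (eua_norm_le hb le_rfl)
    (eua_summable hs)

theorem norm_DS_le (δ : ℝ) (hδ : 0 < δ) : ∃ C : ℝ, 0 < C ∧ ∀ (ψ : O → ℂ) (s : ℂ),
    (∀ n : Pr, ‖ψ n‖ ≤ 1) → 1 + δ ≤ s.re → ‖DS ψ s‖ ≤ C := by
  have hsum := eua_summable (σ := 1 + δ) (by linarith)
  refine ⟨∑' n : Pr, nm n ^ (-(1 + δ)) + 1, ?_, fun ψ s hb hs => ?_⟩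
  · have : 0 ≤ ∑' n : Pr, nm n ^ (-(1 + δ)) :=
      tsum_nonneg fun n => Real.rpow_nonneg (nm_nonneg _) _
    linarith
  · have := tsum_of_norm_bounded hsum.hasSum (eua_norm_le hb hs)
    unfold DS
    linarith

theorem differentiableOn_DS (hb : ∀ n : Pr, ‖ψ n‖ ≤ 1) :
    DifferentiableOn ℂ (DS ψ) {s | 1 < s.re} := by
  intro s hs
  have hs' : 1 < s.re := hs
  set σ : ℝ := (1 + s.re) / 2 with hσ
  have hU : IsOpen {z : ℂ | σ < z.re} := isOpen_lt continuous_const Complex.continuous_re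
  have h1 : DifferentiableOn ℂ (fun z => ∑' n : Pr, ψ n * (nm n : ℂ) ^ (-z)) {z : ℂ | σ < z.re} := by
    refine Complex.differentiableOn_tsum_of_summable_norm (eua_summable (σ := σ) (by linarith))
      (fun n => ?_) hU fun n z hz => eua_norm_le hb (le_of_lt hz) n
    have h0 : (nm (n : O) : ℂ) ≠ 0 := by
      exact_mod_cast (nm_pos (Pr_prim n).ne_zero).ne'
    exact ((differentiable_id.neg.const_cpow (Or.inl h0)).const_mul _).differentiableOn
  have h2 : s ∈ {z : ℂ | σ < z.re} := by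
    show σ < s.re
    linarith
  exact (h1.differentiableAt (hU.mem_nhds h2)).differentiableWithinAt

/-- identity theorem -/
theorem Lx_unique {G : ℂ → ℂ} (h : IsL ψ G) : Lx ψ = G := by
  have hex : ∃ G, IsL ψ G := ⟨G, h⟩
  have h' := hex.choose_spec
  unfold Lx
  rw [dif_pos hex]
  have hU : IsOpen {z : ℂ | 1 < z.re} := isOpen_lt continuous_const Complex.continuous_re
  have h2 : (2 : ℂ) ∈ {z : ℂ | 1 < z.re} := by
    show (1 : ℝ) < (2 : ℂ).re
    norm_num
  refine AnalyticOnNhd.eq_of_eventuallyEq (z₀ := 2) (fun z _ => h'.1.analyticAt z)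
    (fun z _ => h.1.analyticAt z) ?_
  filter_upwards [hU.mem_nhds h2] with z hz
  rw [h'.2 z hz, h.2 z hz]

theorem Lx_congr (h : ∀ n : Pr, ψ n = ψ' n) : Lx ψ = Lx ψ' := by
  have hP : Princ ψ ↔ Princ ψ' := by
    unfold Princ; simp only [h]
  have hI : IsL ψ = IsL ψ' := by
    funext G
    unfold IsL pf DS
    rw [propext hP]
    simp only [h]
  by_cases hex : ∃ G, IsL ψ G
  · obtain ⟨G, hG⟩ := hex
    rw [Lx_unique hG, Lx_unique (hI ▸ hG)]
  · have hex' : ¬ ∃ G, IsL ψ' G := hI ▸ hex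
    unfold Lx
    rw [dif_neg hex, dif_neg hex']

theorem princ_conj : (Princ fun n => conj (ψ n)) ↔ Princ ψ := by
  unfold Princ
  refine forall_congr' fun n => or_congr ?_ ?_
  · simp
  · constructor
    · intro h
      have := congrArg conj h
      simpa using this
    · intro h; simp [h]

theorem eua_DS_conj (ψ : O → ℂ) (s : ℂ) : DS (fun n => conj (ψ n)) s = conj (DS ψ (conj s)) := by
  unfold DS
  rw [Complex.conj_tsum]
  refine tsum_congr fun n => ?_
  rw [map_mul, ← map_neg, Complex.cpow_conj _ _ (by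
    rw [Complex.arg_ofReal_of_nonneg (nm_nonneg _)]; exact Real.pi_ne_zero.symm)]
  simp

theorem eua_isL_conj {ψ : O → ℂ} {G : ℂ → ℂ} (h : IsL ψ G) :
    IsL (fun n => conj (ψ n)) fun s => conj (G (conj s)) := by
  refine ⟨fun z => ?_, fun s hs => ?_⟩
  · have := (h.1 (conj z)).conj_conj
    simpa [Function.comp_def] using this
  · have hs' : 1 < (conj s).re := by simpa using hs
    show conj (G (conj s)) = _
    rw [h.2 _ hs', map_mul, eua_DS_conj]
    congr 1
    unfold pf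
    by_cases hp : Princ ψ
    · rw [if_pos hp, if_pos (princ_conj.2 hp)]; simp
    · rw [if_neg hp, if_neg (fun h' => hp (princ_conj.1 h'))]; simp

/-- `G ↦ conj ∘ G ∘ conj` exchanges the continuations (both sides are `0` if there is none) -/
theorem Lx_conj (ψ : O → ℂ) (s : ℂ) : Lx (fun n => conj (ψ n)) s = conj (Lx ψ (conj s)) := by
  by_cases hex : ∃ G, IsL ψ G
  · obtain ⟨G, hG⟩ := hex
    rw [Lx_unique hG, Lx_unique (eua_isL_conj hG)]
  · have hex' : ¬ ∃ G, IsL (fun n => conj (ψ n)) G := by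
      rintro ⟨G, hG⟩
      have := eua_isL_conj hG
      simp only [Complex.conj_conj] at this
      exact hex ⟨_, this⟩
    unfold Lx
    rw [dif_neg hex, dif_neg hex']
    simp

/-- EULER PRODUCT for a completely multiplicative summable function on the primary elements.
For a finite set `S` of primary primes the sum over the `S`-smooth primary elements is
`∏_{p ∈ S} (1 - f p)⁻¹` (induction on `S`; `n = p^k n'` uniquely); the `S`-smooth sets exhaust `Pr`. -/
theorem hasProd_euler (f : O → ℂ) (h1 : f 1 = 1) (hm : ∀ a b : Pr, f (a * b) = f a * f b)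
    (hs : Summable fun n : Pr => ‖f n‖) :
    HasProd (fun p : PPr => (1 - f p)⁻¹) (∑' n : Pr, f n) :=
  eub_hasProd f h1 hm hs

/-- as `EulerProduct.exp_tsum_primes_log_eq_tsum`: `‖f p‖ < 1` because `∑ ‖f p‖^k` converges -/
theorem exp_log_euler (f : O → ℂ) (h1 : f 1 = 1) (hm : ∀ a b : Pr, f (a * b) = f a * f b)
    (hs : Summable fun n : Pr => ‖f n‖) :
    exp (∑' p : PPr, -log (1 - f p)) = ∑' n : Pr, f n :=
  eub_exp_log f h1 hm hs

theorem euc_cpow (a b : O) (s : ℂ) :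
    (nm (a * b) : ℂ) ^ (-s) = (nm a : ℂ) ^ (-s) * (nm b : ℂ) ^ (-s) := by
  rw [nm_mul, Complex.ofReal_mul, Complex.mul_cpow_ofReal_nonneg (nm_nonneg a) (nm_nonneg b)]

theorem euc_sum_anti {n : O} (hn : Prim n) (g : O → ℂ) :
    ∑ p ∈ anti n, g p.1 = ∑ d ∈ pdiv n, g d := by
  refine Finset.sum_bij (fun p _ => p.1) ?_ ?_ ?_ (fun _ _ => rfl)
  · intro p hp
    obtain ⟨h₁, -, h⟩ := mem_anti.1 hp
    exact (mem_pdiv hn.ne_zero).2 ⟨h₁, h ▸ dvd_mul_right _ _⟩
  · intro p hp q hq h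
    obtain ⟨h₁, -, h₃⟩ := mem_anti.1 hp
    obtain ⟨-, -, h₄⟩ := mem_anti.1 hq
    refine Prod.ext h (mul_left_cancel₀ h₁.ne_zero ?_)
    rw [h₃, ← h₄]
    exact congrArg (· * q.2) h.symm
  · intro d hd
    obtain ⟨h₁, h₂⟩ := (mem_pdiv hn.ne_zero).1 hd
    obtain ⟨m, hm, h⟩ := h₁.exists_mul hn h₂
    exact ⟨(d, m), mem_anti.2 ⟨h₁, hm, h.symm⟩, rfl⟩

theorem euc_norm_one (D n : O) : ‖one D n‖ ≤ 1 := by
  unfold one
  split_ifs <;> simp

theorem euc_one_mul (D a b : O) : one D (a * b) = one D a * one D b := by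
  unfold one
  by_cases ha : IsCoprime a D <;> by_cases hb : IsCoprime b D <;>
    simp [IsCoprime.mul_left_iff, ha, hb]

theorem euc_one_prime {p : O} (hp : Prime p) (n : O) [Decidable (p ∣ n)] :
    one p n = if p ∣ n then 0 else 1 := by
  unfold one
  have h : IsCoprime n p ↔ ¬ p ∣ n := by
    rw [isCoprime_comm]
    exact hp.irreducible.coprime_iff_not_dvd
  by_cases hd : p ∣ n
  · rw [if_neg (fun hc => h.1 hc hd), if_pos hd]
  · rw [if_pos (h.2 hd), if_neg hd]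

/-- `sum_mu_pdiv`, `tsum_Pr_pairs` (block A), `tsum_mul_tsum_of_summable_norm` -/
theorem DS_mul_DS_mu (h1 : ψ 1 = 1) (hm : ∀ a b : Pr, ψ (a * b) = ψ a * ψ b)
    (hb : ∀ n : Pr, ‖ψ n‖ ≤ 1) (hs : 1 < s.re) : DS ψ s * DS (fun n => mu n * ψ n) s = 1 := by
  classical
  have hb' : ∀ n : Pr, ‖mu n * ψ n‖ ≤ 1 := fun n => by
    rw [norm_mul]
    exact mul_le_one₀ (norm_mu_le _) (norm_nonneg _) (hb n)
  have s1 := summable_norm_DS hb hs
  have s2 := summable_norm_DS (ψ := fun n => mu n * ψ n) hb' hs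
  rw [mul_comm]
  unfold DS
  rw [tsum_mul_tsum_of_summable_norm s2 s1]
  have s3 := summable_mul_of_summable_norm s2 s1
  have h := tsum_Pr_pairs
    (F := fun a b => mu a * ψ a * (nm a : ℂ) ^ (-s) * (ψ b * (nm b : ℂ) ^ (-s))) s3
  rw [h]
  have h2 : ∀ n : Pr, ∑ p ∈ anti n, mu p.1 * ψ p.1 * (nm p.1 : ℂ) ^ (-s) *
      (ψ p.2 * (nm p.2 : ℂ) ^ (-s)) = if n = 1 then 1 else 0 := by
    intro n
    have h3 : ∀ p ∈ anti (n : O), mu p.1 * ψ p.1 * (nm p.1 : ℂ) ^ (-s) *
        (ψ p.2 * (nm p.2 : ℂ) ^ (-s)) = mu p.1 * (ψ n * (nm n : ℂ) ^ (-s)) := by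
      intro p hp
      obtain ⟨h₁, h₂, h₃⟩ := mem_anti.1 hp
      have h4 := hm ⟨p.1, h₁⟩ ⟨p.2, h₂⟩
      rw [← h₃, euc_cpow]
      simp only at h4
      rw [h4]
      ring
    rw [Finset.sum_congr rfl h3, ← Finset.sum_mul, euc_sum_anti (Pr_prim n), sum_mu_pdiv (Pr_prim n)]
    by_cases hn : n = 1
    · subst hn
      simp [h1]
    · have hn' : (n : O) ≠ 1 := fun h => hn (Subtype.ext h)
      simp [hn, hn']
  rw [tsum_congr h2]
  simp

/-- removing one primary prime: `DS ψ = DS (ψ 1_{p ∤ n}) + ψ(p) N(p)^(-s) DS ψ` (`tsum_Pr_dvd`) -/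
theorem DS_mask_prime (hm : ∀ a b : Pr, ψ (a * b) = ψ a * ψ b) (hb : ∀ n : Pr, ‖ψ n‖ ≤ 1)
    {p : O} (hp : Prime p) (hp' : Prim p) (hs : 1 < s.re) :
    DS (fun n => ψ n * one p n) s = DS ψ s * (1 - ψ p * (nm p : ℂ) ^ (-s)) := by
  classical
  have s1 := (summable_norm_DS hb hs).of_norm
  have h1 := tsum_Pr_dvd hp' fun n => ψ n * (nm n : ℂ) ^ (-s)
  have h2 : ∑' m : Pr, ψ (p * m) * (nm (p * m) : ℂ) ^ (-s) = ψ p * (nm p : ℂ) ^ (-s) * DS ψ s := by
    unfold DS
    rw [← tsum_mul_left]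
    refine tsum_congr fun m => ?_
    have h4 := hm ⟨p, hp'⟩ m
    simp only at h4
    rw [h4, euc_cpow]
    ring
  have s2 : Summable fun n : Pr => if p ∣ (n : O) then ψ n * (nm n : ℂ) ^ (-s) else 0 := by
    refine Summable.of_norm_bounded (summable_norm_DS hb hs) fun n => ?_
    split_ifs
    · exact le_rfl
    · rw [norm_zero]
      exact norm_nonneg _
  have h3 : DS (fun n => ψ n * one p n) s = DS ψ s -
      ∑' n : Pr, if p ∣ (n : O) then ψ n * (nm n : ℂ) ^ (-s) else 0 := by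
    unfold DS
    rw [← s1.tsum_sub s2]
    refine tsum_congr fun n => ?_
    beta_reduce
    rw [euc_one_prime hp]
    split_ifs <;> simp
  rw [h3, h1, h2]
  ring

theorem euc_mask (hm : ∀ a b : Pr, ψ (a * b) = ψ a * ψ b) (hb : ∀ n : Pr, ‖ψ n‖ ≤ 1)
    (hs : 1 < s.re) (S : Finset O) (hS : ∀ p ∈ S, Prime p ∧ Prim p) :
    DS (fun n => ψ n * ∏ p ∈ S, one p n) s =
      DS ψ s * ∏ p ∈ S, (1 - ψ p * (nm p : ℂ) ^ (-s)) := by
  classical
  induction S using Finset.induction_on with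
  | empty => simp
  | insert r S hr ih =>
    have hS' : ∀ p ∈ S, Prime p ∧ Prim p := fun p hp => hS p (Finset.mem_insert_of_mem hp)
    obtain ⟨hr1, hr2⟩ := hS r (Finset.mem_insert_self _ _)
    have h1 := DS_mask_prime (ψ := fun n => ψ n * ∏ p ∈ S, one p n) (s := s) (fun a b => by
      simp only [hm, euc_one_mul, Finset.prod_mul_distrib]
      ring) (fun n => by
      rw [norm_mul]
      refine mul_le_one₀ (hb n) (norm_nonneg _) ?_
      rw [norm_prod]
      exact Finset.prod_le_one (fun _ _ => norm_nonneg _) fun _ _ => euc_norm_one _ _) hr1 hr2 hs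
    have h2 : ∏ p ∈ S, one p r = 1 := by
      refine Finset.prod_eq_one fun p hp => ?_
      unfold one
      rw [if_pos]
      exact hr2.coprime_of_ne (hS' p hp).2 hr1 (hS' p hp).1 fun h => hr (h ▸ hp)
    simp only [h2, mul_one] at h1
    simp only [Finset.prod_insert hr]
    have h3 : (fun n => ψ n * (one r n * ∏ p ∈ S, one p n)) =
        fun n => ψ n * (∏ p ∈ S, one p n) * one r n := by
      funext n
      ring
    rw [h3, h1, ih hS']
    ring

/-- a mask removes finitely many Euler factors (on `Pr`, `one D = ∏_{p ∈ pfs D} one p` by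
`Prim.coprime_iff`; induction on a finite set of primary primes) -/
theorem DS_mask (hm : ∀ a b : Pr, ψ (a * b) = ψ a * ψ b) (hb : ∀ n : Pr, ‖ψ n‖ ≤ 1) {D : O}
    (hD : D ≠ 0) (hs : 1 < s.re) :
    DS (fun n => ψ n * one D n) s = DS ψ s * ∏ p ∈ pfs D, (1 - ψ p * (nm p : ℂ) ^ (-s)) := by
  classical
  rw [← euc_mask hm hb hs (pfs D) fun p hp => ⟨((mem_pfs hD).1 hp).1, ((mem_pfs hD).1 hp).2.1⟩]
  unfold DS
  refine tsum_congr fun n => ?_
  have h : one D n = ∏ p ∈ pfs D, one p n := by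
    by_cases hc : IsCoprime (n : O) D
    · rw [Finset.prod_eq_one]
      · unfold one
        rw [if_pos hc]
      · intro p hp
        unfold one
        rw [if_pos (hc.of_isCoprime_of_dvd_right ((mem_pfs hD).1 hp).2.2)]
    · have hc' := hc
      rw [(Pr_prim n).coprime_iff] at hc'
      push Not at hc'
      obtain ⟨p, h1, h2, h3, h4⟩ := hc'
      rw [Finset.prod_eq_zero ((mem_pfs hD).2 ⟨h1, h2, h4⟩)]
      · unfold one
        rw [if_neg hc]
      · rw [euc_one_prime h1, if_pos h3]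
  simp only [h]

/-- `nN_mod_three`, `two_le_nm` -/
theorem four_le_nm {p : O} (hp : Prime p) (hp' : Prim p) : 4 ≤ nm p := by
  have h1 := nN_mod_three hp'.coprime_three
  have h2 : (2 : ℝ) ≤ (nN p : ℝ) := two_le_nm hp
  have h3 : 2 ≤ nN p := by exact_mod_cast h2
  have h4 : 4 ≤ nN p := by omega
  show (4 : ℝ) ≤ (nN p : ℝ)
  exact_mod_cast h4

end Crest.Agent.R17.C
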