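import Crest.Agent.R17.A.All
import Crest.Agent.R17.B.All

/-! Row 17, block C (owner helper6): definitions.  Everything lives in `Crest.Agent.R17.C`. -/

set_option autoImplicit false

namespace Crest.Agent.R17.C

open scoped ComplexConjugate

/-- all `L(s, ψ χ_·(u))`, `ψ ∈ Tw q`, are zero-free in `Re s > b`, `|Im s| ≤ H`
(literally the hypothesis of `StCount`) -/
def ZFH (q u : O) (b H : ℝ) : Prop :=
  ∀ (ψ : O → ℂ) (ρ : ℂ), IsTw q ψ → b < ρ.re → |ρ.im| ≤ H → Lx (rc ψ u) ρ ≠ 0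

/-- `r ≠ 0` and every prime of `u` divides `r` (take `r = u` or `r = rad u`) -/
def Rad (u r : O) : Prop := r ≠ 0 ∧ ∃ k : ℕ, u ∣ r ^ k

theorem Rad.self {u : O} (hu : u ≠ 0) : Rad u u := ⟨hu, 1, by simp⟩

/-- Dirichlet series over all non-zero elements (the term `n = 0` is `Ψ 0 * 0 ^ (-s) = 0`, `s ≠ 0`) -/
noncomputable def ZD (Ψ : O → ℂ) (s : ℂ) : ℂ := ∑' n : O, Ψ n * (nm n : ℂ) ^ (-s)

/-- primary primes -/
abbrev PPr : Type := {p : O // Prime p ∧ Prim p}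

/-- generalised Dirichlet series `∑ c_j l_j^(-s)` on `Re s ≥ 1/2` with frequencies `≥ l` and
`∑ ‖c_j‖ l_j^(-1/2) ≤ M` -/
def GD (l M : ℝ) (B : ℂ → ℂ) : Prop :=
  0 < l ∧ ∃ (J : Type) (_ : Countable J) (c : J → ℂ) (f : J → ℝ), (∀ j, l ≤ f j) ∧
    Summable (fun j => ‖c j‖ * f j ^ (-(1 / 2) : ℝ)) ∧
    ∑' j, ‖c j‖ * f j ^ (-(1 / 2) : ℝ) ≤ M ∧
    ∀ s : ℂ, 1 / 2 ≤ s.re → B s = ∑' j, c j * (f j : ℂ) ^ (-s)

open Classical in
/-- the indicator of primary elements times `ψ` -/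
noncomputable def prm (ψ : O → ℂ) (n : O) : ℂ := if Prim n then ψ n else 0

end Crest.Agent.R17.C
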