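import Crest.Agent.R17.C.Euler

/-! Row 17, block C (owner helper6): algebra of generalised Dirichlet series. -/

set_option autoImplicit false

namespace Crest.Agent.R17.C

open scoped ComplexConjugate
open Complex MeasureTheory

variable {l l' M M' : ℝ} {B B' : ℂ → ℂ}

theorem GD.mono (h : GD l M B) (hl : 0 < l') (hl' : l' ≤ l) (hM : M ≤ M') : GD l' M' B := by
  obtain ⟨-, J, hJ, c, f, h1, h2, h3, h4⟩ := h
  exact ⟨hl, J, hJ, c, f, fun j => hl'.trans (h1 j), h2, h3.trans hM, h4⟩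

theorem GD.congr (h : GD l M B) (he : ∀ s : ℂ, 1 / 2 ≤ s.re → B' s = B s) : GD l M B' := by
  obtain ⟨h0, J, hJ, c, f, h1, h2, h3, h4⟩ := h
  exact ⟨h0, J, hJ, c, f, h1, h2, h3, fun s hs => (he s hs).trans (h4 s hs)⟩

theorem GD.nonneg (h : GD l M B) : 0 ≤ M := by
  obtain ⟨h0, J, hJ, c, f, h1, h2, h3, h4⟩ := h
  exact (tsum_nonneg fun j =>
    mul_nonneg (norm_nonneg _) (Real.rpow_nonneg (h0.le.trans (h1 j)) _)).trans h3

theorem GD.single (c : ℂ) {f : ℝ} (hf : 0 < f) :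
    GD f (‖c‖ * f ^ (-(1 / 2) : ℝ)) fun s => c * (f : ℂ) ^ (-s) := by
  refine ⟨hf, Unit, inferInstance, fun _ => c, fun _ => f, fun _ => le_rfl, Summable.of_finite,
    by simp, fun s _ => by simp⟩

theorem gda_term (c : ℂ) {f : ℝ} (hl : 0 < l) (hf : l ≤ f) {s : ℂ} (hs : 1 / 2 ≤ s.re) :
    ‖c * (f : ℂ) ^ (-s)‖ ≤ ‖c‖ * f ^ (-(1 / 2) : ℝ) * l ^ (1 / 2 - s.re) := by
  have f0 : 0 < f := hl.trans_le hf
  rw [norm_mul, Complex.norm_cpow_eq_rpow_re_of_pos f0, mul_assoc]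
  refine mul_le_mul_of_nonneg_left ?_ (norm_nonneg _)
  rw [show (-s).re = -(1 / 2) + (1 / 2 - s.re) by rw [Complex.neg_re]; ring, Real.rpow_add f0]
  exact mul_le_mul_of_nonneg_left (Real.rpow_le_rpow_of_nonpos hl hf (by linarith))
    (Real.rpow_nonneg f0.le _)

theorem gda_summable {J : Type} {c : J → ℂ} {f : J → ℝ} (hl : 0 < l) (hf : ∀ j, l ≤ f j)
    (h : Summable fun j => ‖c j‖ * f j ^ (-(1 / 2) : ℝ)) {s : ℂ} (hs : 1 / 2 ≤ s.re) :
    Summable fun j => ‖c j * (f j : ℂ) ^ (-s)‖ :=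
  Summable.of_nonneg_of_le (fun _ => norm_nonneg _) (fun j => gda_term (c j) hl (hf j) hs)
    (h.mul_right _)

/-- `J ⊕ J'` -/
theorem GD.add (h : GD l M B) (h' : GD l M' B') : GD l (M + M') fun s => B s + B' s := by
  obtain ⟨h0, J, hJ, c, f, h1, h2, h3, h4⟩ := h
  obtain ⟨-, J', hJ', c', f', h1', h2', h3', h4'⟩ := h'
  have hs : HasSum (fun j : J ⊕ J' => ‖Sum.elim c c' j‖ * Sum.elim f f' j ^ (-(1 / 2) : ℝ))
      (∑' j, ‖c j‖ * f j ^ (-(1 / 2) : ℝ) + ∑' j, ‖c' j‖ * f' j ^ (-(1 / 2) : ℝ)) :=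
    HasSum.sum h2.hasSum h2'.hasSum
  refine ⟨h0, J ⊕ J', inferInstance, Sum.elim c c', Sum.elim f f', ?_, hs.summable, ?_,
    fun s hs => ?_⟩
  · rintro (j | j)
    · exact h1 j
    · exact h1' j
  · rw [hs.tsum_eq]; exact add_le_add h3 h3'
  · have : HasSum (fun j : J ⊕ J' => Sum.elim c c' j * ((Sum.elim f f' j : ℝ) : ℂ) ^ (-s))
        (∑' j, c j * (f j : ℂ) ^ (-s) + ∑' j, c' j * (f' j : ℂ) ^ (-s)) :=
      HasSum.sum (gda_summable h0 h1 h2 hs).of_norm.hasSum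
        (gda_summable h0 h1' h2' hs).of_norm.hasSum
    rw [this.tsum_eq]
    show B s + B' s = _
    rw [h4 s hs, h4' s hs]

/-- `J × J'`, `tsum_mul_tsum_of_summable_norm` -/
theorem GD.mul (h : GD l M B) (h' : GD l' M' B') : GD (l * l') (M * M') fun s => B s * B' s := by
  have hM := h.nonneg
  obtain ⟨h0, J, hJ, c, f, h1, h2, h3, h4⟩ := h
  obtain ⟨h0', J', hJ', c', f', h1', h2', h3', h4'⟩ := h'
  have f0 : ∀ j, 0 ≤ f j := fun j => h0.le.trans (h1 j)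
  have f0' : ∀ j, 0 ≤ f' j := fun j => h0'.le.trans (h1' j)
  have n0 : ∀ j, 0 ≤ ‖c j‖ * f j ^ (-(1 / 2) : ℝ) := fun j =>
    mul_nonneg (norm_nonneg _) (Real.rpow_nonneg (f0 j) _)
  have n0' : ∀ j, 0 ≤ ‖c' j‖ * f' j ^ (-(1 / 2) : ℝ) := fun j =>
    mul_nonneg (norm_nonneg _) (Real.rpow_nonneg (f0' j) _)
  have e : (fun p : J × J' => ‖c p.1 * c' p.2‖ * (f p.1 * f' p.2) ^ (-(1 / 2) : ℝ)) =
      fun p => (‖c p.1‖ * f p.1 ^ (-(1 / 2) : ℝ)) * (‖c' p.2‖ * f' p.2 ^ (-(1 / 2) : ℝ)) := by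
    funext p
    rw [norm_mul, Real.mul_rpow (f0 _) (f0' _)]
    ring
  have hs := h2.mul_of_nonneg h2' n0 n0'
  refine ⟨mul_pos h0 h0', J × J', inferInstance, fun p => c p.1 * c' p.2, fun p => f p.1 * f' p.2,
    fun p => mul_le_mul (h1 _) (h1' _) h0'.le (f0 _), ?_, ?_, fun s hs => ?_⟩
  · rw [e]; exact hs
  · rw [e, ← h2.tsum_mul_tsum h2' hs]
    exact mul_le_mul h3 h3' (tsum_nonneg n0') hM
  · show B s * B' s = _
    rw [h4 s hs, h4' s hs,
      tsum_mul_tsum_of_summable_norm (gda_summable h0 h1 h2 hs) (gda_summable h0' h1' h2' hs)]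
    refine tsum_congr fun p => ?_
    rw [Complex.ofReal_mul, Complex.mul_cpow_ofReal_nonneg (f0 _) (f0' _)]
    ring

theorem GD.prod {ι : Type} (S : Finset ι) {l M : ι → ℝ} {B : ι → ℂ → ℂ}
    (h : ∀ i ∈ S, GD (l i) (M i) (B i)) :
    GD (∏ i ∈ S, l i) (∏ i ∈ S, M i) fun s => ∏ i ∈ S, B i s := by
  classical
  induction S using Finset.induction_on with
  | empty => simpa using GD.single 1 one_pos
  | insert i S hi ih =>
    simp only [Finset.prod_insert hi]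
    exact (h i (Finset.mem_insert_self _ _)).mul
      (ih fun j hj => h j (Finset.mem_insert_of_mem hj))

theorem GD.norm_le (h : GD l M B) {s : ℂ} (hs : 1 / 2 ≤ s.re) :
    ‖B s‖ ≤ M * l ^ (1 / 2 - s.re) := by
  obtain ⟨h0, J, hJ, c, f, h1, h2, h3, h4⟩ := h
  rw [h4 s hs]
  refine (tsum_of_norm_bounded (h2.hasSum.mul_right (l ^ (1 / 2 - s.re)))
    fun j => gda_term (c j) h0 (h1 j) hs).trans ?_
  exact mul_le_mul_of_nonneg_right h3 (Real.rpow_nonneg h0.le _)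

theorem GD.differentiableOn (h : GD l M B) : DifferentiableOn ℂ B {s | 1 / 2 < s.re} := by
  obtain ⟨hl, J, _, c, f, hf, hs, -, hB⟩ := h
  have hf0 : ∀ j, 0 < f j := fun j => hl.trans_le (hf j)
  have hA : Adm c (fun j => f j / l) (1 / 2) := by
    refine ⟨fun j _ => div_pos (hf0 j) hl, (hs.mul_right (l ^ (-(1 / 2) : ℝ))⁻¹).congr fun j => ?_⟩
    rw [Real.div_rpow (hf0 j).le hl.le, mul_assoc, div_eq_mul_inv (f j ^ _)]
  have h1 := (hA.diffOn_DD fun j _ => (one_le_div hl).2 (hf j)).1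
  have hlc : (l : ℂ) ≠ 0 := by exact_mod_cast hl.ne'
  have h2 : Differentiable ℂ fun s : ℂ => (l : ℂ) ^ (-s) :=
    differentiable_id.neg.const_cpow (Or.inl hlc)
  refine (h2.differentiableOn.mul h1).congr fun s hs => ?_
  rw [hB s (le_of_lt hs), Pi.mul_apply, DD, ← tsum_mul_left]
  refine tsum_congr fun j => ?_
  rw [mul_left_comm, ← mul_cpow_ofReal_nonneg hl.le (div_pos (hf0 j) hl).le, ← ofReal_mul,
    mul_div_cancel₀ _ hl.ne']

theorem gdb_rpow {P σ : ℝ} (hP : 4 ≤ P) (hσ : 1 / 2 ≤ σ) : P ^ (-σ) ≤ 1 / 2 := by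
  calc P ^ (-σ) ≤ P ^ (-(1 / 2) : ℝ) :=
        Real.rpow_le_rpow_of_exponent_le (by linarith) (by linarith)
    _ ≤ (4 : ℝ) ^ (-(1 / 2) : ℝ) := Real.rpow_le_rpow_of_nonpos (by norm_num) hP (by norm_num)
    _ = 1 / 2 := by
      rw [show (4 : ℝ) = 2 ^ (2 : ℝ) by norm_num, ← Real.rpow_mul (by norm_num)]
      norm_num

theorem gdb_pow_cpow {P : ℝ} (hP : 0 ≤ P) (w : ℂ) (j : ℕ) :
    ((P ^ j : ℝ) : ℂ) ^ w = ((P : ℂ) ^ w) ^ j := by
  induction j with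
  | zero => simp
  | succ j ih => rw [pow_succ, ofReal_mul, mul_cpow_ofReal_nonneg (pow_nonneg hP j) hP, ih, pow_succ]

/-- an Euler factor at `1 - s` -/
theorem GD.euler {x : ℂ} (hx : ‖x‖ ≤ 1) {P : ℝ} (hP : 4 ≤ P) :
    GD P⁻¹ 2 fun s => 1 - x * (P : ℂ) ^ (-(1 - s)) := by
  have hP0 : 0 < P := by linarith
  have hPc : (P : ℂ) ≠ 0 := by exact_mod_cast hP0.ne'
  have h1 : GD P⁻¹ 1 fun s => 1 * ((1 : ℝ) : ℂ) ^ (-s) :=
    (GD.single 1 one_pos).mono (inv_pos.2 hP0) (inv_le_one_of_one_le₀ (by linarith)) (by simp)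
  have h2 : GD P⁻¹ 1 fun s => -(x / P) * ((P⁻¹ : ℝ) : ℂ) ^ (-s) := by
    refine (GD.single _ (inv_pos.2 hP0)).mono (inv_pos.2 hP0) le_rfl ?_
    rw [norm_neg, norm_div, Complex.norm_real, Real.norm_of_nonneg hP0.le, Real.inv_rpow hP0.le,
      ← Real.rpow_neg hP0.le, neg_neg]
    have h3 : P ^ (1 / 2 : ℝ) ≤ P := Real.rpow_le_self_of_one_le (by linarith) (by norm_num)
    calc ‖x‖ / P * P ^ (1 / 2 : ℝ) ≤ 1 / P * P := by gcongr
      _ = 1 := by field_simp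
  refine ((h1.add h2).mono (inv_pos.2 hP0) le_rfl (by norm_num)).congr fun s _ => ?_
  rw [ofReal_one, one_cpow, ofReal_inv, inv_cpow _ _ (by
    rw [arg_ofReal_of_nonneg hP0.le]; exact Real.pi_ne_zero.symm), cpow_neg _ s, inv_inv, neg_sub,
    cpow_sub _ _ hPc, cpow_one]
  ring

/-- an inverse Euler factor at `s` (geometric series, `J = ℕ`) -/
theorem GD.euler_inv {x : ℂ} (hx : ‖x‖ ≤ 1) {P : ℝ} (hP : 4 ≤ P) :
    GD 1 2 fun s => (1 - x * (P : ℂ) ^ (-s))⁻¹ := by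
  have hP0 : 0 < P := by linarith
  have hle : ∀ j : ℕ, ‖x ^ j‖ * (P ^ j) ^ (-(1 / 2) : ℝ) ≤ (1 / 2) ^ j := by
    intro j
    rw [norm_pow, ← Real.rpow_pow_comm hP0.le, ← mul_pow]
    refine pow_le_pow_left₀ (by positivity) ?_ j
    calc ‖x‖ * P ^ (-(1 / 2) : ℝ) ≤ 1 * (1 / 2) := by
          gcongr
          exact gdb_rpow hP le_rfl
      _ = 1 / 2 := one_mul _
  have hs : Summable fun j : ℕ => ‖x ^ j‖ * (P ^ j) ^ (-(1 / 2) : ℝ) :=
    Summable.of_nonneg_of_le (fun j => by positivity) hle summable_geometric_two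
  refine ⟨one_pos, ℕ, inferInstance, fun j => x ^ j, fun j => P ^ j,
    fun j => one_le_pow₀ (by linarith), hs,
    (hs.tsum_le_tsum hle summable_geometric_two).trans tsum_geometric_two.le, fun s hσ => ?_⟩
  have h1 : ‖x * (P : ℂ) ^ (-s)‖ < 1 := by
    rw [norm_mul, norm_cpow_eq_rpow_re_of_pos hP0, neg_re]
    calc ‖x‖ * P ^ (-s.re) ≤ 1 * (1 / 2) := by
          gcongr
          exact gdb_rpow hP hσ
      _ < 1 := by norm_num
  simp only [gdb_pow_cpow hP0.le, ← mul_pow]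
  exact (tsum_geometric_of_norm_lt_one h1).symm

/-- the `q`-smooth elements -/
def Sm (q : O) : Set O := {h | ∃ k : ℕ, h ∣ q ^ k}

/-- `summable_smooth` (block A) -/
theorem summable_Sm {q : O} (hq : q ≠ 0) : Summable fun h : Sm q => nm h ^ (-(1 / 2) : ℝ) := by
  exact ((summable_smooth hq (σ := 1 / 2) (by norm_num)).subtype (Sm q)).congr fun h => if_pos h.2

theorem GD.smooth {q : O} (hq : q ≠ 0) (c : O → ℂ) {K : ℝ} (hc : ∀ h, ‖c h‖ ≤ K) :
    GD 1 (K * ∑' h : Sm q, nm h ^ (-(1 / 2) : ℝ)) fun s => ∑' h : Sm q, c h * (nm h : ℂ) ^ (-s) := by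
  have : Countable O := crd.symm.injective.countable
  have h1 : ∀ h : Sm q, 1 ≤ nm h := by
    rintro ⟨h, k, hk⟩
    exact one_le_nm (ne_zero_of_dvd_ne_zero (pow_ne_zero k hq) hk)
  have hle : ∀ h : Sm q, ‖c h‖ * nm h ^ (-(1 / 2) : ℝ) ≤ K * nm h ^ (-(1 / 2) : ℝ) := fun h =>
    mul_le_mul_of_nonneg_right (hc h) (Real.rpow_nonneg (nm_nonneg _) _)
  have hs : Summable fun h : Sm q => ‖c h‖ * nm h ^ (-(1 / 2) : ℝ) :=
    Summable.of_nonneg_of_le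
      (fun h => mul_nonneg (norm_nonneg _) (Real.rpow_nonneg (nm_nonneg _) _)) hle
      ((summable_Sm hq).mul_left K)
  refine ⟨one_pos, Sm q, inferInstance, fun h => c h, fun h => nm h, h1, hs, ?_, fun _ _ => rfl⟩
  rw [← tsum_mul_left]
  exact hs.tsum_le_tsum hle ((summable_Sm hq).mul_left K)

/-- `tsum_smooth` (block A), `tsum_subtype` -/
theorem tsum_split {q : O} (hq : Lev q) (F : O → ℂ) (h0 : F 0 = 0) (hF : Summable F) :
    ∑' h : O, F h = ∑' h' : Sm q, ∑' n : Pr, one q n * F (h' * n) := by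
  classical
  rw [tsum_smooth hq.1 hq.three_dvd hF, h0, zero_add,
    tsum_subtype (Sm q) fun h' => ∑' n : Pr, one q n * F (h' * n)]
  refine tsum_congr fun s => ?_
  by_cases hs : s ∈ Sm q
  · rw [Set.indicator_of_mem hs, if_pos (show ∃ k, s ∣ q ^ k from hs)]
    refine tsum_congr fun m => ?_
    unfold one
    split_ifs <;> simp
  · rw [Set.indicator_of_notMem hs, if_neg (show ¬ ∃ k, s ∣ q ^ k from hs)]

end Crest.Agent.R17.C
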