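import Crest.Agent.R17.C.Row
import Crest.Agent.R17.C.GD

/-! Row 17, block C (owner helper6): the functional equation of a row, without conductor theory. -/

set_option autoImplicit false

namespace Crest.Agent.R17.C

open scoped ComplexConjugate
open Complex MeasureTheory

/-- expansion of class functions on primary elements (`exists_Tw_expand` for `prm F`) -/
theorem tw_expand {q : O} (hq : Lev q) (F : O → ℂ) (M : ℝ)
    (hp : ∀ a b : O, Prim a → Prim b → IsCoprime a q → q ∣ a - b → F a = F b)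
    (hM : ∀ a, ‖F a‖ ≤ M) : ∃ c : (O → ℂ) → ℂ, (∀ χ, ‖c χ‖ ≤ M) ∧
      ∀ a : O, Prim a → IsCoprime a q → F a = ∑ χ ∈ Tw q, c χ * χ a := by
  have hM0 : 0 ≤ M := (norm_nonneg _).trans (hM 1)
  obtain ⟨c, hc, h⟩ := exists_Tw_expand hq.1 (f := prm F) (B := M) (fun a b ha hab => by
    have h3 : (3 : O) ∣ a - b := hq.three_dvd.trans hab
    have hiff : Prim a ↔ Prim b := by
      unfold Prim
      rw [show a - 1 = (a - b) + (b - 1) by ring]
      exact dvd_add_right h3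
    unfold prm
    by_cases hb : Prim b
    · rw [if_pos hb, if_pos (hiff.2 hb), hp a b (hiff.2 hb) hb ha hab]
    · rw [if_neg hb, if_neg fun h => hb (hiff.1 h)]) fun a _ => by
    unfold prm
    split_ifs
    · exact hM a
    · simpa using hM0
  refine ⟨c, hc, fun a ha ha' => ?_⟩
  rw [← h a ha', prm, if_pos ha]

theorem fp_norm_cpow (n : O) {z : ℂ} (hz : 0 < z.re) : ‖(nm n : ℂ) ^ (-z)‖ = nm n ^ (-z.re) := by
  rw [norm_cpow_eq_rpow_re_of_nonneg (nm_nonneg n) (by simpa using hz.ne'), neg_re]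

theorem fp_summable {c : O → ℂ} {M : ℝ} (hc : ∀ n, ‖c n‖ ≤ M) {z : ℂ} (hz : 1 < z.re) :
    Summable fun n : O => c n * (nm n : ℂ) ^ (-z) := by
  refine Summable.of_norm_bounded ((summable_nm_rpow hz).mul_left M) fun n => ?_
  rw [norm_mul, fp_norm_cpow n (by linarith)]
  exact mul_le_mul_of_nonneg_right (hc n) (Real.rpow_nonneg (nm_nonneg n) _)

theorem fp_conj_DS (c : O → ℂ) (z : ℂ) :
    conj (DS c (conj z)) = ∑' n : Pr, conj (c n) * (nm n : ℂ) ^ (-z) := by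
  rw [DS, conj_tsum]
  refine tsum_congr fun n => ?_
  have h : (nm (n : O) : ℂ).arg ≠ Real.pi := by
    rw [arg_ofReal_of_nonneg (nm_nonneg _)]; exact Real.pi_pos.ne
  rw [map_mul, ← map_neg, cpow_conj _ _ h, conj_conj, conj_ofReal]

theorem fp_cpow_mul (a b : O) (z : ℂ) :
    (nm (a * b) : ℂ) ^ z = (nm a : ℂ) ^ z * (nm b : ℂ) ^ z := by
  rw [nm_mul, ofReal_mul, mul_cpow_ofReal_nonneg (nm_nonneg a) (nm_nonneg b)]

theorem fp_not_exc {q s w : O} {k : ℕ} (hq : Lev q) (hs : s ∣ q ^ k) (hw : Prim w)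
    (hwq : IsCoprime w q) (hf : PowFree 6 w) (h1 : w ≠ 1) : ¬ Exc q (s * w) := by
  rw [exc_smooth_mul hq.1 hs, exc_iff hq.1 hw.ne_zero]
  intro h
  obtain ⟨p, hp, -, hpw⟩ := hw.exists_prime_dvd h1
  have hpq : ¬ p ∣ q := fun hd => hp.not_isUnit (hwq.isUnit_of_dvd' hpw hd)
  have h6 := h p hp hpq
  have hfin : FiniteMultiplicity p w := FiniteMultiplicity.of_prime_left hp hw.ne_zero
  have hpos : 0 < multiplicity p w := by
    rw [← dvd_iff_multiplicity_pos] at hpw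
    exact hpw
  exact hf p hp (hfin.pow_dvd_iff_le_multiplicity.2 (Nat.le_of_dvd hpos h6))

/-- the dual coefficients, expanded in characters modulo `q` -/
theorem fp_expand {q s w : O} {k : ℕ} (hq : Lev q) (hs : s ∣ q ^ k) (hw : Prim w)
    (hwq : IsCoprime w q) {A : O → ℂ} (hA : Per q A) (hA' : ∀ h, ‖A h‖ ≤ nm q) (h' : O) :
    ∃ c : (O → ℂ) → ℂ, (∀ χ, ‖c χ‖ ≤ 8 * nm q) ∧ ∀ n : Pr,
      one q n * (A (h' * n) * conj (sx n w)) = ∑ χ ∈ Tw q, c χ * conj (rc χ (s * w) n) := by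
  have hw2 := hq.coprime_two hwq
  obtain ⟨c, hc, he⟩ := tw_expand hq (fun n => conj (A (h' * n) * eps n w * sx s n)) (8 * nm q)
    (fun a b _ _ ha hab => by
      have h1 : A (h' * a) = A (h' * b) := hA _ _ (by rw [← mul_sub]; exact hab.mul_left _)
      have h2 : eps a w = eps b w :=
        eps_congr (hq.coprime_two ha) hw2 (hq.four_dvd.trans hab) (by simp)
      have h3 : sx s a = sx s b := sx_per hs (hq.2.trans hab) hab
      simp only [h1, h2, h3])
    (fun a => by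
      rw [RCLike.norm_conj, norm_mul, norm_mul]
      have h1 := hA' (h' * a)
      have h2 := norm_eps_le a w
      have h3 := norm_sx_le s a
      have h4 := nm_nonneg q
      calc _ ≤ nm q * 8 * 1 := by gcongr
        _ = _ := by ring)
  refine ⟨fun χ => conj (c χ), fun χ => by rw [RCLike.norm_conj]; exact hc χ, fun n => ?_⟩
  by_cases hn : IsCoprime (n : O) q
  · have e := congrArg conj (he n n.2 hn)
    rw [conj_conj, map_sum] at e
    have hsn : IsCoprime s (n : O) := (hn.symm.pow_left (m := k)).of_isCoprime_of_dvd_left hs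
    have h1 : sx s n * conj (sx s n) = 1 := by
      rw [sx_mul_conj, if_pos ⟨hq.coprime_six hn, hsn⟩]
    have h2 : sx n w = sx w n * eps n w := sx_recip n.2 hw (hq.coprime_two hn) hw2
    have h3 : conj (eps n w) = eps n w := conj_eps (hq.coprime_two hn) hw2
    have e2 : ∑ χ ∈ Tw q, conj (c χ) * conj (rc χ (s * w) n) =
        (∑ χ ∈ Tw q, conj (c χ * χ n)) * (conj (sx s n) * conj (sx w n)) := by
      rw [Finset.sum_mul]
      refine Finset.sum_congr rfl fun χ _ => ?_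
      simp only [rc, sx_mul_left, map_mul]
      ring
    rw [e2, ← e, one, if_pos hn, h2, map_mul, h3]
    linear_combination (-(A (h' * n) * eps n w * conj (sx w n))) * h1
  · rw [one, if_neg hn, zero_mul]
    refine (Finset.sum_eq_zero fun χ hχ => ?_).symm
    rw [rc, ((mem_Tw hq.1).1 hχ).zero _ hn, zero_mul, map_zero, mul_zero]

/-- primitive rows `s w`.  `Φ = rc ψ (s w)` is on `Pr` the function `ψ₀ χ_w` (`rc_recip`), and
`prm ψ₀ · χ_w` is periodic modulo `q · rad w`; `exists_cont` for it, identity theorem, `FT_crt`,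
`Prm.gauss`, `tsum_split`; for `h' ∈ Sm q` expand the conjugate of
`n ↦ FT q (prm ψ₀ (rad w ·)) (h' n) · eps n w · sx s n` by `tw_expand`;
`GD.single`, `GD.smooth`, `GD.mul`. -/
theorem fe_prim {q : O} (hq : Lev q) :
    ∃ C : ℝ, 0 < C ∧ ∀ (ψ : O → ℂ) (s w : O) (k : ℕ), IsTw q ψ → s ∣ q ^ k → Prim w →
      IsCoprime w q → PowFree 6 w → w ≠ 1 →
      ∃ B : (O → ℂ) → ℂ → ℂ, (∀ χ, GD (nm q * nm (rad w))⁻¹ C (B χ)) ∧ ∀ z : ℂ, 1 < z.re →
        Lx (rc ψ (s * w)) (1 - z) =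
          RK z * ∑ χ ∈ Tw q, B χ z * conj (DS (rc χ (s * w)) (conj z)) := by
  set S : ℝ := ∑' h : Sm q, nm h ^ (-(1 / 2) : ℝ) with hS
  have hS0 : 0 ≤ S := tsum_nonneg fun h => Real.rpow_nonneg (nm_nonneg _) _
  have hq1 := one_le_nm hq.1
  refine ⟨8 * nm q * S + 1, by positivity, fun ψ s w k hψ hs hw hwq hf h1 => ?_⟩
  have hs0 : s ≠ 0 := ne_zero_of_dvd_ne_zero (pow_ne_zero k hq.1) hs
  have hu : s * w ≠ 0 := mul_ne_zero hs0 hw.ne_zero
  have hr0 : rad w ≠ 0 := (prim_rad w).ne_zero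
  have hr1 := one_le_nm hr0
  have hrq : IsCoprime q (rad w) := (hwq.of_isCoprime_of_dvd_left (rad_dvd w)).symm
  have hX := prm_rad hw (hq.coprime_six hwq) hf
  obtain ⟨g, hg, hFT⟩ := hX.gauss
  obtain ⟨ψ₀, h₀, e₀⟩ := rc_recip hq hψ hs hw hwq
  obtain ⟨j, hj⟩ := hw.dvd_rad_pow
  have hΦ : IsTw (q * rad w) (rc ψ (s * w)) := by
    refine hψ.rc_rad (k := k + j) (k' := 1) hq ?_ ?_
    · rw [mul_pow]
      exact mul_dvd_mul (hs.trans (pow_dvd_pow _ (by omega))) (hj.trans (pow_dvd_pow _ (by omega)))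
    · rw [pow_one]
      exact ((rad_dvd w).mul_left s).mul_left q
  have hnp := not_princ_rc hq hψ hu (fp_not_exc hq hs hw hwq hf h1)
  have eprm : prm (rc ψ (s * w)) = fun n => prm ψ₀ n * sx n w := by
    funext n
    simp only [prm]
    split_ifs with hn
    · exact e₀ ⟨n, hn⟩
    · rw [zero_mul]
  set A : O → ℂ := FT q fun y => prm ψ₀ (rad w * y) with hA
  have hAb : ∀ h, ‖A h‖ ≤ nm q := fun h => by
    have := norm_FT_le hq.1 (Ψ := fun y => prm ψ₀ (rad w * y)) (B := 1) (fun y => by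
      simp only [prm]
      split_ifs
      · exact h₀.norm_le hq.1 _
      · simp) h
    rwa [mul_one] at this
  have eFT : ∀ h, FT (q * rad w) (prm (rc ψ (s * w))) h = sx q w * g * (A h * conj (sx h w)) := by
    intro h
    rw [eprm, FT_crt hq.1 hr0 hrq (per_prm hq h₀) hX.per]
    have : FT (rad w) (fun y => sx (q * y) w) h = sx q w * FT (rad w) (fun n => sx n w) h := by
      simp only [FT, sx_mul_left, mul_assoc, rsum_mul_left]
    rw [this, hFT]
    ring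
  choose c hc ec using fp_expand hq hs hw hwq (per_FT q _) hAb
  set f : ℝ := (nm q * nm (rad w))⁻¹ with hfdef
  have hf0 : 0 < f := by positivity
  have hcb : ∀ (χ : O → ℂ) (h : O), ‖conj (sx h w) * c h χ‖ ≤ 8 * nm q := fun χ h => by
    rw [norm_mul, RCLike.norm_conj]
    exact (mul_le_of_le_one_left (norm_nonneg _) (norm_sx_le _ _)).trans (hc h χ)
  refine ⟨fun χ z => (sx q w * g * f) * (f : ℂ) ^ (-z) *
    ∑' h : Sm q, (conj (sx h w) * c h χ) * (nm h : ℂ) ^ (-z), fun χ => ?_, fun z hz => ?_⟩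
  · have G := (GD.single (sx q w * g * f) hf0).mul (GD.smooth hq.1 _ (hcb χ))
    refine G.mono hf0 (by rw [mul_one]) ?_
    have b1 : ‖sx q w * g * f‖ * f ^ (-(1 / 2) : ℝ) ≤ 1 := by
      have e : ‖(f : ℂ)‖ * f ^ (-(1 / 2) : ℝ) = Real.sqrt f := by
        rw [norm_real, Real.norm_of_nonneg hf0.le, Real.sqrt_eq_rpow, ← Real.rpow_one_add' hf0.le
          (by norm_num)]
        norm_num
      have b2 : ‖g‖ * Real.sqrt f ≤ 1 := by
        rw [← Real.sqrt_sq (norm_nonneg g), ← Real.sqrt_mul (sq_nonneg _)]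
        refine Real.sqrt_le_one.2 ?_
        rw [hfdef, ← div_eq_mul_inv, div_le_one (by positivity)]
        nlinarith
      rw [norm_mul, norm_mul, mul_assoc, e, mul_assoc]
      exact mul_le_one₀ (norm_sx_le _ _) (by positivity) b2
    have : 0 ≤ 8 * nm q * S := by positivity
    nlinarith
  · have hz0 : z ≠ 0 := fun e => by rw [e] at hz; norm_num at hz
    rw [Lx_FE (hq.mul hr0) hΦ hnp hz, ZD]
    have hb : ∀ h, ‖A h * conj (sx h w)‖ ≤ nm q := fun h => by
      rw [norm_mul, RCLike.norm_conj]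
      exact (mul_le_of_le_one_right (norm_nonneg _) (norm_sx_le _ _)).trans (hAb h)
    have e1 : ∑' n : O, FT (q * rad w) (prm (rc ψ (s * w))) n * (nm n : ℂ) ^ (-z) =
        sx q w * g * ∑' n : O, A n * conj (sx n w) * (nm n : ℂ) ^ (-z) := by
      rw [← tsum_mul_left]
      exact tsum_congr fun n => by rw [eFT]; ring
    have hsm : ∀ χ ∈ Tw q, Summable fun n : Pr => conj (rc χ (s * w) n) * (nm n : ℂ) ^ (-z) :=
      fun χ hχ => (fp_summable (c := fun n => conj (rc χ (s * w) n)) (M := 1) (fun n => by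
        rw [RCLike.norm_conj]; exact norm_rc_le hq ((mem_Tw hq.1).1 hχ) hu n) hz).subtype _
    have e2 : ∀ h : O, ∑' n : Pr, one q n * (A (h * n) * conj (sx (h * n) w) *
        (nm (h * n) : ℂ) ^ (-z)) = ∑ χ ∈ Tw q, (conj (sx h w) * c h χ) * (nm h : ℂ) ^ (-z) *
          conj (DS (rc χ (s * w)) (conj z)) := by
      intro h
      simp only [fp_conj_DS, ← tsum_mul_left]
      rw [← Summable.tsum_finsetSum fun χ hχ => (hsm χ hχ).mul_left _]
      refine tsum_congr fun n => ?_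
      have := ec h n
      rw [fp_cpow_mul, sx_mul_left, map_mul]
      calc _ = conj (sx h w) * (nm h : ℂ) ^ (-z) * (nm (n : O) : ℂ) ^ (-z) *
            (one q n * (A (h * n) * conj (sx n w))) := by ring
        _ = _ := by
          rw [this, Finset.mul_sum]
          exact Finset.sum_congr rfl fun χ _ => by ring
    have e3 : (nm (q * rad w) : ℂ) ^ (z - 1) = f * (f : ℂ) ^ (-z) := by
      have h0 : (f : ℂ) ≠ 0 := by exact_mod_cast hf0.ne'
      have : (nm (q * rad w) : ℂ) = (f : ℂ)⁻¹ := by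
        rw [hfdef, nm_mul, ofReal_inv, inv_inv]
      rw [this, inv_cpow _ _ (by rw [arg_ofReal_of_nonneg hf0.le]; exact Real.pi_pos.ne),
        ← cpow_neg, neg_sub, sub_eq_add_neg, cpow_add _ _ h0, cpow_one]
    rw [e1, tsum_split hq _ (by simp [hz0]) (fp_summable hb hz)]
    simp only [e2]
    have hsm' : ∀ χ : O → ℂ, Summable fun h : Sm q =>
        (conj (sx h w) * c h χ) * (nm h : ℂ) ^ (-z) := fun χ => (fp_summable (hcb χ) hz).subtype _
    rw [Summable.tsum_finsetSum fun χ _ => (hsm' χ).mul_right _, e3]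
    simp only [tsum_mul_right, Finset.mul_sum]
    exact Finset.sum_congr rfl fun χ _ => by ring

/-- identity theorem on a half-plane -/
theorem feb_ident {F G : ℂ → ℂ} (hF : DifferentiableOn ℂ F {s | 1 / 2 < s.re})
    (hG : DifferentiableOn ℂ G {s | 1 / 2 < s.re}) (h : ∀ z : ℂ, 1 < z.re → F z = G z) {z : ℂ}
    (hz : 1 / 2 < z.re) : F z = G z := by
  have ho : IsOpen {s : ℂ | 1 / 2 < s.re} := isOpen_lt continuous_const continuous_re
  have h2 : (2 : ℂ) ∈ {s : ℂ | 1 / 2 < s.re} := by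
    show (1 / 2 : ℝ) < (2 : ℂ).re
    norm_num
  refine (hF.analyticOnNhd ho).eqOn_of_preconnected_of_eventuallyEq (hG.analyticOnNhd ho)
    (convex_halfSpace_re_gt _).isPreconnected h2 ?_ hz
  have ho' : IsOpen {s : ℂ | 1 < s.re} := isOpen_lt continuous_const continuous_re
  filter_upwards [ho'.mem_nhds (show (1 : ℝ) < (2 : ℂ).re by norm_num)] with s hs using h s hs

theorem feb_conj_cpow {P : ℝ} (hP : 0 ≤ P) (z : ℂ) :
    conj ((P : ℂ) ^ (-conj z)) = (P : ℂ) ^ (-z) := by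
  have h : (P : ℂ).arg ≠ Real.pi := by
    rw [arg_ofReal_of_nonneg hP]
    exact Real.pi_pos.ne
  rw [← map_neg, cpow_conj _ _ h, conj_conj, conj_ofReal]

theorem feb_ne_zero {x : ℂ} (hx : ‖x‖ ≤ 1) {P : ℝ} (hP : 4 ≤ P) {z : ℂ} (hz : 0 < z.re) :
    1 - x * (P : ℂ) ^ (-z) ≠ 0 := by
  intro h
  have h1 : ‖x * (P : ℂ) ^ (-z)‖ = 1 := by rw [← sub_eq_zero.1 h, norm_one]
  rw [norm_mul, norm_cpow_eq_rpow_re_of_pos (by linarith)] at h1
  have h2 : P ^ (-z).re < 1 :=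
    Real.rpow_lt_one_of_one_lt_of_neg (by linarith) (by simpa using hz)
  have h3 : 0 ≤ P ^ (-z).re := Real.rpow_nonneg (by linarith) _
  nlinarith

open Classical in
/-- the mask only removes the primes which do not divide `w` -/
theorem feb_mask {q χ s w v} (hq : Lev q) (hχ : IsTw q χ) (h0 : s * w ≠ 0) (hv : v ≠ 0) (z : ℂ) :
    Lx (rc χ (s * w * v ^ 6)) z = Lx (rc χ (s * w)) z *
      ∏ p ∈ (pfs v).filter (¬ · ∣ w), (1 - rc χ (s * w) p * (nm p : ℂ) ^ (-z)) := by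
  have h1 : rc χ (s * w * v ^ 6) = fun n => rc χ (s * w) n * one v n :=
    funext fun n => rc_mul_pow_six hq hχ _ n
  rw [h1, Lx_mask (hq.mul h0) (hχ.rc hq) hv]
  congr 1
  refine (Finset.prod_filter_of_ne ?_).symm
  intro p hp hne hd
  refine hne ?_
  have : sx (s * w) p = 0 := sx_eq_zero_of_not_coprime fun hc =>
    ((mem_pfs hv).1 hp).1.not_isUnit (hc.isUnit_of_dvd' (hd.mul_left s) dvd_rfl)
  simp [rc, this]

open Classical in
theorem feb_rad {s w v r : O} (hw : w ≠ 0) (hv : v ≠ 0) (h : Rad (s * w * v ^ 6) r) :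
    ((pfs v).filter (¬ · ∣ w)).card ≤ (pfs r).card ∧
      nm (rad w) * ∏ p ∈ (pfs v).filter (¬ · ∣ w), nm p ≤ nm r := by
  obtain ⟨hr, k, hk⟩ := h
  have h1 : (pfs v).filter (¬ · ∣ w) ⊆ pfs r := fun p hp => by
    obtain ⟨a, b, c⟩ := (mem_pfs hv).1 (Finset.mem_filter.1 hp).1
    exact (mem_pfs hr).2 ⟨a, b, a.dvd_of_dvd_pow
      (((c.trans (dvd_pow_self v (by norm_num))).mul_left _).trans hk)⟩
  have h2 : pfs w ⊆ pfs r := fun p hp => by
    obtain ⟨a, b, c⟩ := (mem_pfs hw).1 hp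
    exact (mem_pfs hr).2 ⟨a, b, a.dvd_of_dvd_pow (((c.mul_left s).mul_right _).trans hk)⟩
  have h3 : Disjoint (pfs w) ((pfs v).filter (¬ · ∣ w)) :=
    Finset.disjoint_left.2 fun p hp hp' => (Finset.mem_filter.1 hp').2 ((mem_pfs hw).1 hp).2.2
  refine ⟨Finset.card_le_card h1, ?_⟩
  rw [← nm_prod, ← nm_mul, rad, ← Finset.prod_union h3]
  exact nm_le_of_dvd ((Finset.prod_dvd_prod_of_subset _ _ _ (Finset.union_subset h2 h1)).trans
    (rad_dvd r)) hr

/-- THE FUNCTIONAL EQUATION OF A ROW.  `row_decomp`, `fe_prim`, `rc_mul_pow_six`, `Lx_mask` on both sides;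
only `S` = primes of `v` not dividing `w` matter, and `N(rad w) ∏_S N(p) ≤ N(r)`; `GD.euler`,
`GD.euler_inv`, `pow_card_pfs_le`; identity theorem on `Re z > 1/2`. -/
theorem fe_row {q : O} (hq : Lev q) (ε : ℝ) (hε : 0 < ε) :
    ∃ C : ℝ, 1 ≤ C ∧ ∀ (ψ : O → ℂ) (u r : O), IsTw q ψ → u ≠ 0 → ¬ Exc q u → Rad u r →
      ∃ B : (O → ℂ) → ℂ → ℂ, (∀ χ, GD (C * nm r)⁻¹ (C * nm r ^ ε) (B χ)) ∧ ∀ z : ℂ, 1 / 2 < z.re →
        Lx (rc ψ u) (1 - z) = RK z * ∑ χ ∈ Tw q, B χ z * conj (Lx (rc χ u) (conj z)) := by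
  classical
  obtain ⟨C₀, hC₀, H⟩ := fe_prim hq
  obtain ⟨C₁, hC₁, H₁⟩ := pow_card_pfs_le 4 hε
  have hq1 := one_le_nm hq.1
  refine ⟨nm q + C₀ * C₁, by nlinarith [mul_pos hC₀ hC₁], fun ψ u r hψ hu he hr => ?_⟩
  obtain ⟨s, w, v, k, rfl, hs, hw, hv, hwq, -, hf, hexc⟩ := row_decomp hq hu
  have h0 : s * w ≠ 0 := left_ne_zero_of_mul hu
  have he₀ : ¬ Exc q (s * w) := fun h => he ((exc_mul_pow_six hq.1 hv.ne_zero).2 h)
  obtain ⟨B, hB, hFE⟩ := H ψ s w k hψ hs hw hwq hf fun h => he (hexc.2 h)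
  have h4 : ∀ p ∈ (pfs v).filter (¬ · ∣ w), 4 ≤ nm p := fun p hp => by
    obtain ⟨a, b, -⟩ := (mem_pfs hv.ne_zero).1 (Finset.mem_filter.1 hp).1
    exact four_le_nm a b
  obtain ⟨hcard, hnm⟩ := feb_rad hw.ne_zero hv.ne_zero hr
  have hmask := fun χ (hχ : IsTw q χ) => feb_mask hq hχ h0 hv.ne_zero
  generalize (pfs v).filter (¬ · ∣ w) = S at h4 hcard hnm hmask
  have hr0 := nm_pos hr.1
  refine ⟨fun χ z => if IsTw q χ then
    B χ z * (∏ p ∈ S, (1 - rc ψ (s * w) p * (nm p : ℂ) ^ (-(1 - z)))) *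
      ∏ p ∈ S, (1 - conj (rc χ (s * w) p) * (nm p : ℂ) ^ (-z))⁻¹ else 0, fun χ => ?_, fun z hz => ?_⟩
  · have hl : 0 < ((nm q + C₀ * C₁) * nm r)⁻¹ := by positivity
    by_cases hχ : IsTw q χ
    · simp only [if_pos hχ]
      have g₁ := GD.prod S (l := fun p => (nm p)⁻¹) (M := fun _ => 2)
        (B := fun p z => 1 - rc ψ (s * w) p * (nm p : ℂ) ^ (-(1 - z)))
        fun p hp => GD.euler (norm_rc_le hq hψ h0 p) (h4 p hp)
      have g₂ := GD.prod S (l := fun _ => 1) (M := fun _ => 2)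
        (B := fun p z => (1 - conj (rc χ (s * w) p) * (nm p : ℂ) ^ (-z))⁻¹)
        fun p hp => GD.euler_inv (by simpa using norm_rc_le hq hχ h0 p) (h4 p hp)
      refine (((hB χ).mul g₁).mul g₂).mono hl ?_ ?_
      · have hw0 := nm_pos (prim_rad w).ne_zero
        have hP : 0 < ∏ p ∈ S, nm p := Finset.prod_pos fun p hp => by linarith [h4 p hp]
        rw [Finset.prod_const_one, mul_one, Finset.prod_inv_distrib, ← mul_inv]
        refine inv_anti₀ (mul_pos (mul_pos (nm_pos hq.1) hw0) hP) ?_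
        calc nm q * nm (rad w) * ∏ p ∈ S, nm p = nm q * (nm (rad w) * ∏ p ∈ S, nm p) := by ring
          _ ≤ nm q * nm r := mul_le_mul_of_nonneg_left hnm (nm_nonneg q)
          _ ≤ _ := mul_le_mul_of_nonneg_right (by linarith [mul_pos hC₀ hC₁]) hr0.le
      · have h5 := H₁ r hr.1
        rw [abs_of_pos (by norm_num : (0 : ℝ) < 4)] at h5
        have h6 : (4 : ℝ) ^ S.card ≤ 4 ^ (pfs r).card := pow_le_pow_right₀ (by norm_num) hcard
        have h7 : 0 < nm r ^ ε := Real.rpow_pos_of_pos hr0 ε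
        calc C₀ * (∏ _p ∈ S, (2 : ℝ)) * ∏ _p ∈ S, (2 : ℝ) = C₀ * 4 ^ S.card := by
              rw [Finset.prod_const, mul_assoc, ← mul_pow]; norm_num
          _ ≤ C₀ * (C₁ * nm r ^ ε) := mul_le_mul_of_nonneg_left (h6.trans h5) hC₀.le
          _ ≤ _ := by nlinarith
    · simp only [if_neg hχ]
      refine ((GD.single 0 hl).mono hl le_rfl ?_).congr fun s _ => by simp
      rw [norm_zero, zero_mul]
      positivity
  · have hprim : Lx (rc ψ (s * w)) (1 - z) =
        RK z * ∑ χ ∈ Tw q, B χ z * conj (Lx (rc χ (s * w)) (conj z)) := by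
      refine feb_ident (F := fun z => Lx (rc ψ (s * w)) (1 - z))
        (G := fun z => RK z * ∑ χ ∈ Tw q, B χ z * conj (Lx (rc χ (s * w)) (conj z))) ?_ ?_ ?_ hz
      · exact ((Lx_rc_diff hq hψ h0).comp (by fun_prop)).differentiableOn
      · refine (polyOn_RK.1.mono fun s hs => ?_).mul (DifferentiableOn.fun_sum fun χ hχ => ?_)
        · have : (1 / 2 : ℝ) < s.re := hs
          show (0 : ℝ) < s.re
          linarith
        · refine (hB χ).differentiableOn.mul ?_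
          simp only [← Lx_conj]
          exact (Lx_diff (hq.mul h0) (((mem_Tw hq.1).1 hχ).rc hq).conj).differentiableOn
      · intro z hz
        rw [hFE z hz]
        congr 1
        refine Finset.sum_congr rfl fun χ hχ => ?_
        rw [(Lx_rc_spec hq ((mem_Tw hq.1).1 hχ) h0 he₀).2 _ (by simpa using hz)]
    rw [hmask ψ hψ, hprim, mul_assoc, Finset.sum_mul]
    congr 1
    refine Finset.sum_congr rfl fun χ hχ => ?_
    have hχ' := (mem_Tw hq.1).1 hχ
    have hne : ∏ p ∈ S, (1 - conj (rc χ (s * w) p) * (nm p : ℂ) ^ (-z)) ≠ 0 :=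
      Finset.prod_ne_zero_iff.2 fun p hp =>
        feb_ne_zero (by simpa using norm_rc_le hq hχ' h0 p) (h4 p hp) (by linarith)
    have hc : conj (∏ p ∈ S, (1 - rc χ (s * w) p * (nm p : ℂ) ^ (-conj z))) =
        ∏ p ∈ S, (1 - conj (rc χ (s * w) p) * (nm p : ℂ) ^ (-z)) := by
      rw [map_prod]
      refine Finset.prod_congr rfl fun p _ => ?_
      rw [map_sub, map_one, map_mul, feb_conj_cpow (nm_nonneg p)]
    simp only [if_pos hχ']
    rw [hmask χ hχ', map_mul, hc, Finset.prod_inv_distrib]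
    field_simp

/-- unconditional bound to the left of the critical strip
(`fe_row`, `norm_RK_le`, `GD.norm_le`, `Lx_rc_spec`, `norm_DS_le`) -/
theorem Lx_left (q : O) (σ₁ σ₂ ε : ℝ) (hq : Lev q) (hσ : 0 < σ₁) (hε : 0 < ε) : ∃ C : ℝ, 0 < C ∧
    ∀ (ψ : O → ℂ) (u r : O) (w : ℂ), IsTw q ψ → u ≠ 0 → ¬ Exc q u → Rad u r →
      -σ₂ ≤ w.re → w.re ≤ -σ₁ →
      ‖Lx (rc ψ u) w‖ ≤ C * nm r ^ (1 / 2 - w.re + ε) * (2 + |w.im|) ^ C := by
  obtain ⟨C, hC, H⟩ := fe_row hq ε hε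
  obtain ⟨C₁, hC₁, H₁⟩ := norm_RK_le (1 + σ₁) (1 + σ₂) (by linarith)
  obtain ⟨C₂, hC₂, H₂⟩ := norm_DS_le σ₁ hσ
  set K : ℝ := C₁ * ((Tw q).card * (C * C ^ (1 / 2 + σ₂) * C₂)) with hK
  have hK0 : 0 ≤ K := by positivity
  refine ⟨C₁ + K, by positivity, fun ψ u r w hψ hu he hr h₁ h₂ => ?_⟩
  obtain ⟨B, hB, hFE⟩ := H ψ u r hψ hu he hr
  have hr0 := nm_pos hr.1
  have hre : (1 - w).re = 1 - w.re := by simp
  have hz := hFE (1 - w) (by rw [hre]; linarith)
  rw [sub_sub_cancel] at hz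
  have hR := H₁ (1 - w) (by rw [hre]; linarith) (by rw [hre]; linarith)
  have him : |(1 - w).im| = |w.im| := by simp
  rw [him] at hR
  have hb : (1 : ℝ) ≤ 2 + |w.im| := by linarith [abs_nonneg w.im]
  have hsum : ‖∑ χ ∈ Tw q, B χ (1 - w) * conj (Lx (rc χ u) (conj (1 - w)))‖ ≤
      (Tw q).card * (C * C ^ (1 / 2 + σ₂) * C₂ * nm r ^ (1 / 2 - w.re + ε)) := by
    refine (norm_sum_le _ _).trans ?_
    rw [← nsmul_eq_mul]
    refine Finset.sum_le_card_nsmul _ _ _ fun χ hχ => ?_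
    have hχ' := (mem_Tw hq.1).1 hχ
    have hc : (conj (1 - w)).re = 1 - w.re := by simp
    have b₁ := (hB χ).norm_le (s := 1 - w) (by rw [hre]; linarith)
    have b₂ := H₂ (rc χ u) (conj (1 - w)) (fun n => norm_rc_le hq hχ' hu n) (by rw [hc]; linarith)
    rw [norm_mul, RCLike.norm_conj, (Lx_rc_spec hq hχ' hu he).2 _ (by rw [hc]; linarith)]
    have e : (C * nm r)⁻¹ ^ (1 / 2 - (1 - w).re) = C ^ (1 / 2 - w.re) * nm r ^ (1 / 2 - w.re) := by
      rw [Real.inv_rpow (by positivity), ← Real.rpow_neg (by positivity), hre,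
        ← Real.mul_rpow (by positivity) hr0.le]
      congr 1
      ring
    rw [e] at b₁
    have b₃ : C ^ (1 / 2 - w.re) ≤ C ^ (1 / 2 + σ₂) :=
      Real.rpow_le_rpow_of_exponent_le hC (by linarith)
    calc ‖B χ (1 - w)‖ * ‖DS (rc χ u) (conj (1 - w))‖
        ≤ C * nm r ^ ε * (C ^ (1 / 2 + σ₂) * nm r ^ (1 / 2 - w.re)) * C₂ := by
          refine mul_le_mul (b₁.trans ?_) b₂ (norm_nonneg _) (by positivity)
          gcongr
      _ = _ := by rw [Real.rpow_add hr0]; ring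
  rw [hz, norm_mul]
  calc _ ≤ C₁ * (2 + |w.im|) ^ C₁ *
        ((Tw q).card * (C * C ^ (1 / 2 + σ₂) * C₂ * nm r ^ (1 / 2 - w.re + ε))) :=
        mul_le_mul hR hsum (norm_nonneg _) (by positivity)
    _ = K * nm r ^ (1 / 2 - w.re + ε) * (2 + |w.im|) ^ C₁ := by rw [hK]; ring
    _ ≤ _ := by
        refine mul_le_mul (mul_le_mul_of_nonneg_right (by linarith) (by positivity))
          (Real.rpow_le_rpow_of_exponent_le hb (by linarith)) (by positivity) (by positivity)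

end Crest.Agent.R17.C
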