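import Crest.Agent.R17.C.Theta

/-! Row 17, block C (owner helper6): C2, the functions `Lx ψ`. -/

set_option autoImplicit false

namespace Crest.Agent.R17.C

open scoped ComplexConjugate
open Complex MeasureTheory

variable {q : O} {ψ : O → ℂ} {s : ℂ}

theorem per_prm (hq : Lev q) (h : IsTw q ψ) : Per q (prm ψ) := by
  intro a b hab
  have h3 : (3 : O) ∣ a - b := hq.three_dvd.trans hab
  unfold prm
  by_cases ha : Prim a
  · rw [if_pos ha, if_pos (ha.congr h3), h.per a b hab]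
  · rw [if_neg ha, if_neg fun hb => ha (hb.congr (by simpa using h3.neg_right))]

theorem ZD_prm (ψ : O → ℂ) (s : ℂ) : ZD (prm ψ) s = DS ψ s := by
  rw [DS, tsum_Pr_eq fun n => ψ n * (nm n : ℂ) ^ (-s), ZD]
  refine tsum_congr fun n => ?_
  unfold prm
  split_ifs <;> simp

theorem rsum_prm_eq_zero (hq : Lev q) (h : IsTw q ψ) (hp : ¬ Princ ψ) : rsum q (prm ψ) = 0 :=
  h.rsum_prim_eq_zero hq.1 hq.three_dvd hp

theorem rsum_prm_pos (hq : Lev q) (h : IsTw q ψ) (hp : Princ ψ) :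
    ∃ m : ℕ, 1 ≤ m ∧ (m : ℝ) ≤ nm q ∧ rsum q (prm ψ) = m := by
  classical
  have h01 : ∀ y, prm ψ y = if prm ψ y = 1 then 1 else 0 := by
    intro y
    by_cases hy : Prim y
    · have e : prm ψ y = ψ y := if_pos hy
      rw [e]
      rcases hp ⟨y, hy⟩ with h0 | h1
      · have h0 : ψ y = 0 := h0
        simp [h0]
      · have h1 : ψ y = 1 := h1
        simp [h1]
    · have e : prm ψ y = 0 := if_neg hy
      simp [e]
  refine ⟨((res q).filter fun y => prm ψ y = 1).card, ?_, ?_, ?_⟩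
  · obtain ⟨y, hy, hd⟩ := exists_res hq.1 1
    refine Finset.card_pos.2 ⟨y, Finset.mem_filter.2 ⟨hy, ?_⟩⟩
    rw [← per_prm hq h 1 y hd, prm, if_pos prim_one, h.one]
  · have := Finset.card_filter_le (res q) fun y => prm ψ y = 1
    rw [card_res hq.1] at this
    unfold nm
    exact_mod_cast this
  · rw [rsum_eq_sum hq.1, Finset.sum_congr rfl fun y _ => h01 y, Finset.sum_boole]

theorem lfa_cont (hq : Lev q) (h : IsTw q ψ) : ∃ E : ℂ → ℂ,
    E 1 = (2 * Real.pi / Real.sqrt 3 : ℝ) * rsum q (prm ψ) / nm q ∧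
    (∀ s : ℂ, 1 < s.re → E (1 - s) = -s * (nm q : ℂ) ^ (s - 1) * RK s * ZD (FT q (prm ψ)) s) ∧
    (Princ ψ → IsL ψ E) ∧ (¬ Princ ψ → E 1 = 0 ∧ IsL ψ (dslope E 1)) := by
  obtain ⟨E, hd, h1, h2, h3, -⟩ := exists_cont hq.1 (per_prm hq h)
  refine ⟨E, h2, h3, fun hp => ⟨hd, fun s hs => ?_⟩, fun hp => ?_⟩
  · rw [h1 s hs, ZD_prm, pf, if_pos hp]
  · have h0 : E 1 = 0 := by rw [h2, rsum_prm_eq_zero hq h hp]; simp
    refine ⟨h0, ?_, fun s hs => ?_⟩
    · rw [← differentiableOn_univ]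
      exact (Complex.differentiableOn_dslope Filter.univ_mem).2 hd.differentiableOn
    · have hs1 : s ≠ 1 := fun e => by rw [e] at hs; norm_num at hs
      rw [dslope_of_ne _ hs1, slope_def_field, h0, h1 s hs, ZD_prm, pf, if_neg hp]
      have : s - 1 ≠ 0 := sub_ne_zero.2 hs1
      field_simp
      ring

/-- `exists_cont`; in the non-principal case `dslope E 1` -/
theorem isL_Lx (hq : Lev q) (h : IsTw q ψ) : IsL ψ (Lx ψ) := by
  obtain ⟨E, -, -, h1, h2⟩ := lfa_cont hq h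
  by_cases hp : Princ ψ
  · rw [Lx_unique (h1 hp)]; exact h1 hp
  · rw [Lx_unique (h2 hp).2]; exact (h2 hp).2

theorem Lx_diff (hq : Lev q) (h : IsTw q ψ) : Differentiable ℂ (Lx ψ) := (isL_Lx hq h).1

theorem Lx_eq (hq : Lev q) (h : IsTw q ψ) (hs : 1 < s.re) : Lx ψ s = pf ψ s * DS ψ s :=
  (isL_Lx hq h).2 s hs

theorem Lx_eq_DS (hq : Lev q) (h : IsTw q ψ) (hp : ¬ Princ ψ) (hs : 1 < s.re) :
    Lx ψ s = DS ψ s := by
  rw [Lx_eq hq h hs, pf, if_neg hp, one_mul]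

theorem princ_one (q : O) : Princ (one q) := by
  intro n
  unfold one
  split_ifs
  exacts [Or.inr rfl, Or.inl rfl]

/-- the residue of a principal `L`-function: positive and at most `2π/√3` -/
theorem Lx_one_pos (hq : Lev q) (h : IsTw q ψ) (hp : Princ ψ) :
    ∃ ρ : ℝ, 0 < ρ ∧ ρ ≤ 4 ∧ Lx ψ 1 = ρ := by
  obtain ⟨E, h0, -, h1, -⟩ := lfa_cont hq h
  obtain ⟨m, hm1, hm2, hm3⟩ := rsum_prm_pos hq h hp
  have hN := nm_pos hq.1
  have hm0 : (0 : ℝ) < m := by exact_mod_cast hm1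
  refine ⟨2 * Real.pi / Real.sqrt 3 * m / nm q, by positivity, ?_, ?_⟩
  · have h3 : (1.7 : ℝ) ≤ Real.sqrt 3 := Real.le_sqrt_of_sq_le (by norm_num)
    have h4 : 2 * Real.pi / Real.sqrt 3 ≤ 4 := by
      rw [div_le_iff₀ (by positivity)]
      nlinarith [Real.pi_lt_d2]
    rw [div_le_iff₀ hN]
    exact mul_le_mul h4 hm2 hm0.le (by norm_num)
  · rw [Lx_unique (h1 hp), h0, hm3]
    push_cast
    ring

/-- functional equation in raw form -/
theorem Lx_FE (hq : Lev q) (h : IsTw q ψ) (hp : ¬ Princ ψ) (hs : 1 < s.re) :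
    Lx ψ (1 - s) = (nm q : ℂ) ^ (s - 1) * RK s * ZD (FT q (prm ψ)) s := by
  obtain ⟨E, -, h1, -, h2⟩ := lfa_cont hq h
  obtain ⟨h0, h3⟩ := h2 hp
  have hs0 : s ≠ 0 := fun e => by rw [e] at hs; norm_num at hs
  have hs1 : 1 - s ≠ 1 := fun e => hs0 (by linear_combination -e)
  rw [Lx_unique h3, dslope_of_ne _ hs1, slope_def_field, h0, h1 s hs]
  have e : 1 - s - 1 = -s := by ring
  rw [e]
  field_simp
  ring

/-- POLYNOMIAL GROWTH, uniform in the level (use `Q = q * u` for the row `u`).  Non-principal case: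
`cont_growth` for `(s-1) Lx`, and the maximum principle on the disc `‖s - 1‖ ≤ 1`. -/
theorem growth (σ₁ σ₂ : ℝ) : ∃ C : ℝ, 0 < C ∧ ∀ (Q : O) (Φ : O → ℂ) (s : ℂ), Lev Q → IsTw Q Φ →
    σ₁ ≤ s.re → s.re ≤ σ₂ → ‖Lx Φ s‖ ≤ C * nm Q ^ C * (2 + |s.im|) ^ C := by
  obtain ⟨C, hC, h⟩ := cont_growth (min σ₁ 0) (max σ₂ 2)
  have h2C : (1 : ℝ) ≤ 2 ^ C := Real.one_le_rpow (by norm_num) hC.le
  have hCC : C ≤ C * 2 ^ C := le_mul_of_one_le_right hC.le h2C
  refine ⟨C * 2 ^ C, by positivity, fun Q Φ s hQ hΦ h1 h2 => ?_⟩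
  have hN := one_le_nm hQ.1
  have hb : ∀ n, ‖prm Φ n‖ ≤ 1 := fun n => by
    unfold prm
    split_ifs
    · exact hΦ.norm_le hQ.1 n
    · simp
  have ht : 1 ≤ 2 + |s.im| := by linarith [abs_nonneg s.im]
  have fin : ‖Lx Φ s‖ ≤ C * nm Q ^ C * (2 * (2 + |s.im|)) ^ C →
      ‖Lx Φ s‖ ≤ C * 2 ^ C * nm Q ^ (C * 2 ^ C) * (2 + |s.im|) ^ (C * 2 ^ C) := fun k => by
    refine k.trans (le_trans (le_of_eq ?_) (thc_absorb (K := C * 2 ^ C) (α := C) (β := C) hN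
      (by positivity) ht le_rfl (by positivity) hC.le le_rfl hCC hCC))
    rw [Real.mul_rpow (by norm_num) (by positivity)]
    ring
  have mono : ∀ w : ℂ, |w.im| ≤ 2 + |s.im| → C * nm Q ^ C * (2 + |w.im|) ^ C ≤
      C * nm Q ^ C * (2 * (2 + |s.im|)) ^ C := fun w hw => by
    have := abs_nonneg s.im
    gcongr
    linarith
  have hs₁ := (min_le_left σ₁ 0).trans h1
  have hs₂ := h2.trans (le_max_left σ₂ 2)
  have hss : |s.im| ≤ 2 + |s.im| := by linarith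
  refine fin ?_
  by_cases hp : Princ Φ
  · exact (h Q (prm Φ) (Lx Φ) s hQ.1 (per_prm hQ hΦ) hb (Lx_diff hQ hΦ)
      (fun w hw => by rw [Lx_eq hQ hΦ hw, pf, if_pos hp, ZD_prm]) hs₁ hs₂).trans (mono s hss)
  have k : ∀ w : ℂ, min σ₁ 0 ≤ w.re → w.re ≤ max σ₂ 2 → 1 ≤ ‖w - 1‖ →
      ‖Lx Φ w‖ ≤ C * nm Q ^ C * (2 + |w.im|) ^ C := fun w a1 a2 a3 => by
    have := h Q (prm Φ) (fun w => (w - 1) * Lx Φ w) w hQ.1 (per_prm hQ hΦ) hb
      ((differentiable_id.sub_const 1).mul (Lx_diff hQ hΦ))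
      (fun w hw => by rw [Lx_eq_DS hQ hΦ hp hw, ZD_prm]) a1 a2
    rw [norm_mul] at this
    exact (le_mul_of_one_le_left (norm_nonneg _) a3).trans this
  rcases le_total 1 ‖s - 1‖ with h3 | h3
  · exact (k s hs₁ hs₂ h3).trans (mono s hss)
  · refine norm_le_of_forall_mem_frontier_norm_le (U := Metric.ball (1 : ℂ) 1) Metric.isBounded_ball
      (Lx_diff hQ hΦ).diffContOnCl (fun w hw => ?_) ?_
    · rw [frontier_ball _ one_ne_zero, mem_sphere_iff_norm] at hw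
      have a1 := abs_le.1 ((abs_re_le_norm (w - 1)).trans hw.le)
      have a2 := (abs_im_le_norm (w - 1)).trans hw.le
      simp only [sub_re, one_re, sub_im, one_im, sub_zero] at a1 a2
      exact (k w ((min_le_right _ _).trans (by linarith [a1.1]))
        (le_trans (by linarith [a1.2]) (le_max_right _ _)) hw.ge).trans (mono w (a2.trans ht))
    · rw [closure_ball _ one_ne_zero, mem_closedBall_iff_norm]
      exact h3

/-- `DS_mul_DS_mu`, `norm_DS_le` -/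
theorem norm_inv_DS_le (δ : ℝ) (hδ : 0 < δ) : ∃ C : ℝ, 0 < C ∧ ∀ (Q : O) (Φ : O → ℂ) (s : ℂ),
    Q ≠ 0 → IsTw Q Φ → 1 + δ ≤ s.re → DS Φ s ≠ 0 ∧ ‖(DS Φ s)⁻¹‖ ≤ C := by
  obtain ⟨C, hC, h⟩ := norm_DS_le δ hδ
  refine ⟨C, hC, fun Q Φ s hQ hΦ hs => ?_⟩
  have h1 := DS_mul_DS_mu (s := s) hΦ.one (fun a b => hΦ.mul a b) (fun n => hΦ.norm_le hQ n)
    (by linarith)
  refine ⟨left_ne_zero_of_mul_eq_one h1, ?_⟩
  rw [inv_eq_of_mul_eq_one_right h1]
  refine h _ s (fun n => ?_) hs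
  rw [norm_mul]
  exact mul_le_one₀ (norm_mu_le _) (norm_nonneg _) (hΦ.norm_le hQ n)

theorem lfb_pf_ne (ψ : O → ℂ) (hs : 1 < s.re) : pf ψ s ≠ 0 := by
  unfold pf
  split_ifs
  · intro h
    rw [sub_eq_zero.1 h] at hs
    simp at hs
  · exact one_ne_zero

/-- absolute bounds far to the right -/
theorem Lx_right : ∃ C : ℝ, 0 < C ∧ ∀ (Q : O) (Φ : O → ℂ) (s : ℂ), Lev Q → IsTw Q Φ → 3 / 2 ≤ s.re →
    Lx Φ s ≠ 0 ∧ ‖pf Φ s / Lx Φ s‖ ≤ C ∧ ‖Lx Φ s / pf Φ s‖ ≤ C := by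
  obtain ⟨C₁, hC₁, h₁⟩ := norm_DS_le (1 / 2) (by norm_num)
  obtain ⟨C₂, hC₂, h₂⟩ := norm_inv_DS_le (1 / 2) (by norm_num)
  refine ⟨C₁ + C₂, by positivity, fun Q Φ s hQ hΦ hs => ?_⟩
  have hs1 : 1 < s.re := by linarith
  have h3 := lfb_pf_ne Φ hs1
  obtain ⟨h4, h5⟩ := h₂ Q Φ s hQ.1 hΦ (by linarith)
  have h6 := h₁ Φ s (fun n => hΦ.norm_le hQ.1 n) (by linarith)
  rw [Lx_eq hQ hΦ hs1, div_mul_cancel_left₀ h3, mul_div_cancel_left₀ _ h3]
  exact ⟨mul_ne_zero h3 h4, by linarith, by linarith⟩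

theorem zf_one : ZF 1 := by
  intro q ψ hq h s hs
  obtain ⟨C, -, hC⟩ := norm_inv_DS_le (s.re - 1) (by linarith)
  rw [Lx_eq hq h hs]
  exact mul_ne_zero (lfb_pf_ne ψ hs) (hC q ψ s hq.1 h (by linarith)).1

theorem Lx_one_ne (hq : Lev q) (h : IsTw q ψ) (hp : Princ ψ) : Lx ψ 1 ≠ 0 := by
  obtain ⟨ρ, h0, -, h1⟩ := Lx_one_pos hq h hp
  rw [h1]
  exact_mod_cast h0.ne'

theorem expOn_Lx (hq : Lev q) (h : IsTw q ψ) (σ₁ σ₂ : ℝ) : ExpOn σ₁ σ₂ (Lx ψ) := by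
  obtain ⟨C, hC, k⟩ := growth σ₁ σ₂
  refine ExpOn.of_poly (B := C * nm q ^ C * 2 ^ C) (A := C) fun s hs =>
    (k q ψ s hq h hs.1 hs.2).trans ?_
  rw [mul_assoc (C * nm q ^ C)]
  exact mul_le_mul_of_nonneg_left (thc_two hC.le (abs_nonneg _))
    (mul_nonneg hC.le (Real.rpow_nonneg (nm_nonneg q) _))

/-- a mask does not change principality (approximate a primary `n` with `ψ n ≠ 0, 1` modulo `q` by one
which is prime to `D`) -/
theorem princ_mask (hq : Lev q) (h : IsTw q ψ) {D : O} (hD : D ≠ 0) :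
    (Princ fun n => ψ n * one D n) ↔ Princ ψ := by
  refine ⟨fun hp n => ?_, fun hp n => ?_⟩
  · by_cases hn : IsCoprime (n : O) q
    swap
    · exact Or.inl (h.zero _ hn)
    obtain ⟨t, m, k, ht, -, hm, e⟩ := exists_smooth_prim (q := 3 * n) (dvd_mul_right _ _) hD
    have h1 : q ∣ n - (n + q * m) := ⟨-m, by ring⟩
    have h2 : IsCoprime (n + q * m : O) D := by
      refine isCoprime_of_prime_dvd (fun h' => hD h'.2) fun p hp h3 h4 => ?_
      by_cases h5 : p ∣ n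
      · rcases hp.dvd_or_dvd ((dvd_add_right h5).1 h3) with h6 | h6
        · exact hp.not_isUnit (hn.isUnit_of_dvd' h5 h6)
        · exact hp.not_isUnit (hm.isUnit_of_dvd' h6 (h5.mul_left 3))
      · refine h5 ((dvd_add_left ?_).1 h3)
        rcases hp.dvd_or_dvd (e ▸ h4) with h6 | h6
        · exact (((hp.dvd_or_dvd (hp.dvd_of_dvd_pow (h6.trans ht))).resolve_right h5).trans
            hq.three_dvd).mul_right m
        · exact h6.mul_left q
    have h3 := hp ⟨n + q * m, (Pr_prim n).congr (hq.three_dvd.trans h1)⟩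
    simp only [one, if_pos h2, mul_one] at h3
    rwa [h.per _ _ h1]
  · rcases hp n with h1 | h1 <;> simp only [h1, one] <;> split_ifs <;> simp

/-- MASK / RAISING THE LEVEL: finitely many Euler factors are removed -/
theorem Lx_mask (hq : Lev q) (h : IsTw q ψ) {D : O} (hD : D ≠ 0) (s : ℂ) :
    Lx (fun n => ψ n * one D n) s = Lx ψ s * ∏ p ∈ pfs D, (1 - ψ p * (nm p : ℂ) ^ (-s)) := by
  have : IsL (fun n => ψ n * one D n)
      fun s => Lx ψ s * ∏ p ∈ pfs D, (1 - ψ p * (nm p : ℂ) ^ (-s)) := by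
    refine ⟨(Lx_diff hq h).mul (Differentiable.fun_finsetProd fun p hp => ?_), fun s hs => ?_⟩
    · have hp0 : (nm p : ℂ) ≠ 0 := by exact_mod_cast (nm_pos ((mem_pfs hD).1 hp).1.ne_zero).ne'
      exact (differentiable_const _).sub
        ((differentiable_const _).mul (differentiable_neg.const_cpow (Or.inl hp0)))
    · rw [DS_mask (fun a b => h.mul a b) (fun n => h.norm_le hq.1 n) hD hs]
      have e : pf (fun n => ψ n * one D n) s = pf ψ s := by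
        classical
        exact if_congr (princ_mask hq h hD) rfl rfl
      simp only [Lx_eq hq h hs, e, mul_assoc]
  rw [Lx_unique this]

theorem Lx_mask_ne_iff (hq : Lev q) (h : IsTw q ψ) {D : O} (hD : D ≠ 0) (hs : 0 < s.re) :
    Lx (fun n => ψ n * one D n) s ≠ 0 ↔ Lx ψ s ≠ 0 := by
  rw [Lx_mask hq h hD, mul_ne_zero_iff, and_iff_left]
  refine Finset.prod_ne_zero_iff.2 fun p hp h0 => ?_
  have h1 := two_le_nm ((mem_pfs hD).1 hp).1
  have h2 : ‖ψ p * (nm p : ℂ) ^ (-s)‖ < 1 := by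
    rw [norm_mul, norm_cpow_eq_rpow_re_of_pos (by linarith)]
    refine (mul_le_of_le_one_left (Real.rpow_nonneg (by linarith) _) (h.norm_le hq.1 p)).trans_lt ?_
    exact Real.rpow_lt_one_of_one_lt_of_neg (by linarith) (by simpa using hs)
  rw [← sub_eq_zero.1 h0, norm_one] at h2
  exact lt_irrefl _ h2

end Crest.Agent.R17.C
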