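import Crest.Agent.R17.C.Lfun

/-! Row 17, block C (owner helper6): C6, `ZF (7/8)` gives S0022. -/

set_option autoImplicit false

namespace Crest.Agent.R17.C

open scoped ComplexConjugate
open Complex MeasureTheory

/-- the primary primes above a rational prime: none for `3`, two of norm `p` for `p ≡ 1`, one of norm
`p²` for `p ≡ 2 mod 3` (`exists_nN_eq`, `mul_cj`, `prime_natCast`, `exists_unit_prim`, `lam_sq`). -/
theorem primes_above {p : ℕ} (hp : p.Prime) : ∃ S : Finset PPr, (∀ π : PPr, π ∈ S ↔ (π : O) ∣ p) ∧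
    ((p = 3 ∧ S = ∅) ∨ (p % 3 = 1 ∧ S.card = 2 ∧ ∀ π ∈ S, nN π = p) ∨
      (p % 3 = 2 ∧ S.card = 1 ∧ ∀ π ∈ S, nN π = p ^ 2)) := by
  classical
  have h3 : p % 3 = 0 ∨ p % 3 = 1 ∨ p % 3 = 2 := by omega
  rcases h3 with h3 | h3 | h3
  · obtain rfl : p = 3 :=
      ((Nat.prime_dvd_prime_iff_eq Nat.prime_three hp).1 (Nat.dvd_of_mod_eq_zero h3)).symm
    refine ⟨∅, fun π => ⟨fun h => absurd h (Finset.notMem_empty _), fun h => ?_⟩, Or.inl ⟨rfl, rfl⟩⟩
    exact absurd (π.2.2.coprime_three.isUnit_of_dvd (by exact_mod_cast h)) π.2.1.not_isUnit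
  · obtain ⟨π, h1, h2, hN⟩ := cta_exists_prim hp h3
    have e : π * cj π = (p : O) := by rw [mul_cj, hN]
    refine ⟨{⟨π, h1, h2⟩, ⟨cj π, prime_cj h1, h2.cj⟩}, fun ρ => ?_, Or.inr (Or.inl ⟨h3, ?_, ?_⟩)⟩
    · rw [Finset.mem_insert, Finset.mem_singleton, ← e]
      constructor
      · rintro (rfl | rfl)
        · exact dvd_mul_right _ _
        · exact dvd_mul_left _ _
      · intro h
        rcases ρ.2.1.dvd_or_dvd h with h | h
        · exact Or.inl (Subtype.ext (ρ.2.2.eq_of_associated h2 (ρ.2.1.associated_of_dvd h1 h)))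
        · exact Or.inr (Subtype.ext (ρ.2.2.eq_of_associated h2.cj
            (ρ.2.1.associated_of_dvd (prime_cj h1) h)))
    · refine Finset.card_pair fun h => ?_
      have h4 : π = cj π := congrArg Subtype.val h
      obtain ⟨t, ht⟩ := exists_trace π
      rw [← h4, ← two_mul] at ht
      have h5 := congrArg nN ht
      rw [nN_mul, nN_two, hN, nN_intCast] at h5
      obtain ⟨k, hk⟩ := hp.dvd_of_dvd_pow (Dvd.intro_left 4 h5)
      rw [hk, mul_pow, sq p, mul_assoc, mul_comm 4] at h5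
      have h6 : p ∣ 4 := Dvd.intro _ (Nat.eq_of_mul_eq_mul_left hp.pos h5).symm
      have h7 : p ∣ 2 := hp.dvd_of_dvd_pow (n := 2) h6
      obtain rfl := (Nat.prime_dvd_prime_iff_eq hp Nat.prime_two).1 h7
      omega
    · intro ρ hρ
      rw [Finset.mem_insert, Finset.mem_singleton] at hρ
      rcases hρ with rfl | rfl
      · exact hN
      · exact (nN_cj π).trans hN
  · have h1 : Prime (-(p : O)) := (prime_natCast hp h3).neg
    have h2 : Prim (-(p : O)) := by
      obtain ⟨k, hk⟩ : 3 ∣ p + 1 := by omega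
      have h4 : (p : O) + 1 = 3 * k := by exact_mod_cast congrArg (Nat.cast : ℕ → O) hk
      exact ⟨-k, by linear_combination -h4⟩
    refine ⟨{⟨-(p : O), h1, h2⟩}, fun ρ => ?_, Or.inr (Or.inr ⟨h3, Finset.card_singleton _, ?_⟩)⟩
    · rw [Finset.mem_singleton]
      constructor
      · rintro rfl
        exact neg_dvd.2 dvd_rfl
      · intro h
        exact Subtype.ext (ρ.2.2.eq_of_associated h2 (ρ.2.1.associated_of_dvd h1 (dvd_neg.2 h)))
    · intro ρ hρ
      obtain rfl := Finset.mem_singleton.1 hρ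
      exact (nN_neg _).trans (nN_natCast p)

theorem exists_under (π : PPr) : ∃! p : Nat.Primes, (π : O) ∣ (p : ℕ) := by
  have h : ∃ p : Nat.Primes, (π : O) ∣ (p : ℕ) := by
    rcases prime_cases π.2.1 with h | ⟨r, hr, -, h⟩
    · exact ⟨⟨_, h⟩, dvd_nN _⟩
    · exact ⟨⟨r, hr⟩, h.dvd⟩
  refine existsUnique_of_exists_of_unique h fun p q hp hq => ?_
  by_contra hne
  have hc : Nat.Coprime p q := (Nat.coprime_primes p.2 q.2).2 fun h => hne (Subtype.ext h)
  exact π.2.1.not_isUnit ((Nat.Coprime.cast (R := O) hc).isUnit_of_dvd' hp hq)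

/-- the quadratic character modulo `3`, lifted to any level divisible by `3` -/
theorem exists_chi3 {M : ℕ} (h3 : 3 ∣ M) : ∃ χ₃ : DirichletCharacter ℂ M, ∀ p : ℕ, p.Coprime M →
    (p % 3 = 1 → χ₃ p = 1) ∧ (p % 3 = 2 → χ₃ p = -1) := by
  refine ⟨DirichletCharacter.changeLevel h3
    ((quadraticChar (ZMod 3)).ringHomComp (Int.castRingHom ℂ)), fun p hp => ?_⟩
  have h1 := DirichletCharacter.changeLevel_eq_cast_of_dvd
    ((quadraticChar (ZMod 3)).ringHomComp (Int.castRingHom ℂ)) h3 (ZMod.unitOfCoprime p hp)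
  rw [ZMod.coe_unitOfCoprime, ZMod.cast_natCast h3, ← ZMod.natCast_mod p 3,
    MulChar.ringHomComp_apply] at h1
  refine ⟨fun h => ?_, fun h => ?_⟩
  · rw [h1, h, Nat.cast_one, map_one, map_one]
  · have h2 : quadraticChar (ZMod 3) ((2 : ℕ) : ZMod 3) = -1 :=
      quadraticChar_neg_one_iff_not_isSquare.2 (by decide)
    rw [h1, h, h2, map_neg, map_one]

variable {M : ℕ} [NeZero M] (χ : DirichletCharacter ℂ M)

/-- `n ↦ χ(N n)`; it vanishes unless `n` is prime to `M` -/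
theorem tw_norm : IsTw (M : O) fun n => χ (nN n) := by
  refine ⟨by simp, fun a b => by rw [nN_mul, Nat.cast_mul, map_mul], fun a b h => ?_,
    fun a h => χ.map_nonunit fun hu => h ?_⟩
  · rw [(ZMod.natCast_eq_natCast_iff _ _ _).2 (nN_congr h)]
  · exact (Nat.Coprime.cast (R := O) ((ZMod.isUnit_iff_coprime _ _).1 hu)).of_isCoprime_of_dvd_left
      (dvd_nN a)

/-- `hasProd_euler`, `DirichletCharacter.LSeries_eulerProduct_hasProd`, regroup the primary primes
by the rational prime below (`HasProd.sigma`, `Equiv.sigmaFiberEquiv`) -/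
theorem DS_norm (h3 : 3 ∣ M) {χ₃ : DirichletCharacter ℂ M} (hχ : ∀ p : ℕ, p.Coprime M →
    (p % 3 = 1 → χ₃ p = 1) ∧ (p % 3 = 2 → χ₃ p = -1)) {s : ℂ} (hs : 1 < s.re) :
    DS (fun n => χ (nN n)) s = LSeries (fun n => χ n) s * LSeries (fun n => (χ * χ₃) n) s := by
  set f : O → ℂ := fun n => χ (nN n) * (nm n : ℂ) ^ (-s) with hf
  have hE := hasProd_euler f (by simp [hf]) (fun a b => by
      simp only [hf, nN_mul, nm_mul, Nat.cast_mul, map_mul, ofReal_mul,
        mul_cpow_ofReal_nonneg (nm_nonneg _) (nm_nonneg _)]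
      ring)
    (summable_norm_DS (ψ := fun n => χ (nN n)) (fun n => χ.norm_le_one _) hs)
  choose und hund hund' using exists_under
  have hE' := (Equiv.sigmaFiberEquiv und).hasProd_iff.2 hE
  refine (hE'.sigma fun p => ?_).unique
    ((χ.LSeries_eulerProduct_hasProd hs).mul ((χ * χ₃).LSeries_eulerProduct_hasProd hs))
  obtain ⟨S, hS, hc⟩ := primes_above p.2
  have hset : {π : PPr | und π = p} = (S : Set PPr) := by
    ext π
    rw [Set.mem_ofPred_eq, Finset.mem_coe, hS]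
    exact ⟨fun h => h ▸ hund π, fun h => (hund' π p h).symm⟩
  have h1 : HasProd ((fun π : PPr => (1 - f π)⁻¹) ∘ ((↑) : ({π : PPr | und π = p} : Set PPr) → PPr))
      (∏ π ∈ S, (1 - f π)⁻¹) := by
    rw [hset]
    exact S.hasProd _
  have h0 : ¬ (p : ℕ).Coprime M → χ (p : ℕ) = 0 := fun h =>
    χ.map_nonunit fun hu => h ((ZMod.isUnit_iff_coprime _ _).1 hu)
  suffices h2 : (1 - χ (p : ℕ) * ((p : ℕ) : ℂ) ^ (-s))⁻¹ *
      (1 - (χ * χ₃) (p : ℕ) * ((p : ℕ) : ℂ) ^ (-s))⁻¹ = ∏ π ∈ S, (1 - f π)⁻¹ by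
    rw [← h2] at h1
    exact h1
  rw [MulChar.mul_apply]
  rcases hc with ⟨h3', rfl⟩ | ⟨hp, hcard, hn⟩ | ⟨hp, hcard, hn⟩
  · have : ¬ (p : ℕ).Coprime M := fun h => by
      rw [h3'] at h
      exact absurd (h.eq_one_of_dvd h3) (by norm_num)
    simp [h0 this]
  · rw [Finset.prod_congr rfl (g := fun _ => (1 - χ (p : ℕ) * ((p : ℕ) : ℂ) ^ (-s))⁻¹)
      fun π hπ => by simp [hf, nm, hn π hπ], Finset.prod_const, hcard]
    by_cases h : (p : ℕ).Coprime M
    · rw [(hχ p h).1 hp]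
      ring
    · simp [h0 h]
  · rw [Finset.prod_congr rfl (g := fun _ => (1 - (χ (p : ℕ) * ((p : ℕ) : ℂ) ^ (-s)) ^ 2)⁻¹)
      fun π hπ => by
        simp only [hf, nm, hn π hπ, sq, Nat.cast_mul, map_mul, ofReal_natCast,
          natCast_mul_natCast_cpow]
        ring, Finset.prod_const, hcard, pow_one]
    by_cases h : (p : ℕ).Coprime M
    · rw [(hχ p h).2 hp, ← mul_inv]
      congr 1
      ring
    · simp [h0 h]

/-- level `M = 72 N`, `DirichletCharacter.LFunction_changeLevel`, identity theorem on `ℂ ∖ {1}`;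
`s = 1`: `DirichletCharacter.LFunction_ne_zero_of_one_le_re` -/
theorem link22 (h : ZF (7 / 8)) {N : ℕ} [NeZero N] (χ : DirichletCharacter ℂ N) (s : ℂ)
    (hχs : χ ≠ 1 ∨ s ≠ 1) (hs : 7 / 8 < s.re) : χ.LFunction s ≠ 0 := by
  rcases le_or_gt 1 s.re with h1 | h1
  · exact χ.LFunction_ne_zero_of_one_le_re hχs h1
  have hs1 : s ≠ 1 := fun h => by simp [h] at h1
  intro h0
  have hN : NeZero (72 * N) := ⟨mul_ne_zero (by norm_num) (NeZero.ne N)⟩
  have h3 : 3 ∣ 72 * N := Dvd.dvd.mul_right (by norm_num) N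
  set χ' := DirichletCharacter.changeLevel (dvd_mul_left N 72) χ with hχ'
  obtain ⟨χ₃, hχ₃⟩ := exists_chi3 h3
  have hq : Lev ((72 * N : ℕ) : O) := ⟨by exact_mod_cast hN.ne, by push_cast; exact dvd_mul_right _ _⟩
  have hψ := tw_norm χ'
  have hpc : IsPreconnected ({1}ᶜ : Set ℂ) :=
    (isConnected_compl_singleton_of_one_lt_rank (rank_real_complex ▸ Nat.one_lt_ofNat) _)
      |>.isPreconnected
  have hpf : Differentiable ℂ (pf fun n => χ' (nN n)) := by
    unfold pf
    split_ifs <;> fun_prop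
  have key : Set.EqOn (Lx fun n => χ' (nN n))
      (fun z => pf (fun n => χ' (nN n)) z * (χ'.LFunction z * (χ' * χ₃).LFunction z)) {1}ᶜ := by
    refine AnalyticOnNhd.eqOn_of_preconnected_of_eventuallyEq (𝕜 := ℂ) (z₀ := 2) ?_ ?_ hpc
      (by simp) ?_
    · exact (Lx_diff hq hψ).differentiableOn.analyticOnNhd isOpen_compl_singleton
    · refine DifferentiableOn.analyticOnNhd (fun z hz => ?_) isOpen_compl_singleton
      exact ((hpf z).mul ((DirichletCharacter.differentiableAt_LFunction _ _ (.inl hz)).mul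
        (DirichletCharacter.differentiableAt_LFunction _ _ (.inl hz)))).differentiableWithinAt
    · refine Filter.eventually_of_mem ?_ (fun t (ht : 1 < t.re) => ?_)
      · exact (continuous_re.isOpen_preimage _ isOpen_Ioi).mem_nhds (by simp : 1 < (2 : ℂ).re)
      · simp only [Lx_eq hq hψ ht, DS_norm χ' h3 hχ₃ ht,
          DirichletCharacter.LFunction_eq_LSeries _ ht]
  refine h _ _ hq hψ s hs ?_
  rw [key hs1]
  simp only [hχ', DirichletCharacter.LFunction_changeLevel _ χ hχs, h0, zero_mul, mul_zero]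

end Crest.Agent.R17.C
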