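import Crest.Agent.R17.C.FE

/-! Row 17, block C (owner helper6): C3, bounds in a zero-free region. -/

set_option autoImplicit false

namespace Crest.Agent.R17.C

open scoped ComplexConjugate
open Complex MeasureTheory

/-- the prime Dirichlet series -/
noncomputable def PD (Φ : O → ℂ) (s : ℂ) : ℂ := ∑' p : PPr, Φ p * (nm p : ℂ) ^ (-s)

/-- the logarithm of the Euler product -/
noncomputable def LD (Φ : O → ℂ) (s : ℂ) : ℂ := ∑' p : PPr, -log (1 - Φ p * (nm p : ℂ) ^ (-s))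

theorem zfa_norm {Φ : O → ℂ} (hb : ∀ n, ‖Φ n‖ ≤ 1) (p : PPr) {σ : ℝ} {s : ℂ} (hσ : σ ≤ s.re) :
    ‖Φ p * (nm p : ℂ) ^ (-s)‖ ≤ nm p ^ (-σ) := by
  have h4 := four_le_nm p.2.1 p.2.2
  rw [norm_mul, norm_cpow_eq_rpow_re_of_pos (by linarith), neg_re]
  exact (mul_le_of_le_one_left (Real.rpow_nonneg (nm_nonneg _) _) (hb _)).trans
    (Real.rpow_le_rpow_of_exponent_le (by linarith) (by linarith))

theorem zfa_half {Φ : O → ℂ} (hb : ∀ n, ‖Φ n‖ ≤ 1) (p : PPr) {s : ℂ} (hs : 1 / 2 ≤ s.re) :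
    ‖Φ p * (nm p : ℂ) ^ (-s)‖ ≤ 1 / 2 := by
  refine (zfa_norm hb p hs).trans ?_
  calc nm p ^ (-(1 / 2) : ℝ) ≤ (4 : ℝ) ^ (-(1 / 2) : ℝ) :=
        Real.rpow_le_rpow_of_nonpos (by norm_num) (four_le_nm p.2.1 p.2.2) (by norm_num)
    _ = 1 / 2 := by
        rw [show (4 : ℝ) = 2 ^ (2 : ℝ) by norm_num, ← Real.rpow_mul (by norm_num)]
        norm_num

theorem zfa_summable {σ : ℝ} (hσ : 1 < σ) : Summable fun p : PPr => nm p ^ (-σ) :=
  (summable_nm_rpow hσ).subtype _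

theorem zfa_log_le {Φ : O → ℂ} (hb : ∀ n, ‖Φ n‖ ≤ 1) (p : PPr) {σ : ℝ} {s : ℂ} (h : 1 / 2 ≤ σ)
    (hσ : σ ≤ s.re) : ‖-log (1 - Φ p * (nm p : ℂ) ^ (-s))‖ ≤ 3 / 2 * nm p ^ (-σ) := by
  have h1 := norm_log_one_add_half_le_self (z := -(Φ p * (nm p : ℂ) ^ (-s)))
    (by rw [norm_neg]; exact zfa_half hb p (h.trans hσ))
  rw [norm_neg] at h1
  rw [norm_neg, sub_eq_add_neg]
  exact h1.trans (mul_le_mul_of_nonneg_left (zfa_norm hb p hσ) (by norm_num))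

theorem zfa_rem_le {Φ : O → ℂ} (hb : ∀ n, ‖Φ n‖ ≤ 1) (p : PPr) {σ : ℝ} {s : ℂ} (h : 1 / 2 ≤ σ)
    (hσ : σ ≤ s.re) : ‖-log (1 - Φ p * (nm p : ℂ) ^ (-s)) - Φ p * (nm p : ℂ) ^ (-s)‖ ≤
      nm p ^ (-(2 * σ)) := by
  have h0 := zfa_half hb p (h.trans hσ)
  have h2 := zfa_norm hb p hσ
  set x := Φ p * (nm p : ℂ) ^ (-s)
  have h1 := norm_log_one_add_sub_self_le (z := -x) (by rw [norm_neg]; linarith)
  rw [norm_neg] at h1
  have h3 : (1 - ‖x‖)⁻¹ ≤ 2 := by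
    rw [inv_le_comm₀ (by linarith) (by norm_num)]
    linarith
  calc ‖-log (1 - x) - x‖ = ‖log (1 + -x) - -x‖ := by
        rw [← norm_neg, ← sub_eq_add_neg]
        congr 1
        ring
    _ ≤ ‖x‖ ^ 2 := h1.trans (by nlinarith [sq_nonneg ‖x‖])
    _ ≤ (nm p ^ (-σ)) ^ 2 := pow_le_pow_left₀ (norm_nonneg _) h2 2
    _ = _ := by
        rw [← Real.rpow_natCast, ← Real.rpow_mul (nm_nonneg _)]
        congr 1
        push_cast
        ring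

theorem zfa_diff (Φ : O → ℂ) (p : PPr) :
    Differentiable ℂ fun s : ℂ => Φ p * (nm p : ℂ) ^ (-s) := by
  have h0 : (nm p : ℂ) ≠ 0 := by exact_mod_cast (nm_pos p.2.1.ne_zero).ne'
  exact (differentiable_id.neg.const_cpow (Or.inl h0)).const_mul _

theorem zfa_diff_log {Φ : O → ℂ} (hb : ∀ n, ‖Φ n‖ ≤ 1) (p : PPr) {s : ℂ} (hs : 1 / 2 ≤ s.re) :
    DifferentiableAt ℂ (fun s : ℂ => -log (1 - Φ p * (nm p : ℂ) ^ (-s))) s := by
  refine (((zfa_diff Φ p s).const_sub 1).clog ?_).neg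
  rw [sub_eq_add_neg]
  refine mem_slitPlane_of_norm_lt_one ?_
  rw [norm_neg]
  linarith [zfa_half hb p hs]

/-- `exp_log_euler`; `‖log (1 - x)‖ ≤ 3/2 ‖x‖` for `‖x‖ ≤ 1/2` (`norm_log_one_add_half_le_self`) -/
theorem LD_spec : ∃ C₀ : ℝ, ∀ Φ : O → ℂ, Φ 1 = 1 → (∀ a b, Φ (a * b) = Φ a * Φ b) →
    (∀ n, ‖Φ n‖ ≤ 1) → ContinuousOn (LD Φ) {s | 3 / 2 < s.re} ∧
      ∀ s : ℂ, 3 / 2 < s.re → exp (LD Φ s) = DS Φ s ∧ ‖LD Φ s‖ ≤ C₀ := by
  have hs := (zfa_summable (σ := 3 / 2) (by norm_num)).mul_left (3 / 2)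
  refine ⟨∑' p : PPr, 3 / 2 * nm p ^ (-(3 / 2) : ℝ), fun Φ h1 hm hb => ⟨?_, fun s hs' => ⟨?_, ?_⟩⟩⟩
  · refine continuousOn_tsum (fun p s hs' => ?_) hs fun p s hs' =>
      zfa_log_le hb p (by norm_num) (le_of_lt hs')
    have hs'' : (3 : ℝ) / 2 < s.re := hs'
    exact (zfa_diff_log hb p (by linarith)).continuousAt.continuousWithinAt
  · refine exp_log_euler (fun n => Φ n * (nm n : ℂ) ^ (-s)) (by simp [h1]) (fun a b => ?_)
      (summable_norm_DS (fun n => hb n) (by linarith))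
    rw [hm, nm_mul, ofReal_mul, mul_cpow_ofReal_nonneg (nm_nonneg _) (nm_nonneg _)]
    ring
  · exact tsum_of_norm_bounded hs.hasSum fun p => zfa_log_le hb p (by norm_num) hs'.le

/-- the higher prime powers: `‖-log (1 - x) - x‖ ≤ ‖x‖²` for `‖x‖ ≤ 1/2` (`four_le_nm`) -/
theorem LD_sub_PD (e : ℝ) (he : 0 < e) : ∃ C : ℝ, 0 < C ∧ ∀ Φ : O → ℂ, (∀ n, ‖Φ n‖ ≤ 1) →
    ∃ R : ℂ → ℂ, DifferentiableOn ℂ R {s | 1 / 2 < s.re} ∧
      (∀ s : ℂ, 1 < s.re → PD Φ s = LD Φ s - R s) ∧ ∀ s : ℂ, 1 / 2 + e ≤ s.re → ‖R s‖ ≤ C := by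
  have hs := zfa_summable (σ := 2 * (1 / 2 + e)) (by linarith)
  refine ⟨∑' p : PPr, nm p ^ (-(2 * (1 / 2 + e))) + 1, add_pos_of_nonneg_of_pos
    (tsum_nonneg fun p => Real.rpow_nonneg (nm_nonneg _) _) one_pos, fun Φ hb =>
    ⟨fun s => ∑' p : PPr, (-log (1 - Φ p * (nm p : ℂ) ^ (-s)) - Φ p * (nm p : ℂ) ^ (-s)),
      fun s hs' => ?_, fun s hs' => ?_, fun s hs' => ?_⟩⟩
  · have hs'' : (1 : ℝ) / 2 < s.re := hs'
    set σ : ℝ := (1 / 2 + s.re) / 2 with hσ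
    have hU : IsOpen {w : ℂ | σ < w.re} := isOpen_lt continuous_const continuous_re
    have h1 : (1 : ℝ) / 2 < σ := by linarith
    have h := differentiableOn_tsum_of_summable_norm (zfa_summable (σ := 2 * σ) (by linarith))
      (F := fun (p : PPr) (s : ℂ) => -log (1 - Φ p * (nm p : ℂ) ^ (-s)) - Φ p * (nm p : ℂ) ^ (-s))
      (fun p w hw => ((zfa_diff_log hb p (h1.trans hw).le).sub
        (zfa_diff Φ p w)).differentiableWithinAt) hU
      fun p w hw => zfa_rem_le hb p h1.le (le_of_lt hw)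
    exact (h.differentiableAt (hU.mem_nhds (show σ < s.re by linarith))).differentiableWithinAt
  · have h1 : Summable fun p : PPr => -log (1 - Φ p * (nm p : ℂ) ^ (-s)) :=
      Summable.of_norm_bounded ((zfa_summable hs').mul_left (3 / 2)) fun p =>
        zfa_log_le hb p (by linarith) le_rfl
    have h2 : Summable fun p : PPr => Φ p * (nm p : ℂ) ^ (-s) :=
      Summable.of_norm_bounded (zfa_summable hs') fun p => zfa_norm hb p le_rfl
    simp only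
    rw [h1.tsum_sub h2, PD, LD]
    ring
  · exact (tsum_of_norm_bounded hs.hasSum fun p => zfa_rem_le hb p (by linarith) hs').trans
      (by linarith)

theorem zfb_half_le {s : ℂ} (hs : 1 / 2 ≤ s.re) : 1 / 2 ≤ ‖s‖ := hs.trans (re_le_norm s)

theorem zfb_inv_lt {s : ℂ} (hs : 3 / 2 < s.re) : ‖-s⁻¹‖ ≤ 2 / 3 := by
  have h := hs.trans_le (re_le_norm s)
  rw [norm_neg, norm_inv, inv_le_comm₀ (by linarith) (by norm_num)]
  linarith

theorem zfb_log_le {s : ℂ} (hs : 3 / 2 < s.re) : ‖log (1 + -s⁻¹)‖ ≤ 2 := by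
  have h := zfb_inv_lt hs
  refine (norm_log_one_add_le (by linarith)).trans ?_
  have h0 := norm_nonneg (-s⁻¹)
  generalize ‖-s⁻¹‖ = x at h h0
  have h1 : (1 - x)⁻¹ ≤ 3 := by
    rw [inv_le_comm₀ (by linarith) (by norm_num)]; linarith
  have h2 : 0 ≤ (1 - x)⁻¹ := inv_nonneg.2 (by linarith)
  have h3 : x ^ 2 ≤ 4 / 9 := by nlinarith
  nlinarith

open Classical in
/-- the normalising factor: `s` for principal characters, else `1` -/
noncomputable def zfbw (Φ : O → ℂ) (s : ℂ) : ℂ := if Princ Φ then s else 1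

open Classical in
/-- the correction of the logarithm -/
noncomputable def zfbg (Φ : O → ℂ) (s : ℂ) : ℂ := if Princ Φ then log (1 + -s⁻¹) else 0

theorem zfbw_ge (Φ : O → ℂ) {s : ℂ} (hs : 1 / 2 ≤ s.re) : 1 / 2 ≤ ‖zfbw Φ s‖ := by
  unfold zfbw
  split_ifs
  · exact zfb_half_le hs
  · norm_num

theorem zfbw_le (Φ : O → ℂ) {s : ℂ} (hs : 1 / 2 ≤ s.re) (hs' : s.re ≤ 3) :
    ‖zfbw Φ s‖ ≤ 2 * (2 + |s.im|) := by
  have h0 := abs_nonneg s.im
  unfold zfbw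
  split_ifs
  · have h := norm_le_abs_re_add_abs_im s
    rw [abs_of_nonneg (by linarith : 0 ≤ s.re)] at h
    linarith
  · rw [norm_one]; linarith

theorem zfbw_diff (Φ : O → ℂ) : Differentiable ℂ (zfbw Φ) := by
  unfold zfbw
  split_ifs
  · exact differentiable_id
  · exact differentiable_const _

theorem zfbg_cont (Φ : O → ℂ) : ContinuousOn (zfbg Φ) {s | 3 / 2 < s.re} := by
  unfold zfbg
  split_ifs
  · intro s hs
    have hs0 : s ≠ 0 := fun h => by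
      have : 3 / 2 < s.re := hs
      rw [h, zero_re] at this
      linarith
    refine ContinuousAt.continuousWithinAt (ContinuousAt.clog ?_ ?_)
    · exact continuousAt_const.add (continuousAt_inv₀ hs0).neg
    · exact mem_slitPlane_of_norm_lt_one ((zfb_inv_lt hs).trans_lt (by norm_num))
  · exact continuousOn_const

theorem zfbg_le (Φ : O → ℂ) {s : ℂ} (hs : 3 / 2 < s.re) : ‖zfbg Φ s‖ ≤ 2 := by
  unfold zfbg
  split_ifs
  · exact zfb_log_le hs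
  · simp

theorem zfbg_exp (Φ : O → ℂ) {s : ℂ} (hs : 3 / 2 < s.re) :
    exp (zfbg Φ s) = pf Φ s / zfbw Φ s := by
  unfold zfbg zfbw pf
  split_ifs
  · have hs0 : s ≠ 0 := fun h => by
      rw [h, zero_re] at hs
      linarith
    rw [exp_log (slitPlane_ne_zero
      (mem_slitPlane_of_norm_lt_one ((zfb_inv_lt hs).trans_lt (by norm_num))))]
    field_simp
    ring
  · simp

/-- C3, any level, principal characters included.  `log_package` (block B) with `min b 1` (`zf_one`),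
`J = Ioo (-H) H`, `growth`, for `F = Lx Φ`, `g = LD Φ` (non-principal) or `F s = Lx Φ s / s`,
`g s = log (1 - 1/s) + LD Φ s` (principal). -/
theorem zf_bound (e ε : ℝ) (he : 0 < e) (hε : 0 < ε) : ∃ C : ℝ, 0 < C ∧
    ∀ (Q : O) (Φ : O → ℂ) (b H : ℝ) (s : ℂ), Lev Q → IsTw Q Φ → 1 / 2 ≤ b →
      (∀ ρ : ℂ, b < ρ.re → |ρ.im| ≤ H → Lx Φ ρ ≠ 0) → b + e ≤ s.re → s.re ≤ 3 → |s.im| + 4 ≤ H →
      ‖Lx Φ s‖ ≤ C * nm Q ^ ε * (2 + |s.im|) ^ 2 ∧ ‖(Lx Φ s)⁻¹‖ ≤ C * nm Q ^ ε * (2 + |s.im|) ^ 2 := by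
  obtain ⟨Cg, hCg, hg⟩ := growth (1 / 2) 5
  obtain ⟨k, hk⟩ := pow_unbounded_of_one_lt (2 * Cg) (by norm_num : (1 : ℝ) < 2)
  obtain ⟨C₀, hLD⟩ := LD_spec
  obtain ⟨C₁, hC₁, hpk⟩ := log_package he (lt_min hε one_pos) (Cg + k) (C₀ + 2)
  refine ⟨2 * Real.exp C₁, by positivity, fun Q Φ b H s hQ hΦ hb hzf hs hs3 hH => ?_⟩
  have hQ1 : 1 ≤ nm Q := one_le_nm hQ.1
  have hb' : 1 / 2 ≤ min b 1 := le_min hb (by norm_num)
  have hw0 : ∀ z : ℂ, min b 1 < z.re → zfbw Φ z ≠ 0 := fun z hz =>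
    norm_pos_iff.1 (lt_of_lt_of_le (by norm_num) (zfbw_ge Φ (hb'.trans hz.le)))
  obtain ⟨hLDc, hLDe⟩ := hLD Φ hΦ.one hΦ.mul (hΦ.norm_le hQ.1)
  obtain ⟨G, -, -, -, hG⟩ := hpk (fun z => Lx Φ z / zfbw Φ z) (fun z => LD Φ z + zfbg Φ z)
    (min b 1) (nm Q) (Set.Ioo (-H) H) (by linarith) ((min_le_right _ _).trans (by norm_num)) hQ1
    isOpen_Ioo Set.ordConnected_Ioo
    ((Lx_diff hQ hΦ).differentiableOn.div (zfbw_diff Φ).differentiableOn fun z hz => hw0 z hz.1)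
    (fun z hz hz' => by
      refine div_ne_zero ?_ (hw0 z hz)
      rcases min_lt_iff.1 hz with h | h
      · exact hzf z h (abs_lt.2 hz').le
      · exact zf_one Q Φ hQ hΦ z h)
    (fun z hz hz5 _ => by
      have h0 := abs_nonneg z.im
      have h1 := hg Q Φ z hQ hΦ (hb'.trans hz.le) hz5
      have h2 := zfbw_ge Φ (hb'.trans hz.le)
      have hX : 2 ≤ nm Q * (2 + |z.im|) := by nlinarith
      rw [norm_div, div_le_iff₀ (by linarith), Real.rpow_add (by linarith), Real.rpow_natCast,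
        Real.mul_rpow (by linarith) (by linarith)]
      have h3 : 2 * Cg ≤ (nm Q * (2 + |z.im|)) ^ k := hk.le.trans (by gcongr)
      calc ‖Lx Φ z‖ ≤ _ := h1
        _ = nm Q ^ Cg * (2 + |z.im|) ^ Cg * (2 * Cg) * (1 / 2) := by ring
        _ ≤ _ := by gcongr)
    ((hLDc.add (zfbg_cont Φ)).mono fun z hz => hz.1)
    (fun z hz _ => ⟨by
      rw [exp_add, (hLDe z hz).1, zfbg_exp Φ hz, Lx_eq hQ hΦ (by linarith)]
      ring, (norm_add_le _ _).trans (add_le_add (hLDe z hz).2 (zfbg_le Φ hz))⟩)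
  have hs' : min b 1 + e ≤ s.re := by linarith [min_le_left b 1]
  obtain ⟨-, k1, k2⟩ := hG s hs' fun y hy => by
    have := abs_le.1 (show |s.im| ≤ H - 4 by linarith)
    exact ⟨by linarith [hy.1], by linarith [hy.2]⟩
  have h0 := abs_nonneg s.im
  have hs2 : 1 / 2 ≤ s.re := by linarith
  have hw1 := zfbw_ge Φ hs2
  have hw2 := zfbw_le Φ hs2 hs3
  have hX : (nm Q * (2 + |s.im|)) ^ min ε 1 ≤ nm Q ^ ε * (2 + |s.im|) := by
    rw [Real.mul_rpow (by linarith) (by linarith)]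
    refine mul_le_mul (Real.rpow_le_rpow_of_exponent_le hQ1 (min_le_left _ _)) ?_
      (by positivity) (by positivity)
    calc _ ≤ (2 + |s.im|) ^ (1 : ℝ) :=
          Real.rpow_le_rpow_of_exponent_le (by linarith) (min_le_right _ _)
      _ = _ := Real.rpow_one _
  have hY : 0 ≤ nm Q ^ ε := by positivity
  constructor
  · rw [norm_div, div_le_iff₀ (by linarith)] at k1
    calc ‖Lx Φ s‖ ≤ _ := k1
      _ ≤ Real.exp C₁ * (nm Q ^ ε * (2 + |s.im|)) * (2 * (2 + |s.im|)) := by gcongr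
      _ = _ := by ring
  · rw [inv_div, norm_div] at k2
    have k3 : ‖(Lx Φ s)⁻¹‖ ≤ 2 * (‖zfbw Φ s‖ / ‖Lx Φ s‖) := by
      rw [norm_inv, div_eq_mul_inv, ← mul_assoc]
      exact le_mul_of_one_le_left (by positivity) (by linarith)
    calc ‖(Lx Φ s)⁻¹‖ ≤ 2 * (Real.exp C₁ * (nm Q ^ ε * (2 + |s.im|))) :=
          k3.trans (by gcongr; exact k2.trans (by gcongr))
      _ = 2 * Real.exp C₁ * nm Q ^ ε * ((2 + |s.im|) * 1) := by ring
      _ ≤ 2 * Real.exp C₁ * nm Q ^ ε * ((2 + |s.im|) * (2 + |s.im|)) := by gcongr; linarith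
      _ = _ := by ring

/-- C3 for rows (all `u ≠ 0`) -/
theorem zf_row (q : O) (e ε : ℝ) (hq : Lev q) (he : 0 < e) (hε : 0 < ε) : ∃ C : ℝ, 0 < C ∧
    ∀ (ψ : O → ℂ) (u : O) (b H : ℝ) (s : ℂ), IsTw q ψ → u ≠ 0 → 1 / 2 ≤ b → ZFH q u b H →
      b + e ≤ s.re → s.re ≤ 3 → |s.im| + 4 ≤ H →
      ‖Lx (rc ψ u) s‖ ≤ C * nm u ^ ε * (2 + |s.im|) ^ 2 ∧
        ‖(Lx (rc ψ u) s)⁻¹‖ ≤ C * nm u ^ ε * (2 + |s.im|) ^ 2 := by
  obtain ⟨C, hC, h⟩ := zf_bound e ε he hε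
  have hq0 : 0 < nm q := nm_pos hq.1
  refine ⟨C * nm q ^ ε, by positivity, fun ψ u b H s hψ hu hb hzf hs hs3 hH => ?_⟩
  have := h (q * u) (rc ψ u) b H s (hq.mul hu) (hψ.rc hq) hb
    (fun ρ h1 h2 => hzf ψ ρ hψ h1 h2) hs hs3 hH
  rwa [nm_mul, Real.mul_rpow hq0.le (nm_nonneg u), ← mul_assoc C] at this

/-- `1 / L` on the whole half plane, all rows `u ≠ 0` (`zf_row`, `Lx_right`) -/
theorem zf_inv (q : O) (e ε : ℝ) (hq : Lev q) (he : 0 < e) (hε : 0 < ε) : ∃ C : ℝ, 0 < C ∧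
    ∀ (ψ : O → ℂ) (u : O) (b H : ℝ) (s : ℂ), IsTw q ψ → u ≠ 0 → 1 / 2 ≤ b → ZFH q u b H →
      b + e ≤ s.re → |s.im| + 4 ≤ H →
      ‖pf (rc ψ u) s / Lx (rc ψ u) s‖ ≤ C * nm u ^ ε * (2 + |s.im|) ^ 3 := by
  obtain ⟨C, hC, h⟩ := zf_row q e ε hq he hε
  obtain ⟨C', hC', h'⟩ := Lx_right
  refine ⟨C + C', by positivity, fun ψ u b H s hψ hu hb hzf hs hH => ?_⟩
  have h0 := abs_nonneg s.im
  have hu1 : 1 ≤ nm u ^ ε := Real.one_le_rpow (one_le_nm hu) hε.le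
  rcases le_total s.re 3 with hs3 | hs3
  · have h1 := (h ψ u b H s hψ hu hb hzf hs hs3 hH).2
    have h2 : ‖pf (rc ψ u) s‖ ≤ 2 + |s.im| := by
      unfold pf
      split_ifs
      · have h3 := norm_le_abs_re_add_abs_im (s - 1)
        have h4 : |(s - 1).re| ≤ 2 := by
          rw [sub_re, one_re, abs_le]
          constructor <;> linarith
        rw [sub_im, one_im, sub_zero] at h3
        linarith
      · rw [norm_one]; linarith
    rw [div_eq_mul_inv, norm_mul]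
    calc _ ≤ (2 + |s.im|) * (C * nm u ^ ε * (2 + |s.im|) ^ 2) := by gcongr
      _ = C * nm u ^ ε * (2 + |s.im|) ^ 3 := by ring
      _ ≤ _ := by gcongr; linarith
  · have h1 := (h' (q * u) (rc ψ u) s (hq.mul hu) (hψ.rc hq) (by linarith)).2.1
    have h2 : 1 ≤ (2 + |s.im|) ^ 3 := one_le_pow₀ (by linarith)
    calc _ ≤ C' * 1 * 1 := by linarith
      _ ≤ _ := by gcongr; linarith

/-- C3, the reflected side (`Rad.shrink`, `fe_row`, `norm_RK_le`, `GD.norm_le`, `zf_row`) -/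
theorem zf_left (q : O) (e ε : ℝ) (hq : Lev q) (he : 0 < e) (hε : 0 < ε) : ∃ C : ℝ, 0 < C ∧
    ∀ (ψ : O → ℂ) (u r : O) (b H : ℝ) (w : ℂ), IsTw q ψ → u ≠ 0 → ¬ Exc q u → Rad u r →
      1 / 2 ≤ b → ZFH q u b H → -2 ≤ w.re → w.re ≤ 1 - b - e → |w.im| + 4 ≤ H →
      ‖Lx (rc ψ u) w‖ ≤ C * nm u ^ ε * nm r ^ (1 / 2 - w.re) * (2 + |w.im|) ^ C := by
  obtain ⟨C₁, hC₁, h₁⟩ := fe_row hq (ε / 2) (by positivity)
  obtain ⟨C₂, hC₂, h₂⟩ := zf_row q e (ε / 2) hq he (by positivity)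
  obtain ⟨C₃, hC₃, h₃⟩ := norm_RK_le (1 / 2) 3 (by norm_num)
  set K : ℝ := C₃ * ((Tw q).card * (C₁ * C₁ ^ (3 : ℝ) * C₂)) with hK
  have hK0 : 0 ≤ K := by positivity
  refine ⟨K + (C₃ + 2), by positivity, fun ψ u r b H w hψ hu hex hr hb hz hw1 hw2 hH => ?_⟩
  obtain ⟨r', hr', hr1, hr2⟩ := hr.shrink hu
  obtain ⟨B, hB, hfe⟩ := h₁ ψ u r' hψ hu hex hr'
  have hre : (1 - w).re = 1 - w.re := by simp
  have him : |(1 - w).im| = |w.im| := by simp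
  have hp := nm_pos hr'.1
  have hpu := nm_pos hu
  have hy : 1 ≤ 2 + |w.im| := by linarith [abs_nonneg w.im]
  have h4 := hfe (1 - w) (by rw [hre]; linarith)
  rw [sub_sub_cancel] at h4
  have h5 : ∀ χ ∈ Tw q, ‖B χ (1 - w) * conj (Lx (rc χ u) (conj (1 - w)))‖ ≤
      C₁ * C₁ ^ (3 : ℝ) * C₂ * (nm u ^ ε * nm r ^ (1 / 2 - w.re) * (2 + |w.im|) ^ (2 : ℝ)) := by
    intro χ hχ
    have a1 := (hB χ).norm_le (s := 1 - w) (by rw [hre]; linarith)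
    have a2 := (h₂ χ u b H (conj (1 - w)) ((mem_Tw hq.1).1 hχ) hu hb hz
      (by rw [conj_re, hre]; linarith) (by rw [conj_re, hre]; linarith)
      (by rw [conj_im, abs_neg, him]; exact hH)).1
    rw [conj_im, abs_neg, him, ← Real.rpow_two] at a2
    rw [hre, Real.inv_rpow (by positivity), ← Real.rpow_neg (by positivity),
      show -(1 / 2 - (1 - w.re)) = 1 / 2 - w.re by ring,
      Real.mul_rpow (by positivity) hp.le] at a1
    have a3 : C₁ * nm r' ^ (ε / 2) * (C₁ ^ (1 / 2 - w.re) * nm r' ^ (1 / 2 - w.re)) ≤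
        C₁ * nm u ^ (ε / 2) * (C₁ ^ (3 : ℝ) * nm r ^ (1 / 2 - w.re)) := by
      have : 0 ≤ 1 / 2 - w.re := by linarith
      gcongr
      linarith
    have a4 : nm u ^ ε = nm u ^ (ε / 2) * nm u ^ (ε / 2) := by
      rw [← Real.rpow_add hpu, add_halves]
    rw [norm_mul, RCLike.norm_conj, a4]
    refine (mul_le_mul (a1.trans a3) a2 (norm_nonneg _)
      ((norm_nonneg _).trans (a1.trans a3))).trans_eq (by ring)
  have h6 := h₃ (1 - w) (by rw [hre]; linarith) (by rw [hre]; linarith)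
  rw [him] at h6
  have h7 := (norm_sum_le _ _).trans (Finset.sum_le_card_nsmul _ _ _ h5)
  rw [nsmul_eq_mul] at h7
  have hpr := nm_pos hr.1
  rw [h4, norm_mul]
  calc _ ≤ _ := mul_le_mul h6 h7 (norm_nonneg _) (by positivity)
    _ = K * nm u ^ ε * nm r ^ (1 / 2 - w.re) * (2 + |w.im|) ^ (C₃ + 2) := by
      rw [hK, Real.rpow_add (by linarith)]; ring
    _ ≤ _ := mul_le_mul (by gcongr; linarith)
      (Real.rpow_le_rpow_of_exponent_le hy (by linarith)) (by positivity) (by positivity)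

/-- the same for the conjugate row (`rc_pow_five`, `Lx_conj`) -/
theorem zf_left_five (q : O) (e ε : ℝ) (hq : Lev q) (he : 0 < e) (hε : 0 < ε) : ∃ C : ℝ, 0 < C ∧
    ∀ (ψ : O → ℂ) (u r : O) (b H : ℝ) (w : ℂ), IsTw q ψ → u ≠ 0 → ¬ Exc q u → Rad u r →
      1 / 2 ≤ b → ZFH q u b H → -2 ≤ w.re → w.re ≤ 1 - b - e → |w.im| + 4 ≤ H →
      ‖Lx (rc ψ (u ^ 5)) w‖ ≤ C * nm u ^ ε * nm r ^ (1 / 2 - w.re) * (2 + |w.im|) ^ C := by
  obtain ⟨C, hC, h⟩ := zf_left q e ε hq he hε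
  refine ⟨C, hC, fun ψ u r b H w hψ hu hex hr hb hz hw1 hw2 hH => ?_⟩
  have := h _ u r b H (conj w) hψ.conj hu hex hr hb hz (by simpa using hw1) (by simpa using hw2)
    (by simpa using hH)
  rw [conj_re, conj_im, abs_neg] at this
  rwa [rc_pow_five, Lx_conj, RCLike.norm_conj]

/-- continuation of the prime series: `F = G - R`, `G` from `log_package`, `R` from `LD_sub_PD` -/
theorem exists_PD (e ε : ℝ) (he : 0 < e) (hε : 0 < ε) : ∃ C : ℝ, 0 < C ∧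
    ∀ (Q : O) (Φ : O → ℂ) (b H : ℝ), Lev Q → IsTw Q Φ → ¬ Princ Φ → 1 / 2 ≤ b → b ≤ 1 →
      (∀ ρ : ℂ, b < ρ.re → |ρ.im| ≤ H → Lx Φ ρ ≠ 0) → ∃ F : ℂ → ℂ,
      DifferentiableOn ℂ F {s | b < s.re ∧ |s.im| < H} ∧
      (∀ s : ℂ, 3 / 2 < s.re → |s.im| < H → F s = PD Φ s) ∧
      ∀ s : ℂ, b + e ≤ s.re → |s.im| + 4 ≤ H → ‖F s‖ ≤ C * nm Q ^ ε * (2 + |s.im|) := by
  obtain ⟨C₀, hLD⟩ := LD_spec
  obtain ⟨C₃, hC₃, hR⟩ := LD_sub_PD e he
  obtain ⟨C₁, hC₁, hg⟩ := growth (1 / 2) 5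
  obtain ⟨n, hn⟩ := pow_unbounded_of_one_lt C₁ (one_lt_two : (1 : ℝ) < 2)
  obtain ⟨C₂, hC₂, hP⟩ := log_package he one_pos (C₁ + n) C₀
  refine ⟨1 / ε + 1 + C₂ + C₃, by positivity, fun Q Φ b H hQ hΦ hp hb hb' hz => ?_⟩
  have hQ1 := one_le_nm hQ.1
  have hbd := hΦ.norm_le hQ.1
  obtain ⟨hc, hL⟩ := hLD Φ hΦ.one hΦ.mul hbd
  obtain ⟨R, hRd, hRe, hRb⟩ := hR Φ hbd
  obtain ⟨G, hGd, -, hGe, hGb⟩ := hP (Lx Φ) (LD Φ) b (nm Q) (Set.Ioo (-H) H) (by linarith)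
    (by linarith) hQ1 isOpen_Ioo Set.ordConnected_Ioo (Lx_diff hQ hΦ).differentiableOn
    (fun s h1 h2 => hz s h1 (abs_lt.2 h2).le)
    (fun s h1 h2 _ => by
      have ht : (2 : ℝ) ≤ 2 + |s.im| := by linarith [abs_nonneg s.im]
      have h2Q : (2 : ℝ) ≤ nm Q * (2 + |s.im|) := by nlinarith
      refine (hg Q Φ s hQ hΦ (by linarith) h2).trans ?_
      rw [Real.rpow_add (by linarith), Real.rpow_natCast,
        Real.mul_rpow (by linarith) (by linarith), mul_assoc, mul_comm C₁]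
      exact mul_le_mul_of_nonneg_left (hn.le.trans (pow_le_pow_left₀ (by norm_num) h2Q n))
        (by positivity))
    (hc.mono fun s hs => hs.1)
    (fun s h1 _ => by
      rw [Lx_eq_DS hQ hΦ hp (by linarith)]
      exact hL s h1)
  refine ⟨fun s => G s - R s, ?_, fun s h1 h2 => ?_, fun s h1 h2 => ?_⟩
  · exact (hGd.mono fun s hs => ⟨hs.1, abs_lt.1 hs.2⟩).sub
      (hRd.mono fun s hs => lt_of_le_of_lt hb hs.1)
  · simp only
    rw [hGe s h1 (abs_lt.1 h2), hRe s (by linarith)]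
  · have ht : (2 : ℝ) ≤ 2 + |s.im| := by linarith [abs_nonneg s.im]
    have h3 := (hGb s h1 fun y hy => ⟨by linarith [hy.1, neg_abs_le s.im],
      by linarith [hy.2, le_abs_self s.im]⟩).1
    have h4 := hRb s (by linarith)
    have h5 : 1 ≤ nm Q ^ ε := Real.one_le_rpow hQ1 hε.le
    have h6 : Real.log (nm Q) ≤ nm Q ^ ε / ε := Real.log_le_rpow_div (by linarith) hε
    have h7 : Real.log (2 + |s.im|) ≤ 2 + |s.im| :=
      (Real.log_le_sub_one_of_pos (by linarith)).trans (by linarith)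
    rw [one_mul, Real.log_mul (by linarith) (by linarith)] at h3
    have h8 : 1 ≤ nm Q ^ ε * (2 + |s.im|) := by nlinarith
    have h9 : nm Q ^ ε / ε ≤ 1 / ε * (nm Q ^ ε * (2 + |s.im|)) := by
      rw [div_eq_inv_mul, one_div]
      exact mul_le_mul_of_nonneg_left (by nlinarith) (by positivity)
    have h10 : 2 + |s.im| ≤ nm Q ^ ε * (2 + |s.im|) := by nlinarith
    refine (norm_sub_le _ _).trans ?_
    nlinarith [mul_le_mul_of_nonneg_left h8 hC₂.le, mul_le_mul_of_nonneg_left h8 hC₃.le]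

end Crest.Agent.R17.C
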