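import Crest.Agent.R17.C.Smooth
import Crest.Agent.R17.C.ZFree

/-! Row 17, block C (owner helper6): C5, pointwise bounds from a zero-free rectangle.
Under `ZF β` use `zfh_of_zf` with any `H`.

Common recipe: for `Y ≤ 1`, for `b + e ≥ 1` and for `log Z ≤ 4` the trivial bound `norm_sum_le`;
otherwise `trunc` with `T = log Z` (then `|Im s| + 4 ≤ H` on the rectangle), `height_le`,
`exp_neg_log_sq_le`. -/

set_option autoImplicit false

namespace Crest.Agent.R17.C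

open scoped ComplexConjugate
open Complex MeasureTheory

theorem pa_height {Z t y H : ℝ} (h4 : 4 ≤ Real.log Z) (hH : |t| + Real.log Z ^ 2 / 2 ≤ H)
    (hy : |y + t| ≤ Real.log Z) : |y| + 4 ≤ H := by
  have h1 : |y| ≤ |y + t| + |t| := by
    have := abs_sub (y + t) t
    rwa [add_sub_cancel_right] at this
  nlinarith

theorem pa_small {Z : ℝ} (hZ : 1 ≤ Z) (h4 : Real.log Z ≤ 4) : Z ≤ Real.exp 4 := by
  rw [← Real.exp_log (show 0 < Z by linarith)]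
  exact Real.exp_le_exp.2 h4

/-- the common core: `F` continues `DS c` from `Re s = 2` to `Re s ≥ b + e` with a small bound -/
theorem point_core (a e ε A : ℝ) (ha : 0 < a) (he : 0 < e) (hε : 0 < ε) (hA : 0 ≤ A) :
    ∃ C : ℝ, 0 < C ∧ ∀ (c : O → ℂ) (F : ℂ → ℂ) (Z Y t b H M : ℝ), (∀ n : Pr, ‖c n‖ ≤ 1) → 1 ≤ Z →
      0 < Y → Y ≤ Z ^ 3 → 1 / 2 ≤ b → b ≤ 1 → |t| + Real.log Z ^ 2 / 2 ≤ H → 1 ≤ M →
      DifferentiableOn ℂ F {s | b < s.re ∧ |s.im| < H} →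
      (∀ s : ℂ, s.re = 2 → |s.im| < H → F s = DS c s) →
      (∀ s : ℂ, b + e ≤ s.re → s.re ≤ 2 → |s.im| + 4 ≤ H → ‖F s‖ ≤ M * (2 + |s.im|) ^ A) →
      ‖PS c a Y t‖ ≤ C * M * Z ^ ε * (1 + |t|) ^ A * Y ^ (b + e) := by
  obtain ⟨C1, hC1, h1⟩ := norm_sum_le a (1 + e) ha (by linarith)
  obtain ⟨C2, hC2, h2⟩ := norm_sum_le a 1 ha le_rfl
  obtain ⟨C3, hC3, h3⟩ := trunc a 0 2 ha (by norm_num)
  obtain ⟨C4, hC4, h4⟩ := height_le A ε hA hε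
  obtain ⟨C5, hC5, h5⟩ := exp_neg_log_sq_le (c := a ^ 2 / 8) (by positivity) 6
  have hE : 1 ≤ Real.exp 4 ^ 3 := one_le_pow₀ (Real.one_le_exp (by norm_num))
  refine ⟨C1 + C2 * Real.exp 4 ^ 3 + C3 * (C4 + 2 * C5 * (C4 + 1)), by positivity, ?_⟩
  intro c F Z Y t b H M hc hZ hY hYZ hb hb1 hH hM hF hF2 hFb
  obtain ⟨W, hW⟩ : ∃ W, W = M * Z ^ ε * (1 + |t|) ^ A := ⟨_, rfl⟩
  have hW1 : 1 ≤ W := by
    rw [hW]
    exact one_le_mul_of_one_le_of_one_le (one_le_mul_of_one_le_of_one_le hM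
      (Real.one_le_rpow hZ hε.le)) (Real.one_le_rpow (by linarith [abs_nonneg t]) hA)
  have hP : 0 < Y ^ (b + e) := Real.rpow_pos_of_pos hY _
  have key : ∀ K : ℝ, 0 ≤ K → K ≤ C1 + C2 * Real.exp 4 ^ 3 + C3 * (C4 + 2 * C5 * (C4 + 1)) →
      ‖PS c a Y t‖ ≤ K * (W * Y ^ (b + e)) →
      ‖PS c a Y t‖ ≤ (C1 + C2 * Real.exp 4 ^ 3 + C3 * (C4 + 2 * C5 * (C4 + 1))) * M * Z ^ ε *
        (1 + |t|) ^ A * Y ^ (b + e) := fun K _ hK h => by
    refine h.trans ((mul_le_mul_of_nonneg_right hK (by positivity)).trans (le_of_eq ?_))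
    rw [hW]; ring
  have hWP : Y ^ (b + e) ≤ W * Y ^ (b + e) := le_mul_of_one_le_left hP.le hW1
  have p1 : 0 ≤ C2 * Real.exp 4 ^ 3 := by positivity
  have p2 : 0 ≤ C3 * (C4 + 2 * C5 * (C4 + 1)) := by positivity
  rcases le_total Y 1 with hY1 | hY1
  · refine key C1 hC1.le (by linarith) ((h1 c Y t hc hY).trans ?_)
    exact mul_le_mul_of_nonneg_left
      ((Real.rpow_le_rpow_of_exponent_ge hY hY1 (by linarith)).trans hWP) hC1.le
  have hP1 : 1 ≤ Y ^ (b + e) := Real.one_le_rpow hY1 (by linarith)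
  rcases le_total 1 (b + e) with hbe | hbe
  · refine key C2 hC2.le (by nlinarith) ((h2 c Y t hc hY).trans ?_)
    exact mul_le_mul_of_nonneg_left
      ((Real.rpow_le_rpow_of_exponent_le hY1 hbe).trans hWP) hC2.le
  rcases le_total (Real.log Z) 4 with hl | hl
  · refine key (C2 * Real.exp 4 ^ 3) p1 (by linarith) ((h2 c Y t hc hY).trans ?_)
    rw [Real.rpow_one, mul_assoc]
    refine mul_le_mul_of_nonneg_left ?_ hC2.le
    have h6 : Z ^ 3 ≤ Real.exp 4 ^ 3 := pow_le_pow_left₀ (by linarith) (pa_small hZ hl) 3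
    exact (hYZ.trans h6).trans (le_mul_of_one_le_right (by positivity) (hP1.trans hWP))
  have hbd : ∀ s : ℂ, b + e ≤ s.re → s.re ≤ 2 → |s.im + t| ≤ Real.log Z → ‖F s‖ ≤ C4 * W :=
    fun s s1 s2 s3 => by
      refine (hFb s s1 s2 (pa_height hl hH s3)).trans ?_
      refine (mul_le_mul_of_nonneg_left (h4 Z t s.im hZ s3) (by linarith)).trans (le_of_eq ?_)
      rw [hW]; ring
  have h7 := h3 c F (b + e) Y t (Real.log Z) (C4 * W) (C4 * W) hc hY (by linarith) (by linarith)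
    (by linarith) (hF.mono fun s hs => by
      obtain ⟨s1, -, s3⟩ := hs
      rw [sub_neg_eq_add] at s3
      exact ⟨by linarith, by linarith [pa_height hl hH s3]⟩)
    (fun s s1 s3 => hF2 s s1 (by linarith [pa_height hl hH s3]))
    (fun s s1 s3 => hbd s s1.ge (by linarith) s3) (fun s s1 s2 s3 => hbd s s1 s2 s3.le)
  refine key _ p2 (by linarith) (h7.trans ?_)
  rw [mul_assoc C3]
  refine mul_le_mul_of_nonneg_left ?_ hC3.le
  have hZ0 : 0 < Z := by linarith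
  have h8 := h5 Z hZ0
  have h9 : Y ^ (2 : ℝ) * Z ^ (-6 : ℝ) ≤ 1 := by
    have e1 : Y ^ (2 : ℝ) ≤ Z ^ (6 : ℝ) := by
      have : Y ^ 2 ≤ (Z ^ 3) ^ 2 := pow_le_pow_left₀ hY.le hYZ 2
      rw [← pow_mul] at this
      exact_mod_cast this
    rw [Real.rpow_neg hZ0.le, ← div_eq_mul_inv, div_le_one (by positivity)]
    exact e1
  have h10 : Z ^ (-6 : ℝ) ≤ 1 := Real.rpow_le_one_of_one_le_of_nonpos hZ (by norm_num)
  have h11 : (Y ^ (b + e) + Y ^ (2 : ℝ)) * Real.exp (-(a ^ 2 / 8) * Real.log Z ^ 2) ≤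
      2 * C5 * Y ^ (b + e) := by
    refine (mul_le_mul_of_nonneg_left h8 (by positivity)).trans ?_
    have e2 : Y ^ (b + e) * Z ^ (-6 : ℝ) ≤ Y ^ (b + e) := mul_le_of_le_one_right hP.le h10
    have e3 : (Y ^ (b + e) + Y ^ (2 : ℝ)) * (C5 * Z ^ (-6 : ℝ)) =
        C5 * (Y ^ (b + e) * Z ^ (-6 : ℝ) + Y ^ (2 : ℝ) * Z ^ (-6 : ℝ)) := by ring
    rw [e3, mul_comm 2 C5, mul_assoc]
    exact mul_le_mul_of_nonneg_left (by linarith) hC5.le
  have h12 : C4 * W + 1 ≤ (C4 + 1) * W := by linarith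
  have h13 := mul_le_mul h12 h11 (by positivity) (by positivity)
  rw [mul_assoc (C4 * W + 1)]
  refine (add_le_add le_rfl h13).trans (le_of_eq ?_)
  ring

/-- `point_core` with the bound `K Z^(ε/2) (2 + |Im s|)^2` -/
private theorem ptb_wrap (a e ε K : ℝ) (ha : 0 < a) (he : 0 < e) (hε : 0 < ε) (hK : 0 < K) :
    ∃ C : ℝ, 0 < C ∧ ∀ (c : O → ℂ) (F : ℂ → ℂ) (Z Y t b H : ℝ), (∀ n : Pr, ‖c n‖ ≤ 1) → 1 ≤ Z →
      0 < Y → Y ≤ Z ^ 3 → 1 / 2 ≤ b → b ≤ 1 → |t| + Real.log Z ^ 2 / 2 ≤ H →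
      DifferentiableOn ℂ F {s | b < s.re ∧ |s.im| < H} →
      (∀ s : ℂ, s.re = 2 → |s.im| < H → F s = DS c s) →
      (∀ s : ℂ, b + e ≤ s.re → s.re ≤ 2 → |s.im| + 4 ≤ H →
        ‖F s‖ ≤ K * Z ^ (ε / 2) * (2 + |s.im|) ^ 2) →
      ‖PS c a Y t‖ ≤ C * Z ^ ε * (1 + |t|) ^ C * Y ^ (b + e) := by
  obtain ⟨C, hC, h⟩ := point_core a e (ε / 2) 2 ha he (by positivity) (by norm_num)
  refine ⟨C * (K + 1) + 2, by positivity, fun c F Z Y t b H hc hZ hY hYZ hb hb' hH hd hF hB => ?_⟩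
  have hZ0 : 0 < Z := by linarith
  have h1 : 1 ≤ Z ^ (ε / 2) := Real.one_le_rpow hZ (by positivity)
  have h2 := h c F Z Y t b H ((K + 1) * Z ^ (ε / 2)) hc hZ hY hYZ hb hb' hH (by nlinarith) hd hF
    fun s h3 h4 h5 => (hB s h3 h4 h5).trans (by
      rw [Real.rpow_two]
      gcongr
      linarith)
  refine h2.trans ?_
  have e1 : Z ^ ε = Z ^ (ε / 2) * Z ^ (ε / 2) := by rw [← Real.rpow_add hZ0]; congr 1; ring
  have h3 : (1 + |t|) ^ (2 : ℝ) ≤ (1 + |t|) ^ (C * (K + 1) + 2) :=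
    Real.rpow_le_rpow_of_exponent_le (by linarith [abs_nonneg t]) (by nlinarith)
  calc C * ((K + 1) * Z ^ (ε / 2)) * Z ^ (ε / 2) * (1 + |t|) ^ (2 : ℝ) * Y ^ (b + e)
      = C * (K + 1) * Z ^ ε * (1 + |t|) ^ (2 : ℝ) * Y ^ (b + e) := by rw [e1]; ring
    _ ≤ (C * (K + 1) + 2) * Z ^ ε * (1 + |t|) ^ (C * (K + 1) + 2) * Y ^ (b + e) := by
      gcongr
      linarith

/-- `point_core` with `c = mu · rc ψ u`, `F = (Lx)⁻¹` (`DS_mul_DS_mu`, `zf_row`) -/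
theorem MS_le (q : O) (a e ε : ℝ) (hq : Lev q) (ha : 0 < a) (he : 0 < e) (hε : 0 < ε) :
    ∃ C : ℝ, 0 < C ∧ ∀ (ψ : O → ℂ) (u : O) (Z Y t b H : ℝ), IsTw q ψ → u ≠ 0 → ¬ Exc q u →
      nm u ≤ Z → 0 < Y → Y ≤ Z ^ 3 → 1 / 2 ≤ b → b ≤ 1 → |t| + Real.log Z ^ 2 / 2 ≤ H →
      ZFH q u b H →
      ‖MS (rc ψ u) a Y t‖ ≤ C * Z ^ ε * (1 + |t|) ^ C * Y ^ (b + e) := by
  obtain ⟨K, hK, hz⟩ := zf_row q e (ε / 2) hq he (by positivity)
  obtain ⟨C, hC, h⟩ := ptb_wrap a e ε K ha he hε hK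
  refine ⟨C, hC, fun ψ u Z Y t b H hψ hu hE hZ hY hYZ hb hb' hH hzf => ?_⟩
  obtain ⟨hd, hL⟩ := Lx_rc_spec hq hψ hu hE
  refine h (fun n => mu n * rc ψ u n) (fun s => (Lx (rc ψ u) s)⁻¹) Z Y t b H (fun n => ?_)
    ((one_le_nm hu).trans hZ) hY hYZ hb hb' hH ?_ (fun s h1 _ => ?_) fun s h1 h2 h3 => ?_
  · rw [norm_mul]
    exact mul_le_one₀ (norm_mu_le _) (norm_nonneg _) (norm_rc_le hq hψ hu _)
  · exact hd.differentiableOn.inv fun s hs => hzf ψ s hψ hs.1 hs.2.le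
  · have h2 : 1 < s.re := by rw [h1]; norm_num
    show (Lx (rc ψ u) s)⁻¹ = _
    rw [hL s h2]
    exact inv_eq_of_mul_eq_one_right (DS_mul_DS_mu (hψ.rc hq).one (fun a b => (hψ.rc hq).mul a b)
      (fun n => norm_rc_le hq hψ hu n) h2)
  · refine (hz ψ u b H s hψ hu hb hzf h1 (by linarith) h3).2.trans ?_
    have := nm_nonneg u
    gcongr

theorem PS_le (q : O) (a e ε : ℝ) (hq : Lev q) (ha : 0 < a) (he : 0 < e) (hε : 0 < ε) :
    ∃ C : ℝ, 0 < C ∧ ∀ (ψ : O → ℂ) (u : O) (Z Y t b H : ℝ), IsTw q ψ → u ≠ 0 → ¬ Exc q u →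
      nm u ≤ Z → 0 < Y → Y ≤ Z ^ 3 → 1 / 2 ≤ b → b ≤ 1 → |t| + Real.log Z ^ 2 / 2 ≤ H →
      ZFH q u b H →
      ‖PS (rc ψ u) a Y t‖ ≤ C * Z ^ ε * (1 + |t|) ^ C * Y ^ (b + e) := by
  obtain ⟨K, hK, hz⟩ := zf_row q e (ε / 2) hq he (by positivity)
  obtain ⟨C, hC, h⟩ := ptb_wrap a e ε K ha he hε hK
  refine ⟨C, hC, fun ψ u Z Y t b H hψ hu hE hZ hY hYZ hb hb' hH hzf => ?_⟩
  obtain ⟨hd, hL⟩ := Lx_rc_spec hq hψ hu hE
  refine h (rc ψ u) (Lx (rc ψ u)) Z Y t b H (fun n => norm_rc_le hq hψ hu n)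
    ((one_le_nm hu).trans hZ) hY hYZ hb hb' hH hd.differentiableOn
    (fun s h1 _ => hL s (by rw [h1]; norm_num)) fun s h1 h2 h3 => ?_
  refine (hz ψ u b H s hψ hu hb hzf h1 (by linarith) h3).1.trans ?_
  have := nm_nonneg u
  gcongr

open Classical in
private theorem ptb_PD (Φ : O → ℂ) (s : ℂ) : PD Φ s = DS (fun n => if Prime n then Φ n else 0) s := by
  rw [DS, tsum_Pr_eq fun n => (if Prime n then Φ n else 0) * (nm n : ℂ) ^ (-s), PD]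
  refine (tsum_subtype {p : O | Prime p ∧ Prim p} fun p => Φ p * (nm p : ℂ) ^ (-s)).trans
    (tsum_congr fun n => ?_)
  rw [Set.indicator_apply]
  by_cases h1 : Prime n <;> by_cases h2 : Prim n <;> simp [h1, h2]

/-- `point_core` with `c = 1_prime · rc ψ u` (so `DS c = PD`), `F` from `exists_PD` -/
theorem PP_le (q : O) (a e ε : ℝ) (hq : Lev q) (ha : 0 < a) (he : 0 < e) (hε : 0 < ε) :
    ∃ C : ℝ, 0 < C ∧ ∀ (ψ : O → ℂ) (u : O) (Z Y t b H : ℝ), IsTw q ψ → u ≠ 0 → ¬ Exc q u →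
      nm u ≤ Z → 0 < Y → Y ≤ Z ^ 3 → 1 / 2 ≤ b → b ≤ 1 → |t| + Real.log Z ^ 2 / 2 ≤ H →
      ZFH q u b H →
      ‖PP (rc ψ u) a Y t‖ ≤ C * Z ^ ε * (1 + |t|) ^ C * Y ^ (b + e) := by
  classical
  obtain ⟨K, hK, hz⟩ := exists_PD e (ε / 2) he (by positivity)
  have hq0 := nm_pos hq.1
  obtain ⟨C, hC, h⟩ := ptb_wrap a e ε (K * nm q ^ (ε / 2)) ha he hε (by positivity)
  refine ⟨C, hC, fun ψ u Z Y t b H hψ hu hE hZ hY hYZ hb hb' hH hzf => ?_⟩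
  obtain ⟨F, hd, hF, hB⟩ := hz (q * u) (rc ψ u) b H (hq.mul hu) (hψ.rc hq) (not_princ_rc hq hψ hu hE) hb hb'
    fun ρ h1 h2 => hzf ψ ρ hψ h1 h2
  have e1 : PP (rc ψ u) a Y t = PS (fun n => if Prime n then rc ψ u n else 0) a Y t := by
    simp only [PP, PS, ite_mul, zero_mul]
  rw [e1]
  refine h _ F Z Y t b H (fun n => ?_) ((one_le_nm hu).trans hZ) hY hYZ hb hb' hH hd
    (fun s h1 h2 => ?_) fun s h1 _ h3 => ?_
  · split_ifs
    · exact norm_rc_le hq hψ hu _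
    · simp
  · rw [hF s (by rw [h1]; norm_num) h2, ptb_PD]
  · refine (hB s h1 h3).trans ?_
    have h4 := nm_nonneg u
    have h5 := abs_nonneg s.im
    have h6 : 0 ≤ Z := h4.trans hZ
    rw [nm_mul, Real.mul_rpow hq0.le h4, ← mul_assoc]
    gcongr
    nlinarith

/-- ALL `Y > 0`.  `Y ≥ U`: `PS_left` with `σ = 1`, `r = u`.  `1 ≤ Y ≤ U`: `trunc` with `σ₁ = 1 - b - e`,
`σ₂ = 2`, `zf_left` on the left edge, `growth_row` on the horizontal edges. -/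
theorem PS_le' (q : O) (a e ε : ℝ) (hq : Lev q) (ha : 0 < a) (he : 0 < e) (he1 : e ≤ 1)
    (hε : 0 < ε) :
    ∃ C : ℝ, 0 < C ∧ ∀ (ψ : O → ℂ) (u : O) (Z U Y t b H : ℝ), IsTw q ψ → u ≠ 0 → ¬ Exc q u →
      nm u ≤ U → U ≤ Z → 0 < Y → 1 / 2 ≤ b → b ≤ 1 → |t| + Real.log Z ^ 2 / 2 ≤ H →
      ZFH q u b H →
      ‖PS (rc ψ u) a Y t‖ ≤ C * Z ^ ε * (1 + |t|) ^ C * (Y ^ (1 - b - e) * U ^ (b + e - 1 / 2)) := by
  obtain ⟨C1, hC1, h1⟩ := norm_sum_le a 1 ha le_rfl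
  obtain ⟨C2, hC2, h2⟩ := PS_left q a 1 ε hq ha one_pos hε
  obtain ⟨C3, hC3, h3⟩ := trunc a (-1) 2 ha (by norm_num)
  obtain ⟨C4, hC4, h4⟩ := zf_left q e (ε / 2) hq he (half_pos hε)
  obtain ⟨C5, hC5, h5⟩ := growth_row q (-1) 2 hq
  obtain ⟨C6, hC6, h6⟩ := height_le C4 (ε / 2) hC4.le (half_pos hε)
  obtain ⟨C7, hC7, h7⟩ := height_le C5 1 hC5.le one_pos
  obtain ⟨C8, hC8, h8⟩ := exp_neg_log_sq_le (c := a ^ 2 / 8) (by positivity) (C5 + 4)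
  have hE : 1 ≤ Real.exp 4 ^ 2 := one_le_pow₀ (Real.one_le_exp (by norm_num))
  obtain ⟨C, hC⟩ : ∃ C, C = C1 * Real.exp 4 ^ 2 + C2 + C4 + C5 +
    C3 * (C4 * C6 + 2 * C8 * (C5 * C7 + 1)) := ⟨_, rfl⟩
  have p1 : 0 < C1 * Real.exp 4 ^ 2 := by positivity
  have p2 : 0 < C3 * (C4 * C6 + 2 * C8 * (C5 * C7 + 1)) := by positivity
  have hC0 : 0 < C := by rw [hC]; positivity
  refine ⟨C, hC0, ?_⟩
  intro ψ u Z U Y t b H hψ hu hx huU hUZ hY hb hb1 hH hz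
  have hu1 := one_le_nm hu
  have hU : 1 ≤ U := hu1.trans huU
  have hZ : 1 ≤ Z := hU.trans hUZ
  have hZ0 : 0 < Z := by linarith
  have ht : 1 ≤ 1 + |t| := by linarith [abs_nonneg t]
  have hc : ∀ n : Pr, ‖rc ψ u n‖ ≤ 1 := fun n => norm_rc_le hq hψ hu n
  have hP : 0 < Y ^ (1 - b - e) := Real.rpow_pos_of_pos hY _
  have hQ : 1 ≤ U ^ (b + e - 1 / 2) := Real.one_le_rpow hU (by linarith)
  have hZε : 1 ≤ Z ^ ε := Real.one_le_rpow hZ hε.le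
  have htC : ∀ A, A ≤ C → (1 + |t|) ^ A ≤ (1 + |t|) ^ C := fun A hA =>
    Real.rpow_le_rpow_of_exponent_le ht hA
  have ht1 : 1 ≤ (1 + |t|) ^ C := Real.one_le_rpow ht hC0.le
  obtain ⟨W, hW⟩ : ∃ W, W = Z ^ ε * (1 + |t|) ^ C * U ^ (b + e - 1 / 2) := ⟨_, rfl⟩
  have hW0 : (1 + |t|) ^ C ≤ W := by
    rw [hW]
    exact (le_mul_of_one_le_left (by positivity) hZε).trans
      (le_mul_of_one_le_right (by positivity) hQ)
  have hW1 : 1 ≤ W := ht1.trans hW0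
  have key : ∀ K : ℝ, K ≤ C → ‖PS (rc ψ u) a Y t‖ ≤ K * (W * Y ^ (1 - b - e)) →
      ‖PS (rc ψ u) a Y t‖ ≤
        C * Z ^ ε * (1 + |t|) ^ C * (Y ^ (1 - b - e) * U ^ (b + e - 1 / 2)) := fun K hK h => by
    refine h.trans ((mul_le_mul_of_nonneg_right hK (by positivity)).trans (le_of_eq ?_))
    rw [hW]; ring
  have hWP : Y ^ (1 - b - e) ≤ W * Y ^ (1 - b - e) := le_mul_of_one_le_left hP.le hW1
  rcases le_total Y 1 with hY1 | hY1
  · refine key C1 (by nlinarith) ((h1 _ Y t hc hY).trans ?_)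
    exact mul_le_mul_of_nonneg_left
      ((Real.rpow_le_rpow_of_exponent_ge hY hY1 (by linarith)).trans hWP) hC1.le
  rcases le_total U Y with hUY | hUY
  · refine key C2 (by linarith) ((h2 ψ u u Y t hψ hu hx (Rad.self hu) hY).trans ?_)
    have e1 : nm u ^ (1 / 2 + 1 + ε) ≤ Z ^ ε * (U ^ (b + e - 1 / 2) * Y ^ (2 - b - e)) := by
      have e2 : nm u ^ (1 / 2 + 1 + ε) = nm u ^ ε * (nm u ^ (b + e - 1 / 2) * nm u ^ (2 - b - e)) := by
        rw [← Real.rpow_add (by linarith), ← Real.rpow_add (by linarith)]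
        congr 1
        ring
      rw [e2]
      have : (0 : ℝ) ≤ nm u := by linarith
      gcongr
      · exact huU.trans hUZ
      · linarith
      · linarith
      · exact huU.trans hUY
    have e3 : Y ^ (1 - b - e) = Y ^ (2 - b - e) * Y ^ (-1 : ℝ) := by
      rw [← Real.rpow_add hY]
      congr 1
      ring
    have e4 := htC C2 (by linarith)
    calc C2 * (1 + |t|) ^ C2 * nm u ^ (1 / 2 + 1 + ε) * Y ^ (-1 : ℝ)
        ≤ C2 * (1 + |t|) ^ C * (Z ^ ε * (U ^ (b + e - 1 / 2) * Y ^ (2 - b - e))) * Y ^ (-1 : ℝ) := by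
          gcongr
      _ = C2 * (W * Y ^ (1 - b - e)) := by rw [hW, e3]; ring
  have hYZ : Y ≤ Z := hUY.trans hUZ
  rcases le_total (Real.log Z) 4 with hl | hl
  · refine key (C1 * Real.exp 4 ^ 2) (by linarith) ((h1 _ Y t hc hY).trans ?_)
    rw [mul_assoc]
    refine mul_le_mul_of_nonneg_left ?_ hC1.le
    have e1 : Y ^ (1 : ℝ) = Y ^ (b + e) * Y ^ (1 - b - e) := by
      rw [← Real.rpow_add hY]
      congr 1
      ring
    have e2 : Y ^ (b + e) ≤ Real.exp 4 ^ 2 := by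
      refine (Real.rpow_le_rpow_of_exponent_le hY1 (show b + e ≤ 2 by linarith)).trans ?_
      rw [Real.rpow_two]
      exact pow_le_pow_left₀ hY.le (hYZ.trans (pa_small hZ hl)) 2
    rw [e1]
    exact mul_le_mul e2 hWP hP.le (by positivity)
  have hL := Lx_rc_spec hq hψ hu hx
  have h9 := h3 (rc ψ u) (Lx (rc ψ u)) (1 - b - e) Y t (Real.log Z) (C4 * C6 * W)
    (C5 * C7 * (Z ^ (C5 + 1) * W)) hc hY (by linarith) (by linarith) (by linarith)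
    hL.1.differentiableOn (fun s s1 _ => hL.2 s (by rw [s1]; norm_num))
    (fun s s1 s3 => by
      refine (h4 ψ u u b H s hψ hu hx (Rad.self hu) hb hz (by linarith) s1.le
        (pa_height hl hH s3)).trans ?_
      have e1 : 1 / 2 - s.re = b + e - 1 / 2 := by rw [s1]; ring
      have e2 : Z ^ ε = Z ^ (ε / 2) * Z ^ (ε / 2) := by rw [← Real.rpow_add hZ0, add_halves]
      have e3 := h6 Z t s.im hZ s3
      have e4 := htC C4 (by linarith)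
      have : (0 : ℝ) ≤ nm u := by linarith
      rw [e1]
      calc C4 * nm u ^ (ε / 2) * nm u ^ (b + e - 1 / 2) * (2 + |s.im|) ^ C4
          ≤ C4 * Z ^ (ε / 2) * U ^ (b + e - 1 / 2) * (C6 * Z ^ (ε / 2) * (1 + |t|) ^ C) := by
            refine mul_le_mul ?_ (e3.trans ?_) (by positivity) (by positivity)
            · gcongr
              · exact huU.trans hUZ
              · linarith
            · gcongr
        _ = C4 * C6 * W := by rw [hW, e2]; ring)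
    (fun s s1 s2 s3 => by
      refine (h5 ψ u s hψ hu (by linarith) s2).trans ?_
      have e3 := h7 Z t s.im hZ s3.le
      have e4 := (htC C5 (by linarith)).trans hW0
      have : (0 : ℝ) ≤ nm u := by linarith
      calc C5 * nm u ^ C5 * (2 + |s.im|) ^ C5
          ≤ C5 * Z ^ C5 * (C7 * Z ^ (1 : ℝ) * W) := by
            refine mul_le_mul ?_ (e3.trans ?_) (by positivity) (by positivity)
            · gcongr
              exact huU.trans hUZ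
            · gcongr
        _ = C5 * C7 * (Z ^ (C5 + 1) * W) := by rw [Real.rpow_add hZ0]; ring)
  refine key (C3 * (C4 * C6 + 2 * C8 * (C5 * C7 + 1))) (by linarith) (h9.trans ?_)
  rw [mul_assoc C3]
  refine mul_le_mul_of_nonneg_left ?_ hC3.le
  have hZ1 : 1 ≤ Z ^ (C5 + 1) := Real.one_le_rpow hZ (by linarith)
  have hZ3 : 1 ≤ Z ^ (3 : ℝ) := Real.one_le_rpow hZ (by norm_num)
  have h10 : C5 * C7 * (Z ^ (C5 + 1) * W) + 1 ≤ (C5 * C7 + 1) * (Z ^ (C5 + 1) * W) := by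
    linarith [one_le_mul_of_one_le_of_one_le hZ1 hW1]
  have h11 : Y ^ (1 - b - e) + Y ^ (2 : ℝ) ≤ 2 * (Z ^ (3 : ℝ) * Y ^ (1 - b - e)) := by
    have e1 : Y ^ (2 : ℝ) = Y ^ (1 + b + e) * Y ^ (1 - b - e) := by
      rw [← Real.rpow_add hY]
      congr 1
      ring
    have e2 : Y ^ (1 + b + e) ≤ Z ^ (3 : ℝ) :=
      (Real.rpow_le_rpow_of_exponent_le hY1 (by linarith)).trans
        (Real.rpow_le_rpow hY.le hYZ (by norm_num))
    have e3 := mul_le_mul_of_nonneg_right e2 hP.le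
    have e4 := le_mul_of_one_le_left hP.le hZ3
    linarith
  have h12 := mul_le_mul (mul_le_mul h10 h11 (by positivity) (by positivity)) (h8 Z hZ0)
    (by positivity) (by positivity)
  have h13 : Z ^ (C5 + 1) * Z ^ (3 : ℝ) * Z ^ (-(C5 + 4)) = 1 := by
    rw [← Real.rpow_add hZ0, ← Real.rpow_add hZ0, show C5 + 1 + 3 + -(C5 + 4) = 0 by ring,
      Real.rpow_zero]
  refine (add_le_add le_rfl h12).trans (le_of_eq ?_)
  linear_combination (2 * C8 * (C5 * C7 + 1) * W * Y ^ (1 - b - e)) * h13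

/-- C5 in the form used by block K (`k_c5`) -/
theorem c5 (q : O) (a e ε : ℝ) (hq : Lev q) (ha : 0 < a) (he : 0 < e) (he' : e ≤ 1 / 1000)
    (hε : 0 < ε) : ∃ C : ℝ, 0 ≤ C ∧ ∀ (Z U b H t Y : ℝ) (u : O) (ψ : O → ℂ), C ≤ Z → u ≠ 0 →
      ¬ Exc q u → nm u ≤ U → U ≤ Z → IsTw q ψ → 51 / 100 ≤ b → b ≤ 1 → ZFH q u b H →
      |t| + Real.log Z ^ 2 / 2 ≤ H → 1 ≤ Y →
      (Y ≤ Z ^ 2 → ‖MS (rc ψ u) a Y t‖ ≤ C * Z ^ ε * (1 + |t|) ^ C * Y ^ (b + e)) ∧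
      (Y ≤ Z ^ 2 → ‖PS (rc ψ u) a Y t‖ ≤ C * Z ^ ε * (1 + |t|) ^ C * Y ^ (b + e)) ∧
      (Y ≤ Z ^ 2 → ‖PP (rc ψ u) a Y t‖ ≤ C * Z ^ ε * (1 + |t|) ^ C * Y ^ (b + e)) ∧
      ‖PS (rc ψ u) a Y t‖ ≤
        C * Z ^ ε * (1 + |t|) ^ C * (Y ^ (1 - b - e) * U ^ (b + e - 1 / 2)) := by
  obtain ⟨C₁, h1, hM⟩ := MS_le q a e ε hq ha he hε
  obtain ⟨C₂, h2, hS⟩ := PS_le q a e ε hq ha he hε
  obtain ⟨C₃, h3, hP⟩ := PP_le q a e ε hq ha he hε
  obtain ⟨C₄, h4, hL⟩ := PS_le' q a e ε hq ha he (by linarith) hε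
  refine ⟨C₁ + C₂ + C₃ + C₄, by positivity,
    fun Z U b H t Y u ψ _ hu hE hU hUZ hψ hb hb' hzf hH hY => ?_⟩
  have hU1 : 1 ≤ U := (one_le_nm hu).trans hU
  have hZ1 : 1 ≤ Z := hU1.trans hUZ
  have hY0 : 0 < Y := by linarith
  have h23 : Z ^ 2 ≤ Z ^ 3 := pow_le_pow_right₀ hZ1 (by norm_num)
  have key : ∀ C W : ℝ, 0 < C → C ≤ C₁ + C₂ + C₃ + C₄ → 0 ≤ W → C * Z ^ ε * (1 + |t|) ^ C * W ≤
      (C₁ + C₂ + C₃ + C₄) * Z ^ ε * (1 + |t|) ^ (C₁ + C₂ + C₃ + C₄) * W := by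
    intro C W hC hC' hW
    have h5 : (1 + |t|) ^ C ≤ (1 + |t|) ^ (C₁ + C₂ + C₃ + C₄) :=
      Real.rpow_le_rpow_of_exponent_le (by linarith [abs_nonneg t]) hC'
    gcongr
  refine ⟨fun h => ?_, fun h => ?_, fun h => ?_, ?_⟩
  · exact (hM ψ u Z Y t b H hψ hu hE (hU.trans hUZ) hY0 (h.trans h23) (by linarith) hb' hH hzf).trans
      (key _ _ h1 (by linarith) (by positivity))
  · exact (hS ψ u Z Y t b H hψ hu hE (hU.trans hUZ) hY0 (h.trans h23) (by linarith) hb' hH hzf).trans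
      (key _ _ h2 (by linarith) (by positivity))
  · exact (hP ψ u Z Y t b H hψ hu hE (hU.trans hUZ) hY0 (h.trans h23) (by linarith) hb' hH hzf).trans
      (key _ _ h3 (by linarith) (by positivity))
  · exact (hL ψ u Z U Y t b H hψ hu hE hU hUZ hY0 (by linarith) hb' hH hzf).trans
      (key _ _ h4 (by linarith) (by positivity))

end Crest.Agent.R17.C
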