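import Crest.Agent.R17.C.Lfun

/-! Row 17, block C (owner helper6): rows: levels, non-principality, primitive Gauss sums. -/

set_option autoImplicit false

namespace Crest.Agent.R17.C

open scoped ComplexConjugate
open Complex MeasureTheory

variable {q u : O} {ψ : O → ℂ}

theorem norm_rc_le (hq : Lev q) (h : IsTw q ψ) (hu : u ≠ 0) (n : O) : ‖rc ψ u n‖ ≤ 1 :=
  (h.rc hq).norm_le (mul_ne_zero hq.1 hu) n

theorem Lx_rc_diff (hq : Lev q) (h : IsTw q ψ) (hu : u ≠ 0) : Differentiable ℂ (Lx (rc ψ u)) :=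
  Lx_diff (hq.mul hu) (h.rc hq)

theorem zfh_of_zf {β : ℝ} (h : ZF β) (hq : Lev q) (hu : u ≠ 0) (H : ℝ) : ZFH q u β H :=
  fun _ ρ hψ hρ _ => h (q * u) _ (hq.mul hu) (hψ.rc hq) ρ hρ

theorem ZFH.mono {b b' H H' : ℝ} (h : ZFH q u b H) (hb : b ≤ b') (hH : H' ≤ H) : ZFH q u b' H' :=
  fun ψ ρ hψ h1 h2 => h ψ ρ hψ (hb.trans_lt h1) (h2.trans hH)

/-- replace `r` by `gcd u r` -/
theorem Rad.shrink {r : O} (hu : u ≠ 0) (h : Rad u r) :
    ∃ r', Rad u r' ∧ nm r' ≤ nm u ∧ nm r' ≤ nm r := by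
  obtain ⟨hr, k, hk⟩ := h
  obtain ⟨x, y, hxy⟩ := IsBezout.gcd_eq_sum u r
  have h1 : IsBezout.gcd u r ∣ u := IsBezout.gcd_dvd_left u r
  refine ⟨IsBezout.gcd u r, ⟨ne_zero_of_dvd_ne_zero hu h1, k, ?_⟩, nm_le_of_dvd h1 hu,
    nm_le_of_dvd (IsBezout.gcd_dvd_right u r) hr⟩
  have h2 := sub_dvd_pow_sub_pow (IsBezout.gcd u r) (y * r) k
  have h3 : u ∣ IsBezout.gcd u r - y * r := ⟨x, by rw [← hxy]; ring⟩
  have h4 : u ∣ (y * r) ^ k := by rw [mul_pow]; exact hk.mul_left _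
  simpa using (h3.trans h2).add h4

theorem Rad.mask {r D : O} (h : Rad u r) (hD : D ≠ 0) : Rad (u * D ^ 6) (r * D) := by
  obtain ⟨hr, k, hk⟩ := h
  refine ⟨mul_ne_zero hr hD, k + 6, ?_⟩
  rw [mul_pow]
  exact mul_dvd_mul (hk.trans (pow_dvd_pow r (by omega))) (pow_dvd_pow D (by omega))

/-- a mask is a sixth power in the row -/
theorem rc_mul_pow_six (hq : Lev q) (h : IsTw q ψ) (u : O) {D : O} (n : O) :
    rc ψ (u * D ^ 6) n = rc ψ u n * one D n := by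
  have _ := hq
  have _ := h
  simp only [rc, R17.one]
  by_cases h6 : IsCoprime n 6
  · rw [sx_mul_left, sx_pow_left _ _ (by norm_num), sx_pow_six, mul_assoc]
    by_cases hD : IsCoprime n D
    · rw [if_pos ⟨h6, hD.symm⟩, if_pos hD]
    · rw [if_neg fun h' => hD h'.2.symm, if_neg hD]
  · simp [sx_eq_zero_of_not_six h6]

/-- the conjugate row (`conj_sx`, `sx_pow_left`) -/
theorem rc_pow_five (ψ : O → ℂ) (u : O) :
    rc ψ (u ^ 5) = fun n => conj (rc (fun m => conj (ψ m)) u n) := by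
  funext n
  simp only [rc, map_mul, conj_conj, conj_sx, sx_pow_left _ _ (by norm_num : (5 : ℕ) ≠ 0)]

/-- `growth` at the level `q u` -/
theorem growth_row (q : O) (σ₁ σ₂ : ℝ) (hq : Lev q) : ∃ C : ℝ, 0 < C ∧ ∀ (ψ : O → ℂ) (u : O) (s : ℂ),
    IsTw q ψ → u ≠ 0 → σ₁ ≤ s.re → s.re ≤ σ₂ →
      ‖Lx (rc ψ u) s‖ ≤ C * nm u ^ C * (2 + |s.im|) ^ C := by
  obtain ⟨C, hC, k⟩ := growth σ₁ σ₂
  have h1 : 1 ≤ nm q ^ C := Real.one_le_rpow (one_le_nm hq.1) hC.le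
  have h2 : C ≤ C * nm q ^ C := le_mul_of_one_le_right hC.le h1
  refine ⟨C * nm q ^ C, by positivity, fun ψ u s h hu a1 a2 =>
    (k (q * u) _ s (hq.mul hu) (h.rc hq) a1 a2).trans ?_⟩
  rw [nm_mul, Real.mul_rpow (nm_nonneg q) (nm_nonneg u), ← mul_assoc]
  exact thc_absorb (one_le_nm hu) (by positivity) (by linarith [abs_nonneg s.im]) le_rfl
    (by positivity) hC.le le_rfl h2 h2

/-- `X` is a primitive character modulo `Q` (in the only sense we need) -/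
structure Prm (Q : O) (X : O → ℂ) : Prop where
  mul : ∀ a b, X (a * b) = X a * X b
  per : Per Q X
  le : ∀ n, ‖X n‖ ≤ 1
  gauss : ∃ g : ℂ, ‖g‖ ^ 2 ≤ nm Q ∧ ∀ h, FT Q X h = conj (X h) * g

theorem Prm.one : Prm 1 fun _ => 1 := by
  refine ⟨by simp, fun _ _ _ => rfl, by simp, 1, by simp, fun h => ?_⟩
  rw [FT, rsum_unit isUnit_one (Per.mul (fun _ _ _ => rfl) (per_eQ h 1))]
  simp

/-- `FT_crt` (block A) -/
theorem Prm.mul' {Q₁ Q₂ : O} {X₁ X₂ : O → ℂ} (h1 : Q₁ ≠ 0) (h2 : Q₂ ≠ 0) (hc : IsCoprime Q₁ Q₂)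
    (p1 : Prm Q₁ X₁) (p2 : Prm Q₂ X₂) : Prm (Q₁ * Q₂) fun n => X₁ n * X₂ n := by
  obtain ⟨g₁, a1, b1⟩ := p1.gauss
  obtain ⟨g₂, a2, b2⟩ := p2.gauss
  refine ⟨fun a b => by rw [p1.mul, p2.mul]; ring,
    (p1.per.mono (dvd_mul_right _ _)).mul (p2.per.mono (dvd_mul_left _ _)), fun n => ?_,
    X₁ Q₂ * X₂ Q₁ * (g₁ * g₂), ?_, fun h => ?_⟩
  · rw [norm_mul]; exact mul_le_one₀ (p1.le n) (norm_nonneg _) (p2.le n)
  · have e : ‖X₁ Q₂ * X₂ Q₁‖ ≤ 1 := by
      rw [norm_mul]; exact mul_le_one₀ (p1.le _) (norm_nonneg _) (p2.le _)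
    rw [norm_mul, mul_pow, norm_mul g₁, mul_pow, nm_mul]
    refine (mul_le_of_le_one_left (by positivity) (pow_le_one₀ (norm_nonneg _) e)).trans ?_
    exact mul_le_mul a1 a2 (by positivity) (nm_nonneg _)
  · rw [FT_crt h1 h2 hc p1.per p2.per]
    simp only [p1.mul, p2.mul, gsb_FT_const, b1, b2, map_mul]
    ring

/-- `gs_sqfree`, `norm_gs` (block A) -/
theorem Prm.prime {p : O} (hp : Prime p) (h6 : IsCoprime p 6) {j : ℕ} (hj : ¬ 6 ∣ j) :
    Prm p fun n => sx n p ^ j := by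
  refine ⟨fun a b => by rw [sx_mul_left, mul_pow], (per_sx p).comp (· ^ j), fun n => ?_,
    gs j 1 p, ?_, fun h => ?_⟩
  · rw [norm_pow]; exact pow_le_one₀ (norm_nonneg _) (norm_sx_le n p)
  · rw [norm_gs hp.squarefree h6 hj, Real.sq_sqrt (nm_nonneg p)]
  · rw [map_pow, ← gs_sqfree hp.squarefree hj h, gs]

theorem rowa_rad {p m : O} (hp : Prime p) (hp' : Prim p) (hm : m ≠ 0) (h : ¬ p ∣ m) (k : ℕ) :
    rad (p ^ (k + 1) * m) = p * rad m := by
  classical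
  have h1 : pfs (p ^ (k + 1) * m) = insert p (pfs m) := by
    ext r
    rw [Finset.mem_insert, mem_pfs (mul_ne_zero (pow_ne_zero _ hp.ne_zero) hm), mem_pfs hm]
    constructor
    · rintro ⟨a, b, c⟩
      rcases a.dvd_or_dvd c with c | c
      · exact Or.inl (b.eq_of_associated hp' (a.associated_of_dvd hp (a.dvd_of_dvd_pow c)))
      · exact Or.inr ⟨a, b, c⟩
    · rintro (rfl | ⟨a, b, c⟩)
      · exact ⟨hp, hp', (dvd_pow_self _ (Nat.succ_ne_zero k)).mul_right _⟩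
      · exact ⟨a, b, c.mul_left _⟩
  rw [rad, h1, Finset.prod_insert (fun hc => h ((mem_pfs hm).1 hc).2.2), rad]

/-- `Prim.induction_coprime`; `rad (p^(k+1) m) = p · rad m` (`pfs_mul`) -/
theorem prm_rad {w : O} (hw : Prim w) (h6 : IsCoprime w 6) (hf : PowFree 6 w) :
    Prm (rad w) fun n => sx n w := by
  revert h6 hf
  refine hw.induction_coprime
    (P := fun w => IsCoprime w 6 → PowFree 6 w → Prm (rad w) fun n => sx n w) (fun _ _ => ?_)
    fun p k m hp hp' hm hpm ih h6 hf => ?_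
  · rw [(prim_rad 1).eq_one_of_isUnit (isUnit_of_dvd_one (rad_dvd 1))]
    simpa using Prm.one
  · have hk : ¬ 6 ∣ k + 1 := fun hd =>
      hf p hp ((pow_dvd_pow p (Nat.le_of_dvd (Nat.succ_pos k) hd)).mul_right _)
    have hp6 : IsCoprime p 6 :=
      h6.of_mul_left_left.of_isCoprime_of_dvd_left (dvd_pow_self _ (Nat.succ_ne_zero k))
    rw [rowa_rad hp hp' hm.ne_zero hpm]
    simp only [sx_mul_right, sx_pow_right]
    exact Prm.mul' hp.ne_zero (prim_rad m).ne_zero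
      (hp.coprime_iff_not_dvd.2 fun hd => hpm (hd.trans (rad_dvd m))) (Prm.prime hp hp6 hk)
      (ih h6.of_mul_left_right fun r hr hd => hf r hr (hd.mul_left _))

/-- the decomposition of a row (`exists_smooth_prim`, `Prim.exists_powFree`, `exc_iff`) -/
theorem row_decomp (hq : Lev q) (hu : u ≠ 0) : ∃ (s w v : O) (k : ℕ), u = s * w * v ^ 6 ∧
    s ∣ q ^ k ∧ Prim w ∧ Prim v ∧ IsCoprime w q ∧ IsCoprime v q ∧ PowFree 6 w ∧
    (Exc q u ↔ w = 1) := by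
  obtain ⟨s, m, k, hs, hm, hc, rfl⟩ := exists_smooth_prim hq.three_dvd hu
  obtain ⟨w, v, hw, hv, hf, rfl⟩ := hm.exists_powFree (by norm_num : 0 < 6)
  refine ⟨s, w, v, k, by ring, hs, hw, hv, hc.of_mul_left_left,
    hc.of_mul_left_right.of_isCoprime_of_dvd_left (dvd_pow_self v (by norm_num)), hf, ?_⟩
  rw [exc_smooth_mul hq.1 hs, exc_mul_pow_six hq.1 hv.ne_zero]
  refine ⟨?_, by rintro rfl; exact ⟨1, 1, 0, by simp, by simp⟩⟩
  rintro ⟨s', v', k', hs', e⟩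
  by_contra hne
  obtain ⟨p, hp, -, hpw⟩ := hw.exists_prime_dvd hne
  rcases hp.dvd_or_dvd (e ▸ hpw) with h | h
  · exact hp.not_isUnit (hc.of_mul_left_left.isUnit_of_dvd' hpw (hp.dvd_of_dvd_pow (h.trans hs')))
  · exact hf p hp (e ▸ (pow_dvd_pow_of_dvd (hp.dvd_of_dvd_pow h) 6).mul_left _)

/-- sextic reciprocity: on primary elements the row `s w` is `ψ₀ · χ_w` with `ψ₀ ∈ Tw q`,
`ψ₀ n = ψ n · sx s n · eps w n` (`sx_recip`, `IsTw.rc_smooth`, `IsTw.mul_eps`) -/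
theorem rc_recip (hq : Lev q) (h : IsTw q ψ) {s w : O} {k : ℕ} (hs : s ∣ q ^ k) (hw : Prim w)
    (hwq : IsCoprime w q) : ∃ ψ₀ : O → ℂ, IsTw q ψ₀ ∧ ∀ n : Pr, rc ψ (s * w) n = ψ₀ n * sx n w := by
  refine ⟨fun n => rc ψ s n * eps w n, (h.rc_smooth hq hs).mul_eps hq.four_dvd (hq.coprime_two hwq),
    fun n => ?_⟩
  simp only [rc]
  by_cases hn : IsCoprime (n : O) q
  · rw [sx_mul_left, sx_recip hw (Pr_prim n) (hq.coprime_two hwq) (hq.coprime_two hn)]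
    ring
  · simp [h.zero _ hn]

theorem rowb_zt {j : ℕ} (j0 : j ≠ 0) (j6 : j < 6) : ¬ (sg zt ^ j = 0 ∨ sg zt ^ j = 1) := by
  rintro (h | h)
  · exact pow_ne_zero j sya_sg_ne h
  · exact isPrimitiveRoot_sg_zt.pow_ne_one_of_pos_of_lt j0 j6 h

/-- C2: `row_decomp`, `rc_mul_pow_six`, `princ_mask` (remove `v`), `rc_recip`; `w = p^j w'`, `0 < j < 6`,
`p ∤ w'`; `exists_sx_eq_zt`; choose `n ≡ g mod p`, `n ≡ 1 mod q w'` (CRT) -/
theorem not_princ_rc (hq : Lev q) (h : IsTw q ψ) (hu : u ≠ 0) (he : ¬ Exc q u) :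
    ¬ Princ (rc ψ u) := by
  obtain ⟨s, w, v, k, rfl, hs, hw, hv, hwq, -, hf, hx⟩ := row_decomp hq hu
  have hsw : s * w ≠ 0 := left_ne_zero_of_mul hu
  rw [show rc ψ (s * w * v ^ 6) = fun n => rc ψ (s * w) n * one v n from
    funext (rc_mul_pow_six hq h _), princ_mask (hq.mul hsw) (h.rc hq) hv.ne_zero]
  obtain ⟨ψ₀, h0, e0⟩ := rc_recip hq h hs hw hwq
  obtain ⟨p, hp, -, hpw⟩ := hw.exists_prime_dvd fun h1 => he (hx.2 h1)
  obtain ⟨w', e, hw'⟩ := (FiniteMultiplicity.of_prime_left hp hw.ne_zero).exists_eq_pow_mul_and_not_dvd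
  generalize multiplicity p w = j at e
  subst e
  have j0 : j ≠ 0 := by rintro rfl; exact hw' (by simpa using hpw)
  have j6 : j < 6 := not_le.1 fun h6 => hf p hp ((pow_dvd_pow p h6).mul_right _)
  have hpq : IsCoprime p q := hwq.of_isCoprime_of_dvd_left hpw
  obtain ⟨g, hg⟩ := exists_sx_eq_zt hp (hq.coprime_six hpq)
  obtain ⟨a, b, hab⟩ := hpq.mul_right (hp.coprime_iff_not_dvd.2 hw')
  have d1 : q * w' ∣ g * b * (q * w') + a * p - 1 := ⟨(g - 1) * b, by linear_combination hab⟩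
  have d2 : p ∣ g * b * (q * w') + a * p - g := ⟨(1 - g) * a, by linear_combination g * hab⟩
  generalize g * b * (q * w') + a * p = n at d1 d2
  have hn : Prim n := (hq.three_dvd.mul_right _).trans d1
  intro hP
  have := hP ⟨n, hn⟩
  rw [e0] at this
  simp only at this
  rw [h0.per n 1 ((dvd_mul_right _ _).trans d1), h0.one, sx_mul_right, sx_pow_right, sx_congr d2, hg,
    sx_congr ((dvd_mul_left _ _).trans d1), sx_one_left,
    if_pos (hq.coprime_six hwq.of_mul_left_right), one_mul, mul_one] at this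
  exact rowb_zt j0 j6 this

/-- `n₀ = -2 - 3ω` is a primary prime of norm `7` and `sx ζ n₀ = sg ζ`; move `n₀` modulo `72` to an
element prime to `q`: `rc (one q) ζ = rc (one 72) ζ · one q`, `princ_mask`, `sx_zt` -/
theorem not_princ_unit (hq : Lev q) {ζ : O} (hζ : IsUnit ζ) (h1 : ζ ≠ 1) :
    ¬ Princ (rc (one q) ζ) := by
  have e : rc (one q) ζ = fun n => rc (one 72) ζ n * one q n := by
    funext n
    simp only [rc, R17.one]
    by_cases hn : IsCoprime n q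
    · simp [hn, hn.of_isCoprime_of_dvd_right hq.2]
    · simp [hn]
  rw [e, princ_mask lev_seventyTwo
    ((isTw_one 72).rc_smooth (k := 0) lev_seventyTwo (by simpa using hζ.dvd)) hq.1]
  obtain ⟨j, j6, rfl⟩ := isUnit_iff.1 hζ
  have j0 : j ≠ 0 := by rintro rfl; exact h1 (pow_zero _)
  set n : O := ((-2 : ℤ) : O) + ((-3 : ℤ) : O) * om with hn
  have h7 : nN n = 7 := by
    have := nN_coord (-2) (-3)
    rw [← hn] at this
    omega
  have hp : Prim n := ⟨-1 - om, by rw [hn]; push_cast; ring⟩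
  have hc : IsCoprime n 72 := by
    have h2 := dvd_nN n
    rw [h7] at h2
    exact IsCoprime.of_isCoprime_of_dvd_left (⟨31, -3, by norm_num⟩ : IsCoprime ((7 : ℕ) : O) 72) h2
  have h6 := lev_seventyTwo.coprime_six hc
  intro hP
  have := hP ⟨n, hp⟩
  simp only [rc, R17.one, if_pos hc, one_mul] at this
  rw [sx_pow_left' _ h6, sx_zt h6, h7] at this
  exact rowb_zt j0 j6 (by simpa using this)

theorem not_princ_unit_five (hq : Lev q) {ζ : O} (hζ : IsUnit ζ) (h1 : ζ ≠ 1) :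
    ¬ Princ (rc (one q) (ζ ^ 5)) := by
  refine not_princ_unit hq (hζ.pow 5) fun h5 => h1 ?_
  obtain ⟨j, -, rfl⟩ := isUnit_iff.1 hζ
  have h6 : (zt ^ j) ^ 6 = 1 := by rw [← pow_mul, mul_comm, pow_mul, zt_pow_six, one_pow]
  rwa [pow_succ, h5, one_mul] at h6

/-- C1, C2 for non-exceptional rows -/
theorem Lx_rc_spec (hq : Lev q) (h : IsTw q ψ) (hu : u ≠ 0) (he : ¬ Exc q u) :
    Differentiable ℂ (Lx (rc ψ u)) ∧ ∀ s : ℂ, 1 < s.re → Lx (rc ψ u) s = DS (rc ψ u) s :=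
  ⟨Lx_rc_diff hq h hu, fun _ hs => Lx_eq_DS (hq.mul hu) (h.rc hq) (not_princ_rc hq h hu he) hs⟩

/-- exceptional rows are masked characters modulo `q` (`IsTw.rc_smooth`) -/
theorem exc_row (hq : Lev q) (h : IsTw q ψ) (hu : u ≠ 0) (he : Exc q u) :
    ∃ ψ₀ : O → ℂ, IsTw q ψ₀ ∧ ∀ n : O, rc ψ u n = ψ₀ n * one u n := by
  obtain ⟨s, v, k, hs, rfl⟩ := he
  have _ := hu
  refine ⟨rc ψ s, h.rc_smooth hq hs, fun n => ?_⟩
  rw [rc_mul_pow_six hq h]
  by_cases hn : IsCoprime n q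
  · have h1 : IsCoprime n s := hn.pow_right.of_isCoprime_of_dvd_right hs
    have h2 : IsCoprime n (s * v ^ 6) ↔ IsCoprime n v := by
      rw [IsCoprime.mul_right_iff, IsCoprime.pow_right_iff (by norm_num : 0 < 6), and_iff_right h1]
    by_cases hv : IsCoprime n v
    · rw [R17.one, R17.one, if_pos hv, if_pos (h2.2 hv)]
    · rw [R17.one, R17.one, if_neg hv, if_neg (mt h2.1 hv)]
  · simp [(h.rc_smooth hq hs).zero _ hn]

end Crest.Agent.R17.C
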