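import Crest.Agent.R17.C.FE

/-! Row 17, block C (owner helper6): C4, smooth sums. -/

set_option autoImplicit false

namespace Crest.Agent.R17.C

open scoped ComplexConjugate
open Complex MeasureTheory Classical

variable {Q : O} {Φ : O → ℂ}

/-- trivial bounds (`sum_LN_O_small` with `φ = Subtype.val`, `θ = 0`) -/
theorem norm_sum_le (a σ : ℝ) (ha : 0 < a) (hσ : 1 ≤ σ) : ∃ C : ℝ, 0 < C ∧
    ∀ (c : O → ℂ) (Y t : ℝ), (∀ n : Pr, ‖c n‖ ≤ 1) → 0 < Y → ‖PS c a Y t‖ ≤ C * Y ^ σ := by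
  obtain ⟨C, hC, H⟩ := sum_LN_O_small (θ := 0) (σ := σ) ha (by linarith)
  obtain ⟨_, -, H'⟩ := sum_LN_O ha 0
  refine ⟨C, hC, fun c Y t hc hY => ?_⟩
  have h0 : ∀ n : Pr, (n : O) = 0 → c n = 0 := fun n h => absurd h (Pr_prim n).ne_zero
  have h1 : ∀ n : Pr, (n : O) ≠ 0 → ‖c n‖ ≤ 1 * nm (n : O) ^ (0 : ℝ) := fun n _ => by
    simpa using hc n
  refine (norm_tsum_le_tsum_norm (H' Subtype.val (fun n : Pr => c n) 1 Y t Subtype.val_injective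
    h0 h1 zero_le_one hY).1).trans ?_
  simpa using H Subtype.val (fun n : Pr => c n) 1 Y t Subtype.val_injective h0 h1 zero_le_one hY

theorem PS_conj (c : O → ℂ) (a Y t : ℝ) :
    PS (fun n => conj (c n)) a Y (-t) = conj (PS c a Y t) := by
  rw [PS_eq_SS, PS_eq_SS, conj_SS]

theorem continuous_PS {c : O → ℂ} (hc : ∀ n : Pr, ‖c n‖ ≤ 1) {a : ℝ} (ha : 0 < a) :
    Continuous fun x : ℝ × ℝ => PS c a (Real.exp x.1) x.2 := by
  simpa only [one_mul, PS_eq_SS] using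
    (adm_Pr (c := fun n : Pr => c n) one_lt_two hc).continuous_SS ha one_pos

/-- `Adm.SS_eq_VI`, `adm_Pr` -/
theorem PS_right {c : O → ℂ} (hc : ∀ n : Pr, ‖c n‖ ≤ 1) {a Y σ : ℝ} (ha : 0 < a) (hY : 0 < Y)
    (hσ : 1 < σ) (t : ℝ) : VInt σ (fun s => LNt a (s + I * t) * ((Y : ℂ) ^ s * DS c s)) ∧
      PS c a Y t = VI σ fun s => LNt a (s + I * t) * ((Y : ℂ) ^ s * DS c s) := by
  simpa only [mul_assoc, PS_eq_SS, DS_eq_DD] using
    (adm_Pr (c := fun n : Pr => c n) hσ hc).SS_eq_VI ha hY t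

private theorem smooth_aux (hQ : Lev Q) (h : IsTw Q Φ) {Y : ℝ} (hY : 0 < Y) (σ₁ σ₂ : ℝ) :
    DifferentiableOn ℂ (fun s => (Y : ℂ) ^ s * Lx Φ s) (strip σ₁ σ₂) ∧
      ExpOn σ₁ σ₂ fun s => (Y : ℂ) ^ s * Lx Φ s :=
  ⟨((differentiable_id.const_cpow (Or.inl (ofReal_ne_zero.2 hY.ne'))).mul
      (Lx_diff hQ h)).differentiableOn,
    ExpOn.mul (by simpa using expOn_cpow hY σ₁ σ₂ 1 0) (expOn_Lx hQ h σ₁ σ₂)⟩

/-- any line, non-principal characters (`VI_shift_LNt`, `expOn_Lx`, `expOn_cpow`) -/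
theorem PS_line (hQ : Lev Q) (h : IsTw Q Φ) (hp : ¬ Princ Φ) {a Y : ℝ} (ha : 0 < a) (hY : 0 < Y)
    (σ t : ℝ) : PS Φ a Y t = VI σ fun s => LNt a (s + I * t) * ((Y : ℂ) ^ s * Lx Φ s) := by
  have h2 : (1 : ℝ) < max σ 2 := one_lt_two.trans_le (le_max_right _ _)
  have h3 := smooth_aux hQ h hY σ (max σ 2)
  rw [(VI_shift_LNt ha (I * t) (le_max_left σ 2) h3.1 h3.2).2.2,
    (PS_right (fun n => h.norm_le hQ.1 n) ha hY h2 t).2]
  exact VI_congr fun s hs => by rw [Lx_eq_DS hQ h hp (hs ▸ h2)]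

/-- principal characters: the residue at `1` (`VI_shift_LNt_pole`) -/
theorem PS_line_princ (hQ : Lev Q) (h : IsTw Q Φ) (hp : Princ Φ) {a Y σ : ℝ} (ha : 0 < a)
    (hY : 0 < Y) (hσ : σ < 1) (t : ℝ) : PS Φ a Y t = Lx Φ 1 * Y * LNt a (1 + I * t) +
      VI σ fun s => LNt a (s + I * t) * ((Y : ℂ) ^ s * Lx Φ s / (s - 1)) := by
  have h3 := smooth_aux hQ h hY σ 2
  have h4 := (VI_shift_LNt_pole (ρ := 1) ha (I * t) hσ one_lt_two h3.1 h3.2).2.2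
  rw [(PS_right (fun n => h.norm_le hQ.1 n) ha hY one_lt_two t).2]
  refine (VI_congr fun s hs => ?_).trans (h4.trans (by rw [cpow_one]; ring))
  have h5 : s - 1 ≠ 0 := fun h0 => by
    rw [sub_eq_zero.1 h0] at hs
    norm_num at hs
  rw [Lx_eq hQ h (hs ▸ one_lt_two), pf, if_pos hp]
  field_simp

/-- long sums are small: `PS_line` at `-σ`, `Lx_left`, `norm_VI_LNt` -/
theorem PS_left (q : O) (a σ ε : ℝ) (hq : Lev q) (ha : 0 < a) (hσ : 0 < σ) (hε : 0 < ε) :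
    ∃ C : ℝ, 0 < C ∧ ∀ (ψ : O → ℂ) (u r : O) (Y t : ℝ), IsTw q ψ → u ≠ 0 → ¬ Exc q u → Rad u r →
      0 < Y → ‖PS (rc ψ u) a Y t‖ ≤ C * (1 + |t|) ^ C * nm r ^ (1 / 2 + σ + ε) * Y ^ (-σ) := by
  obtain ⟨C₁, hC₁, h₁⟩ := Lx_left q σ σ ε hq hσ hε
  obtain ⟨C₂, hC₂, h₂⟩ := norm_VI_LNt a (-σ) (-σ) C₁ ha hC₁.le
  refine ⟨C₂ * C₁ + C₁, by positivity, fun ψ u r Y t hψ hu hex hr hY => ?_⟩
  have hp := nm_pos hr.1
  have ht : 1 ≤ 1 + |t| := by linarith [abs_nonneg t]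
  have h0 : 0 < C₂ * C₁ := by positivity
  rw [PS_line (hq.mul hu) (hψ.rc hq) (not_princ_rc hq hψ hu hex) ha hY (-σ) t]
  refine (h₂ (-σ) t (Y ^ (-σ) * (C₁ * nm r ^ (1 / 2 + σ + ε))) _ le_rfl le_rfl (by positivity)
    fun s hs => ?_).trans ?_
  · have := h₁ ψ u r s hψ hu hex hr hs.ge hs.le
    rw [hs, sub_neg_eq_add] at this
    rw [norm_mul, norm_cpow_eq_rpow_re_of_pos hY, hs, mul_assoc]
    gcongr
  · calc _ = C₂ * C₁ * (1 + |t|) ^ C₁ * nm r ^ (1 / 2 + σ + ε) * Y ^ (-σ) := by ring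
      _ ≤ _ := by gcongr <;> linarith

/-- PÓLYA-VINOGRADOV (masks: replace `u` by `u D⁶`, `r` by `r D`).  `Y ≤ 1`: trivial. -/
theorem PS_pv (q : O) (a ε : ℝ) (hq : Lev q) (ha : 0 < a) (hε : 0 < ε) :
    ∃ C : ℝ, 0 < C ∧ ∀ (ψ : O → ℂ) (u r : O) (Y t : ℝ), IsTw q ψ → u ≠ 0 → ¬ Exc q u → Rad u r →
      0 < Y → ‖PS (rc ψ u) a Y t‖ ≤ C * (1 + |t|) ^ C * nm r ^ (1 / 2 + ε) := by
  obtain ⟨C₁, hC₁, h₁⟩ := PS_left q a (ε / 2) (ε / 2) hq ha (by positivity) (by positivity)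
  obtain ⟨C₂, hC₂, h₂⟩ := norm_sum_le a 1 ha le_rfl
  refine ⟨C₁ + C₂, by positivity, fun ψ u r Y t hψ hu hex hr hY => ?_⟩
  have hp := one_le_nm hr.1
  have ht : 1 ≤ 1 + |t| := by linarith [abs_nonneg t]
  rcases le_total Y 1 with hY1 | hY1
  · have h3 := h₂ (rc ψ u) Y t (fun n => norm_rc_le hq hψ hu n) hY
    rw [Real.rpow_one] at h3
    calc _ ≤ C₂ * Y * 1 := by rwa [mul_one]
      _ ≤ _ := by
        gcongr
        · linarith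
        · exact hY1.trans (Real.one_le_rpow ht (by positivity))
        · exact Real.one_le_rpow hp (by positivity)
  · have h3 := h₁ ψ u r Y t hψ hu hex hr hY
    rw [add_assoc, add_halves] at h3
    calc _ ≤ _ := h3
      _ ≤ (C₁ + C₂) * (1 + |t|) ^ (C₁ + C₂) * nm r ^ (1 / 2 + ε) * 1 := by
        gcongr
        · linarith
        · linarith
        · exact Real.rpow_le_one_of_one_le_of_nonpos hY1 (by linarith)
      _ = _ := mul_one _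

/-- the form used by block P (`Rad.shrink`) -/
theorem PS_pv' (q : O) (a ε : ℝ) (hq : Lev q) (ha : 0 < a) (hε : 0 < ε) :
    ∃ C : ℝ, 0 < C ∧ ∀ (ψ : O → ℂ) (Z : ℝ) (u r : O) (Y t : ℝ), IsTw q ψ → u ≠ 0 → ¬ Exc q u →
      Rad u r → nm u ≤ Z → 0 < Y →
      ‖PS (rc ψ u) a Y t‖ ≤ C * Z ^ ε * Real.sqrt (nm r) * (1 + |t|) ^ C := by
  obtain ⟨C, hC, h⟩ := PS_pv q a ε hq ha hε
  refine ⟨C, hC, fun ψ Z u r Y t hψ hu hex hr hZ hY => ?_⟩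
  obtain ⟨r', hr', hr1, hr2⟩ := hr.shrink hu
  have hp := nm_pos hr'.1
  have h3 := h ψ u r' Y t hψ hu hex hr' hY
  rw [Real.rpow_add hp, ← Real.sqrt_eq_rpow] at h3
  calc _ ≤ _ := h3
    _ = C * nm r' ^ ε * Real.sqrt (nm r') * (1 + |t|) ^ C := by ring
    _ ≤ _ := by
      have : 0 ≤ Z := by linarith
      gcongr
      exact hr1.trans hZ

theorem smb_LNt {a : ℝ} (ha : 0 < a) (s : ℂ) (t : ℝ) :
    ‖LNt a (s + I * t)‖ = √(2 * Real.pi) * a * Real.exp (a ^ 2 * s.re ^ 2 / 2) *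
      Real.exp (-(a ^ 2 / 2) * (s.im - -t) ^ 2) := by
  rw [norm_LNt ha.le]
  simp

theorem smb_Lx_exc (q : O) (ε : ℝ) (hq : Lev q) (hε : 0 < ε) :
    ∃ C : ℝ, 0 < C ∧ ∃ A : ℝ, 0 < A ∧ ∀ (ψ : O → ℂ) (u : O) (s : ℂ), IsTw q ψ → u ≠ 0 → Exc q u →
      s.re = 0 → ‖Lx (rc ψ u) s‖ ≤ C * nm u ^ ε * (1 + |s.im|) ^ A := by
  obtain ⟨A, hA, h₁⟩ := growth 0 0
  obtain ⟨C₂, hC₂, h₂⟩ := pow_card_pfs_le 2 hε
  have hq0 := nm_pos hq.1
  refine ⟨A * nm q ^ A * 2 ^ A * C₂, by positivity, A, hA, fun ψ u s hψ hu he hs => ?_⟩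
  obtain ⟨ψ₀, hψ₀, h0⟩ := exc_row hq hψ hu he
  rw [funext h0, Lx_mask hq hψ₀ hu s, norm_mul]
  have b1 := h₁ q ψ₀ s hq hψ₀ hs.ge hs.le
  have b2 : (2 + |s.im|) ^ A ≤ 2 ^ A * (1 + |s.im|) ^ A := by
    rw [← Real.mul_rpow (by norm_num) (by positivity)]
    exact Real.rpow_le_rpow (by positivity) (by linarith [abs_nonneg s.im]) hA.le
  have b3 : ‖∏ p ∈ pfs u, (1 - ψ₀ p * (nm p : ℂ) ^ (-s))‖ ≤ C₂ * nm u ^ ε := by
    refine le_trans ?_ (h₂ u hu)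
    rw [norm_prod, abs_two, ← Finset.prod_const]
    refine Finset.prod_le_prod (fun _ _ => norm_nonneg _) fun p hp => ?_
    have hp0 : p ≠ 0 := (pra_of_mem_pfs hp).1.ne_zero
    refine (norm_sub_le _ _).trans ?_
    rw [norm_one, norm_mul, norm_cpow_eq_rpow_re_of_pos (nm_pos hp0), neg_re, hs, neg_zero,
      Real.rpow_zero, mul_one]
    linarith [hψ₀.norm_le hq.1 p]
  calc _ ≤ (A * nm q ^ A * (2 ^ A * (1 + |s.im|) ^ A)) * (C₂ * nm u ^ ε) :=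
        mul_le_mul (b1.trans (mul_le_mul_of_nonneg_left b2 (by positivity))) b3 (norm_nonneg _)
          (by positivity)
    _ = _ := by ring

theorem smb_line (q : O) (a ε : ℝ) (hq : Lev q) (ha : 0 < a) (hε : 0 < ε) :
    ∃ C : ℝ, 0 < C ∧ ∀ (ψ : O → ℂ) (u : O) (t : ℝ) (G : ℂ → ℂ), IsTw q ψ → u ≠ 0 → Exc q u →
      (∀ s : ℂ, s.re = 0 → ‖G s‖ ≤ ‖Lx (rc ψ u) s‖) →
      ‖VI 0 fun s => LNt a (s + I * t) * G s‖ ≤ C * nm u ^ ε * (1 + |t|) ^ C := by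
  obtain ⟨C₁, hC₁, A, hA, h₁⟩ := smb_Lx_exc q ε hq hε
  obtain ⟨C₂, hC₂, h₂⟩ := norm_VI_le_gauss (c := a ^ 2 / 2) (by positivity) hA.le
  refine ⟨C₂ * (√(2 * Real.pi) * a * C₁) + A, by positivity, fun ψ u t G hψ hu he hG => ?_⟩
  have hu0 : 0 ≤ nm u ^ ε := Real.rpow_nonneg (nm_nonneg u) _
  have := h₂ 0 (-t) (√(2 * Real.pi) * a * C₁ * nm u ^ ε) (fun s => LNt a (s + I * t) * G s)
    fun y => by
      have e1 : (((0 : ℝ) : ℂ) + y * I).re = 0 := by simp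
      have e2 : (((0 : ℝ) : ℂ) + y * I).im = y := by simp
      have b1 := (hG _ e1).trans (h₁ ψ u _ hψ hu he e1)
      rw [norm_mul, smb_LNt ha, e1, e2] at *
      calc _ ≤ √(2 * Real.pi) * a * Real.exp (a ^ 2 * 0 ^ 2 / 2) *
            Real.exp (-(a ^ 2 / 2) * (y - -t) ^ 2) * (C₁ * nm u ^ ε * (1 + |y|) ^ A) :=
            mul_le_mul_of_nonneg_left b1 (by positivity)
        _ = _ := by simp; ring
  refine this.trans ?_
  rw [abs_neg]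
  have ht1 : 1 ≤ 1 + |t| := by linarith [abs_nonneg t]
  have hK : 0 < C₂ * (√(2 * Real.pi) * a * C₁) := by positivity
  calc _ = C₂ * (√(2 * Real.pi) * a * C₁) * nm u ^ ε * (1 + |t|) ^ A := by ring
    _ ≤ _ := mul_le_mul (mul_le_mul_of_nonneg_right (by linarith) hu0)
        (Real.rpow_le_rpow_of_exponent_le ht1 (by linarith)) (by positivity) (by positivity)

/-- EXCEPTIONAL ROWS (masks: replace `u` by `u D⁶`).  `exc_row`, `Lx_mask`, line `Re s = 0`,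
`growth` at level `q`, `pow_card_pfs_le`; for `Y ≤ 1` the trivial bound and `Lx_one_pos`. -/
theorem PS_exc (q : O) (a ε : ℝ) (hq : Lev q) (ha : 0 < a) (hε : 0 < ε) :
    ∃ C : ℝ, 0 < C ∧ ∀ (ψ : O → ℂ) (u : O), IsTw q ψ → u ≠ 0 → Exc q u →
      ∀ Y t : ℝ, 0 < Y →
        ‖PS (rc ψ u) a Y t - (if Princ (rc ψ u) then Lx (rc ψ u) 1 else 0) * Y * LNt a (1 + I * t)‖ ≤
          C * nm u ^ ε * (1 + |t|) ^ C * min 1 Y := by
  obtain ⟨C₁, hC₁, h₁⟩ := smb_line q a ε hq ha hε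
  obtain ⟨C₂, hC₂, h₂⟩ := norm_sum_le a 1 ha le_rfl
  set K : ℝ := √(2 * Real.pi) * a * Real.exp (a ^ 2 / 2) with hK
  have hK0 : 0 < K := by positivity
  refine ⟨C₁ + (C₂ + 4 * K), by positivity, fun ψ u hψ hu he Y t hY => ?_⟩
  have hu1 : 1 ≤ nm u ^ ε := Real.one_le_rpow (one_le_nm hu) hε.le
  have ht1 : 1 ≤ 1 + |t| := by linarith [abs_nonneg t]
  have ht2 : 1 ≤ (1 + |t|) ^ (C₁ + (C₂ + 4 * K)) := Real.one_le_rpow ht1 (by positivity)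
  have hQ := hq.mul hu
  have hΦ := hψ.rc (u := u) hq
  rcases le_total 1 Y with hY1 | hY1
  · rw [min_eq_left hY1, mul_one]
    have hfin : C₁ * nm u ^ ε * (1 + |t|) ^ C₁ ≤
        (C₁ + (C₂ + 4 * K)) * nm u ^ ε * (1 + |t|) ^ (C₁ + (C₂ + 4 * K)) :=
      mul_le_mul (mul_le_mul_of_nonneg_right (by linarith) (by linarith))
        (Real.rpow_le_rpow_of_exponent_le ht1 (by linarith)) (by positivity) (by positivity)
    refine le_trans ?_ hfin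
    have hYs : ∀ s : ℂ, s.re = 0 → ‖(Y : ℂ) ^ s‖ = 1 := fun s hs => by
      rw [norm_cpow_eq_rpow_re_of_pos hY, hs, Real.rpow_zero]
    by_cases hp : Princ (rc ψ u)
    · rw [if_pos hp, PS_line_princ hQ hΦ hp ha hY (σ := 0) one_pos t, add_sub_cancel_left]
      refine h₁ ψ u t _ hψ hu he fun s hs => ?_
      rw [norm_div, norm_mul, hYs s hs, one_mul]
      refine div_le_self (norm_nonneg _) ?_
      have := abs_re_le_norm (s - 1)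
      simpa [hs] using this
    · rw [if_neg hp, zero_mul, zero_mul, sub_zero, PS_line hQ hΦ hp ha hY 0 t]
      refine h₁ ψ u t _ hψ hu he fun s hs => ?_
      rw [norm_mul, hYs s hs, one_mul]
  · rw [min_eq_right hY1]
    have b1 : ‖PS (rc ψ u) a Y t‖ ≤ C₂ * Y := by
      simpa using h₂ (rc ψ u) Y t (fun n => norm_rc_le hq hψ hu n) hY
    have b2 : ‖(if Princ (rc ψ u) then Lx (rc ψ u) 1 else 0)‖ ≤ 4 := by
      split_ifs with hp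
      · obtain ⟨ρ, h0, h4, h1⟩ := Lx_one_pos hQ hΦ hp
        rw [h1, Complex.norm_of_nonneg h0.le]
        exact h4
      · simp
    have b3 : ‖LNt a (1 + I * t)‖ ≤ K := by
      rw [norm_LNt ha.le]
      have e1 : (1 + I * t : ℂ).re = 1 := by simp
      rw [e1, one_pow, mul_one]
      exact mul_le_of_le_one_right hK0.le (Real.exp_le_one_iff.2 (by
        have := sq_nonneg (1 + I * t : ℂ).im
        nlinarith [sq_nonneg a]))
    have b4 : ‖(if Princ (rc ψ u) then Lx (rc ψ u) 1 else 0) * Y * LNt a (1 + I * t)‖ ≤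
        4 * Y * K := by
      rw [norm_mul, norm_mul, Complex.norm_of_nonneg hY.le]
      exact mul_le_mul (mul_le_mul_of_nonneg_right b2 hY.le) b3 (norm_nonneg _) (by positivity)
    calc _ ≤ C₂ * Y + 4 * Y * K := (norm_sub_le _ _).trans (add_le_add b1 b4)
      _ = (C₂ + 4 * K) * 1 * 1 * Y := by ring
      _ ≤ _ := by
        refine mul_le_mul_of_nonneg_right ?_ hY.le
        exact mul_le_mul (mul_le_mul (by linarith) hu1 zero_le_one (by positivity)) ht2 zero_le_one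
          (by positivity)

/-- TRUNCATED CONTOUR.  `PS_right` at `σ₂`, `norm_VI_le_rect` with `t₀ = -t`, `c = a² / 2`, `A = 0`. -/
theorem trunc (a σ₀ σ₂ : ℝ) (ha : 0 < a) (h2 : 1 < σ₂) : ∃ C : ℝ, 0 < C ∧
    ∀ (c : O → ℂ) (F : ℂ → ℂ) (σ₁ Y t T M₁ M₂ : ℝ), (∀ n : Pr, ‖c n‖ ≤ 1) → 0 < Y →
      σ₀ ≤ σ₁ → σ₁ ≤ σ₂ → 0 ≤ T → DifferentiableOn ℂ F (rect σ₁ σ₂ (-t) T) →
      (∀ s : ℂ, s.re = σ₂ → |s.im + t| ≤ T → F s = DS c s) →
      (∀ s : ℂ, s.re = σ₁ → |s.im + t| ≤ T → ‖F s‖ ≤ M₁) →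
      (∀ s : ℂ, σ₁ ≤ s.re → s.re ≤ σ₂ → |s.im + t| = T → ‖F s‖ ≤ M₂) →
      ‖PS c a Y t‖ ≤ C * (M₁ * Y ^ σ₁ +
        (M₂ + 1) * (Y ^ σ₁ + Y ^ σ₂) * Real.exp (-(a ^ 2 / 8) * T ^ 2)) := by
  obtain ⟨C₁, hC₁, h₁⟩ := norm_VI_le_rect (c := a ^ 2 / 2) (by positivity) 0 (σ₂ - σ₀)
  obtain ⟨C₂, hC₂, h₂⟩ := norm_DS_le (σ₂ - 1) (by linarith)
  set K : ℝ := √(2 * Real.pi) * a * Real.exp (a ^ 2 * (σ₀ ^ 2 + σ₂ ^ 2) / 2) with hK
  have hK0 : 0 < K := by positivity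
  refine ⟨C₁ * (K * (1 + C₂)), by positivity,
    fun c F σ₁ Y t T M₁ M₂ hc hY h01 h12 hT hd hF hM₁ hM₂ => ?_⟩
  have hM₁0 : 0 ≤ M₁ := (norm_nonneg _).trans (hM₁ ⟨σ₁, -t⟩ rfl (by simpa using hT))
  have hM₂0 : 0 ≤ M₂ := (norm_nonneg _).trans (hM₂ ⟨σ₁, T - t⟩ le_rfl h12 (by
    simpa using hT))
  let H : ℂ → ℂ := fun s => if s ∈ rect σ₁ σ₂ (-t) T then F s else DS c s
  have hH1 : ∀ s ∈ rect σ₁ σ₂ (-t) T, H s = F s := fun s hs => if_pos hs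
  have hH2 : ∀ s : ℂ, s.re = σ₂ → H s = DS c s := fun s hs => by
    by_cases h : s ∈ rect σ₁ σ₂ (-t) T
    · rw [hH1 s h]
      exact hF s hs (by simpa using h.2.2)
    · exact if_neg h
  obtain ⟨hI, hP⟩ := PS_right hc ha hY h2 t
  have hL : ∀ s : ℂ, σ₁ ≤ s.re → s.re ≤ σ₂ → ‖LNt a (s + I * t)‖ ≤
      K * Real.exp (-(a ^ 2 / 2) * (s.im - -t) ^ 2 + 0 * |s.im - -t|) := fun s h1 h2' => by
    rw [smb_LNt ha, zero_mul, add_zero]
    refine mul_le_mul_of_nonneg_right (mul_le_mul_of_nonneg_left (Real.exp_le_exp.2 ?_)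
      (by positivity)) (by positivity)
    have : s.re ^ 2 ≤ σ₀ ^ 2 + σ₂ ^ 2 := by
      rcases le_total 0 s.re with h | h
      · nlinarith [sq_nonneg σ₀]
      · nlinarith [sq_nonneg σ₂]
    have := mul_le_mul_of_nonneg_left this (sq_nonneg a)
    linarith
  have hY1 : 0 < Y ^ σ₁ := Real.rpow_pos_of_pos hY _
  have hY2 : 0 < Y ^ σ₂ := Real.rpow_pos_of_pos hY _
  have hYs : ∀ s : ℂ, σ₁ ≤ s.re → s.re ≤ σ₂ → ‖(Y : ℂ) ^ s‖ ≤ Y ^ σ₁ + Y ^ σ₂ := fun s h1 h2' => by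
    rw [norm_cpow_eq_rpow_re_of_pos hY]
    rcases le_total 1 Y with h | h
    · linarith [Real.rpow_le_rpow_of_exponent_le h h2']
    · linarith [Real.rpow_le_rpow_of_exponent_ge hY h h1]
  have key := h₁ σ₁ σ₂ (-t) T (K * (Y ^ σ₁ * M₁)) (K * ((Y ^ σ₁ + Y ^ σ₂) * (M₂ + C₂)))
    (fun s => LNt a (s + I * t) * ((Y : ℂ) ^ s * H s)) h12 (by linarith) hT
    ((((differentiable_LNt a).comp (differentiable_id.add_const _)).differentiableOn).mul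
      ((differentiable_id.const_cpow (Or.inl (ofReal_ne_zero.2 hY.ne'))).differentiableOn.mul
        (hd.congr hH1)))
    (hI.congr fun s hs => by rw [hH2 s hs])
    (fun s hs hs' => by
      have hr : s ∈ rect σ₁ σ₂ (-t) T := ⟨hs.ge, hs.le.trans h12, hs'⟩
      rw [norm_mul, norm_mul, hH1 s hr, norm_cpow_eq_rpow_re_of_pos hY, hs, mul_right_comm]
      exact mul_le_mul (hL s hs.ge (hs.le.trans h12))
        (mul_le_mul_of_nonneg_left (hM₁ s hs (by simpa using hs')) hY1.le) (by positivity)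
        (by positivity))
    (fun s hs hs' => by
      have hr : σ₁ ≤ s.re ∧ s.re ≤ σ₂ := by
        rcases hs' with h | h
        · exact ⟨h.1, h.2.1⟩
        · exact ⟨h12.trans h.ge, h.le⟩
      have hb : ‖H s‖ ≤ M₂ + C₂ := by
        rcases hs' with h | h
        · rw [hH1 s h]
          have := hM₂ s h.1 h.2.1 (by simpa using le_antisymm h.2.2 hs)
          linarith
        · rw [hH2 s h]
          have := h₂ c s hc (by linarith)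
          linarith
      rw [norm_mul, norm_mul, mul_right_comm]
      exact mul_le_mul (hL s hr.1 hr.2) (mul_le_mul (hYs s hr.1 hr.2) hb (norm_nonneg _)
        (by positivity)) (by positivity) (by positivity))
  rw [hP, VI_congr (G := fun s => LNt a (s + I * t) * ((Y : ℂ) ^ s * H s))
    fun s hs => by rw [hH2 s hs]]
  refine key.trans ?_
  rw [mul_assoc C₁, show -(a ^ 2 / 2 / 4) = -(a ^ 2 / 8) by ring]
  refine mul_le_mul_of_nonneg_left ?_ hC₁.le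
  set E := Real.exp (-(a ^ 2 / 8) * T ^ 2)
  have hE : 0 < E := Real.exp_pos _
  have b1 : Y ^ σ₁ * M₁ ≤ (1 + C₂) * (M₁ * Y ^ σ₁) := by
    have : 0 ≤ C₂ * (M₁ * Y ^ σ₁) := by positivity
    linarith
  have b2 : (Y ^ σ₁ + Y ^ σ₂) * (M₂ + C₂) * E ≤ (1 + C₂) * ((M₂ + 1) * (Y ^ σ₁ + Y ^ σ₂) * E) := by
    have h3 : M₂ + C₂ ≤ (1 + C₂) * (M₂ + 1) := by nlinarith
    calc _ ≤ (Y ^ σ₁ + Y ^ σ₂) * ((1 + C₂) * (M₂ + 1)) * E := by gcongr
      _ = _ := by ring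
  calc _ = K * (Y ^ σ₁ * M₁ + (Y ^ σ₁ + Y ^ σ₂) * (M₂ + C₂) * E) := by ring
    _ ≤ K * ((1 + C₂) * (M₁ * Y ^ σ₁) + (1 + C₂) * ((M₂ + 1) * (Y ^ σ₁ + Y ^ σ₂) * E)) :=
        mul_le_mul_of_nonneg_left (add_le_add b1 b2) hK0.le
    _ = _ := by ring

end Crest.Agent.R17.C
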